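import Vale.Agent.P202.CharP.Gen2.DefsL
import Vale.Agent.P202.CharP.Gen2.Conn
import Vale.Agent.P202.CharP.Gen.LesG
import Vale.Agent.P202.CharP.Gen.WindowG
import Vale.Agent.P202.CharP.TotRows
import Vale.Agent.P202.CharP.BaseCh

/-!
P202-G3-H4: the Künneth formula with errors.
-/

namespace Vale.Agent.P202.CharP.Gen2

open Submodule TensorProduct IsLocalRing Gen

section Kun

variable {A : Type*} [CommRing A] [IsLocalRing A] {V : Type*} [AddCommGroup V] [Module A V]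

/-- finite length modules over a local ring are killed by a power of the maximal ideal. -/
lemma kun_exists_pow (X Y : Submodule A V) (hfin : rl X Y ≠ ⊤) :
    ∃ p : ℕ, maximalIdeal A ^ p • Y ≤ X := by
  have hJ : Module.length A (↥Y ⧸ X.submoduleOf Y) ≠ ⊤ := hfin
  set J := X.submoduleOf Y with hJd
  obtain ⟨hNo, hAr⟩ := isFiniteLength_iff_isNoetherian_isArtinian.mp
    (Module.length_ne_top_iff.mp hJ)
  obtain ⟨k, hk⟩ : ∃ k : ℕ, maximalIdeal A ^ k • (⊤ : Submodule A (↥Y ⧸ J)) = ⊥ := by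
    let f : ℕ →o (Submodule A (↥Y ⧸ J))ᵒᵈ :=
      ⟨fun k => OrderDual.toDual (maximalIdeal A ^ k • ⊤), fun a b hab =>
        Submodule.smul_mono_left (Ideal.pow_le_pow_right hab)⟩
    obtain ⟨k, hk⟩ := IsArtinian.monotone_stabilizes f
    refine ⟨k, ?_⟩
    have h1 : maximalIdeal A ^ k • (⊤ : Submodule A (↥Y ⧸ J))
        = maximalIdeal A ^ (k + 1) • ⊤ := hk (k + 1) (Nat.le_succ k)
    refine Submodule.eq_bot_of_le_smul_of_le_jacobson_bot (maximalIdeal A) _
      (IsNoetherian.noetherian _) ?_ (IsLocalRing.maximalIdeal_le_jacobson _)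
    rw [← mul_smul, ← pow_succ']
    exact h1.le
  refine ⟨k, ?_⟩
  have h2 : (maximalIdeal A ^ k • (⊤ : Submodule A Y)).map J.mkQ = ⊥ := by
    rw [Submodule.map_smul'', Submodule.map_top, Submodule.range_mkQ, hk]
  have h3 : maximalIdeal A ^ k • (⊤ : Submodule A Y) ≤ J := by
    intro v hv
    have h3 : J.mkQ v ∈ (maximalIdeal A ^ k • (⊤ : Submodule A Y)).map J.mkQ := ⟨v, hv, rfl⟩
    rw [h2, Submodule.mem_bot, Submodule.mkQ_apply, Submodule.Quotient.mk_eq_zero] at h3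
    exact h3
  have h4 := Submodule.map_mono (f := Y.subtype) h3
  rw [Submodule.map_smul'', Submodule.map_top, Submodule.range_subtype] at h4
  refine h4.trans ?_
  rintro _ ⟨x, hx, rfl⟩
  exact hx

variable (S : Type*) [CommRing S] [Algebra A S] {ι : Type*} [Fintype ι]

omit [IsLocalRing A] in
lemma kun_khs_self (deg : ι → ℤ) (Q : Matrix ι ι S) {M : Type*} [AddCommGroup M] [Module S M]
    (Y : Submodule S M) (i : ℤ) : khs deg Q Y Y i = 0 := by
  rw [khs, hh, rl_eq_zero_iff]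
  exact inf_le_left.trans le_sup_right

omit [IsLocalRing A] in
lemma kun_khs_le_add (deg : ι → ℤ) (Q : Matrix ι ι S) (hQ : IsCx deg Q) {M : Type*}
    [AddCommGroup M] [Module S M] (X Y Z : Submodule S M) (hXY : X ≤ Y) (hYZ : Y ≤ Z) (i : ℤ) :
    khs deg Q Z X i ≤ khs deg Q Z Y i + khs deg Q Y X i :=
  hh_le_add (tot deg Q (0 : M →ₗ[S] M)) (TR.tot_tot' deg Q hQ 0 (fun x => by simp))
    (lift deg (conc X)) (lift deg (conc Y)) (lift deg (conc Z))
    (TR.lift_stab' deg Q hQ 0 _ (conn_cstab _)) (TR.lift_stab' deg Q hQ 0 _ (conn_cstab _))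
    (TR.lift_stab' deg Q hQ 0 _ (conn_cstab _)) (conn_lift_mono deg (conn_conc_mono hXY))
    (conn_lift_mono deg (conn_conc_mono hYZ)) i

variable [Module.Flat A S]

/-- TASK G3-H4: a module of finite length. -/
theorem khs_le (deg : ι → ℤ) (Q : Matrix ι ι S) (hQ : IsCx deg Q) (X Y : Submodule A V)
    (hXY : X ≤ Y) (hfin : rl X Y ≠ ⊤) (i : ℤ) :
    khs deg Q (Y.baseChange S) (X.baseChange S) i ≤
      rl X Y * kh deg Q (S ⧸ (maximalIdeal A).map (algebraMap A S)) i := by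
  obtain ⟨p, hp⟩ := kun_exists_pow X Y hfin
  have hle : ∀ j, X ⊔ maximalIdeal A ^ j • Y ≤ Y := fun j => sup_le hXY Submodule.smul_le_right
  have key : ∀ j, khs deg Q (Y.baseChange S) ((X ⊔ maximalIdeal A ^ j • Y).baseChange S) i ≤
      rl (X ⊔ maximalIdeal A ^ j • Y) Y *
        kh deg Q (S ⧸ (maximalIdeal A).map (algebraMap A S)) i := by
    intro j
    induction j with
    | zero =>
      have h1 : X ⊔ maximalIdeal A ^ 0 • Y = Y := by
        rw [pow_zero, Ideal.one_eq_top, Submodule.top_smul]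
        exact sup_eq_right.2 hXY
      rw [h1, kun_khs_self]
      exact zero_le
    | succ j ih =>
      set Z := X ⊔ maximalIdeal A ^ j • Y with hZ
      set Z' := X ⊔ maximalIdeal A ^ (j + 1) • Y with hZ'
      have h1 : Z' ≤ Z := sup_le_sup_left
        (Submodule.smul_mono_left (Ideal.pow_le_pow_right (Nat.le_succ j))) X
      have h2 : maximalIdeal A • Z ≤ Z' := by
        rw [hZ, Submodule.smul_sup]
        refine sup_le (Submodule.smul_le_right.trans le_sup_left) ?_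
        rw [← mul_smul, ← pow_succ']
        exact le_sup_right
      have h3 : rl Z' Z ≠ ⊤ := by
        refine ne_top_of_le_ne_top hfin ?_
        exact (rl_anti_left le_sup_left).trans (rl_mono_right (hle j))
      have h4 := khs_baseChange S deg Q hQ Z' Z h1 h2 (rl Z' Z).toNat
        (ENat.natCast_toNat h3).symm i
      rw [ENat.natCast_toNat h3] at h4
      refine (kun_khs_le_add S deg Q hQ _ _ _ (baseChange_mono S h1)
        (baseChange_mono S (hle j)) i).trans ?_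
      rw [h4, rl_add h1 (hle j), add_mul, add_comm]
      exact add_le_add le_rfl ih
  have h1 : X ⊔ maximalIdeal A ^ p • Y = X := sup_eq_left.2 hp
  have h2 := key p
  rwa [h1] at h2

end Kun

section Rows

variable {S : Type*} [CommRing S] {ι : Type*} [Fintype ι] {M : Type*} [AddCommGroup M]
  [Module S M]

/-- canonical truncation, boundaries in degree `p`. -/
def kunB (d : M →ₗ[S] M) (Y X : ℤ → Submodule S M) (p : ℤ) : ℤ → Submodule S M :=
  TR.mix Y X (cb d Y X p) p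

/-- canonical truncation, cycles in degree `p`. -/
def kunZ (d : M →ₗ[S] M) (Y X : ℤ → Submodule S M) (p : ℤ) : ℤ → Submodule S M :=
  TR.mix Y X (cz d Y X p) p

variable {d : M →ₗ[S] M} {Y X : ℤ → Submodule S M}

lemma kun_dcb (p : ℤ) : ∀ x ∈ Y (p - 1), d x ∈ cb d Y X p := fun x hx =>
  le_sup_left (b := X p) ⟨x, hx, rfl⟩

lemma kunB_stab (hd : ∀ x, d (d x) = 0) (hX : CStab d X) (hY : CStab d Y)
    (hXY : ∀ p, X p ≤ Y p) (p : ℤ) : CStab d (kunB d Y X p) :=
  TR.mix_cstab hX hY (kun_dcb p) fun _ hx => (TR.cb_le_cz hd hX hY hXY p hx).2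

lemma kunZ_stab (hd : ∀ x, d (d x) = 0) (hX : CStab d X) (hY : CStab d Y)
    (hXY : ∀ p, X p ≤ Y p) (p : ℤ) : CStab d (kunZ d Y X p) :=
  TR.mix_cstab hX hY (fun x hx => TR.cb_le_cz hd hX hY hXY p (kun_dcb p x hx)) fun _ hx => hx.2

lemma kunB_le_kunZ (hd : ∀ x, d (d x) = 0) (hX : CStab d X) (hY : CStab d Y)
    (hXY : ∀ p, X p ≤ Y p) (p q : ℤ) : kunB d Y X p q ≤ kunZ d Y X p q := by
  unfold kunB kunZ
  rcases lt_trichotomy q p with h | h | h
  · rw [TR.mix_lt h, TR.mix_lt h]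
  · subst h
    rw [TR.mix_eq, TR.mix_eq]
    exact TR.cb_le_cz hd hX hY hXY q
  · rw [TR.mix_gt h, TR.mix_gt h]

lemma kunZ_le_kunB (p q : ℤ) : kunZ d Y X p q ≤ kunB d Y X (p + 1) q := by
  unfold kunB kunZ
  rcases lt_trichotomy q p with h | h | h
  · rw [TR.mix_lt h, TR.mix_lt (by omega)]
  · subst h
    rw [TR.mix_eq, TR.mix_lt (by omega)]
    exact inf_le_left
  · rw [TR.mix_gt h]
    rcases eq_or_ne q (p + 1) with h' | h'
    · subst h'
      rw [TR.mix_eq]
      exact le_sup_right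
    · rw [TR.mix_gt (by omega)]

lemma kun_X_le (hXY : ∀ p, X p ≤ Y p) (p q : ℤ) : X q ≤ kunB d Y X p q := by
  unfold kunB
  rcases lt_trichotomy q p with h | h | h
  · rw [TR.mix_lt h]
    exact hXY q
  · subst h
    rw [TR.mix_eq]
    exact le_sup_right
  · rw [TR.mix_gt h]

lemma kun_ex (p q : ℤ) : Ex d (kunB d Y X (p + 1)) (kunZ d Y X p) q := by
  rintro x ⟨hx1, hx2⟩
  have hx2' : d x ∈ kunZ d Y X p (q + 1) := hx2
  rcases lt_trichotomy q p with h | h | h
  · refine le_sup_right (a := (kunB d Y X (p + 1) (q - 1)).map d) ?_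
    unfold kunB at hx1
    unfold kunZ
    rw [TR.mix_lt (by omega)] at hx1
    rw [TR.mix_lt h]
    exact hx1
  · subst h
    refine le_sup_right (a := (kunB d Y X (q + 1) (q - 1)).map d) ?_
    unfold kunB at hx1
    unfold kunZ at hx2' ⊢
    rw [TR.mix_lt (by omega)] at hx1
    rw [TR.mix_gt (by omega)] at hx2'
    rw [TR.mix_eq]
    exact ⟨hx1, hx2'⟩
  · rcases eq_or_ne q (p + 1) with h' | h'
    · subst h'
      unfold kunB at hx1
      rw [TR.mix_eq] at hx1
      have e1 : kunB d Y X (p + 1) (p + 1 - 1) = Y (p + 1 - 1) := by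
        unfold kunB
        rw [TR.mix_lt (by omega)]
      have e2 : kunZ d Y X p (p + 1) = X (p + 1) := by
        unfold kunZ
        rw [TR.mix_gt (by omega)]
      change x ∈ (kunB d Y X (p + 1) (p + 1 - 1)).map d ⊔ kunZ d Y X p (p + 1)
      rw [e1, e2]
      exact hx1
    · refine le_sup_right (a := (kunB d Y X (p + 1) (q - 1)).map d) ?_
      unfold kunB at hx1
      unfold kunZ
      rw [TR.mix_gt (by omega)] at hx1
      rw [TR.mix_gt h]
      exact hx1

lemma kun_bot (hX : CStab d X) (hXY : ∀ p, X p ≤ Y p) {p : ℤ} (h : ∀ q, q < p → Y q ≤ X q) :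
    kunB d Y X p = X := by
  funext q
  refine le_antisymm ?_ (kun_X_le hXY p q)
  unfold kunB
  rcases lt_trichotomy q p with h' | h' | h'
  · rw [TR.mix_lt h']
    exact h q h'
  · subst h'
    rw [TR.mix_eq]
    refine sup_le ?_ le_rfl
    rintro _ ⟨y, hy, rfl⟩
    have := hX _ _ (h _ (by omega) hy)
    rwa [sub_add_cancel] at this
  · rw [TR.mix_gt h']

lemma kun_top (hY : CStab d Y) (hXY : ∀ p, X p ≤ Y p) {p : ℤ} (h : ∀ q, p ≤ q → Y q ≤ X q) :
    kunB d Y X p = Y := by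
  have _ := hY
  funext q
  unfold kunB
  rcases lt_trichotomy q p with h' | h' | h'
  · rw [TR.mix_lt h']
  · subst h'
    rw [TR.mix_eq]
    refine le_antisymm (sup_le ?_ (hXY q)) ((h q le_rfl).trans le_sup_right)
    rintro _ ⟨y, hy, rfl⟩
    have := hY _ _ hy
    rwa [sub_add_cancel] at this
  · rw [TR.mix_gt h']
    exact le_antisymm (hXY q) (h q h'.le)

/-- the homology of one step. -/
lemma kun_step (deg : ι → ℤ) (Q : Matrix ι ι S) (hQ : IsCx deg Q) (hd : ∀ x, d (d x) = 0)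
    (hX : CStab d X) (hY : CStab d Y) (hXY : ∀ p, X p ≤ Y p) (p δ : ℤ) :
    hh (tot deg Q d) (lift deg (kunB d Y X (p + 1))) (lift deg (kunB d Y X p)) δ =
      khs deg Q (cz d Y X p) (cb d Y X p) (δ + p) := by
  have hD := TR.tot_tot' deg Q hQ d hd
  have h0 : ∀ δ, hh (tot deg Q d) (lift deg (kunB d Y X (p + 1))) (lift deg (kunZ d Y X p)) δ = 0 :=
    fun δ => hh_lift_eq_zero deg Q hQ d hd (kunZ d Y X p) (kunB d Y X (p + 1))
      (kunZ_stab hd hX hY hXY p) (kunB_stab hd hX hY hXY (p + 1)) (kunZ_le_kunB p) δ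
      fun a => kun_ex p _
  rw [TR.hh_upper hD (conn_lift_mono deg (kunB_le_kunZ hd hX hY hXY p))
    (conn_lift_mono deg (kunZ_le_kunB p)) (h0 δ) (h0 (δ + 1))]
  exact TR.hh_mix deg Q hQ d Y X _ _ p hX hY (TR.cb_le_cz hd hX hY hXY p) (kun_dcb p)
    (fun x hx => hx.2) δ

/-- the sum of the small steps. -/
lemma kun_small (deg : ι → ℤ) (Q : Matrix ι ι S) (hQ : IsCx deg Q) (hd : ∀ x, d (d x) = 0)
    (hX : CStab d X) (hY : CStab d Y) (hXY : ∀ p, X p ≤ Y p) (p₀ : ℤ)
    (h : ∀ q, q < p₀ → Y q ≤ X q) (c : ℕ) (k : ℕ)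
    (hc : ∀ p, p₀ ≤ p → p < p₀ + k → ∀ i, khs deg Q (cz d Y X p) (cb d Y X p) i ≤ c) (δ : ℤ) :
    hh (tot deg Q d) (lift deg (kunB d Y X (p₀ + k))) (lift deg X) δ ≤ ((k * c : ℕ) : ℕ∞) := by
  have hD := TR.tot_tot' deg Q hQ d hd
  induction k with
  | zero =>
    have e : kunB d Y X (p₀ + ((0 : ℕ) : ℤ)) = X := by
      rw [Nat.cast_zero, add_zero]
      exact kun_bot hX hXY h
    have e0 : hh (tot deg Q d) (lift deg X) (lift deg X) δ = 0 := by
      rw [hh, rl_eq_zero_iff]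
      exact inf_le_left.trans le_sup_right
    rw [e, e0]
    exact zero_le
  | succ k ih =>
    have h1 := ih fun p hp1 hp2 => hc p hp1 (by push_cast; omega)
    have e : p₀ + ((k + 1 : ℕ) : ℤ) = p₀ + k + 1 := by push_cast; ring
    rw [e]
    refine (hh_le_add (tot deg Q d) hD (lift deg X) (lift deg (kunB d Y X (p₀ + k)))
      (lift deg (kunB d Y X (p₀ + k + 1))) (TR.lift_stab' deg Q hQ d X hX)
      (TR.lift_stab' deg Q hQ d _ (kunB_stab hd hX hY hXY _))
      (TR.lift_stab' deg Q hQ d _ (kunB_stab hd hX hY hXY _))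
      (conn_lift_mono deg (kun_X_le hXY _))
      (conn_lift_mono deg fun q => (kunB_le_kunZ hd hX hY hXY _ q).trans (kunZ_le_kunB _ q))
      δ).trans ?_
    rw [kun_step deg Q hQ hd hX hY hXY]
    have h2 := hc (p₀ + k) (by omega) (by push_cast; omega) (δ + (p₀ + k))
    refine (add_le_add h2 h1).trans (le_of_eq ?_)
    push_cast
    ring

end Rows

section Kun2

variable {A : Type*} [CommRing A] [IsLocalRing A] {V : Type*} [AddCommGroup V] [Module A V]
  (S : Type*) [CommRing S] [Algebra A S] [Module.Flat A S] {ι : Type*} [Fintype ι]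

/-- TASK G3-H4: the Künneth formula with errors. -/
theorem kun_err (deg : ι → ℤ) (Q : Matrix ι ι S) (hQ : IsCx deg Q) (n : ℕ)
    (d : V →ₗ[A] V) (hd : ∀ x, d (d x) = 0)
    (Y X : ℤ → Submodule A V) (hX : CStab d X) (hY : CStab d Y) (hXY : ∀ p, X p ≤ Y p)
    (hout : ∀ p, (p < -(n : ℤ) ∨ 1 ≤ p) → Y p ≤ X p)
    (hm : maximalIdeal A • cz d Y X 0 ≤ cb d Y X 0)
    (η : ℕ) (hη : ∀ p, p ≠ 0 → hc d Y X p ≤ η) (h0 : hc d Y X 0 ≠ ⊤)
    (t : ℤ → ℕ) (ht : ∀ i, kh deg Q (S ⧸ (maximalIdeal A).map (algebraMap A S)) i = t i)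
    (τ : ℕ) (hτ : ∀ i, t i ≤ τ) (i : ℤ) :
    hh (tot deg Q (d.baseChange S)) (lift deg (bcf S Y)) (lift deg (bcf S X)) i ≠ ⊤ ∧
    |((hh (tot deg Q (d.baseChange S)) (lift deg (bcf S Y)) (lift deg (bcf S X)) i).toNat : ℤ) -
      ((hc d Y X 0).toNat : ℤ) * t i| ≤ 2 * n * τ * η := by
  have hd' : ∀ x, (d.baseChange S) ((d.baseChange S) x) = 0 := by
    have h1 : (d.baseChange S) ∘ₗ (d.baseChange S) = 0 := by
      rw [← LinearMap.baseChange_comp]
      have h2 : d ∘ₗ d = 0 := LinearMap.ext hd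
      rw [h2, LinearMap.baseChange_zero]
    intro x
    exact LinearMap.congr_fun h1 x
  have hX' := wg_cstab_bcf S d X hX
  have hY' := wg_cstab_bcf S d Y hY
  have hXY' := wg_bcf_mono S hXY
  have hD := TR.tot_tot' deg Q hQ (d.baseChange S) hd'
  have hcc : ∀ p, cb d Y X p ≤ cz d Y X p := TR.cb_le_cz hd hX hY hXY
  -- the small steps
  have hs : ∀ p, -(n : ℤ) ≤ p → p < -(n : ℤ) + n → ∀ i,
      khs deg Q (cz (d.baseChange S) (bcf S Y) (bcf S X) p)
        (cb (d.baseChange S) (bcf S Y) (bcf S X) p) i ≤ ((η * τ : ℕ) : ℕ∞) := by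
    intro p _ hp i
    have h1 := hη p (by omega)
    rw [cz_bcf, cb_bcf]
    refine (khs_le S deg Q hQ _ _ (hcc p) (ne_top_of_le_ne_top (ENat.natCast_ne_top _) h1)
      i).trans ?_
    rw [ht]
    have h2 : (t i : ℕ∞) ≤ τ := by exact_mod_cast hτ i
    push_cast
    exact mul_le_mul' h1 h2
  have hL : ∀ δ, hh (tot deg Q (d.baseChange S))
      (lift deg (kunB (d.baseChange S) (bcf S Y) (bcf S X) 0)) (lift deg (bcf S X)) δ ≤
      ((n * (η * τ) : ℕ) : ℕ∞) := fun δ => by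
    have h := kun_small deg Q hQ hd' hX' hY' hXY' (-(n : ℤ))
      (fun q hq => baseChange_mono S (hout q (Or.inl hq))) (η * τ) n hs δ
    rwa [neg_add_cancel] at h
  -- the main step
  have hK : hh (tot deg Q (d.baseChange S)) (lift deg (bcf S Y))
      (lift deg (kunB (d.baseChange S) (bcf S Y) (bcf S X) 0)) i =
      (((hc d Y X 0).toNat * t i : ℕ) : ℕ∞) := by
    have h := kun_step deg Q hQ hd' hX' hY' hXY' 0 i
    rw [zero_add, kun_top hY' hXY' (p := 1)
      (fun q hq => baseChange_mono S (hout q (Or.inr hq)))] at h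
    rw [h, cz_bcf, cb_bcf, khs_baseChange S deg Q hQ _ _ (hcc 0) hm (hc d Y X 0).toNat
      (ENat.natCast_toNat h0).symm, ht, add_zero]
    push_cast
    rfl
  have hle1 := conn_lift_mono deg (kun_X_le (d := d.baseChange S) hXY' 0)
  have hle2 : ∀ δ, lift deg (kunB (d.baseChange S) (bcf S Y) (bcf S X) 0) δ ≤
      lift deg (bcf S Y) δ := by
    refine conn_lift_mono deg fun q => ?_
    refine (kunB_le_kunZ hd' hX' hY' hXY' 0 q).trans ?_
    refine (kunZ_le_kunB 0 q).trans ?_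
    rw [zero_add, kun_top hY' hXY' (p := 1)
      (fun q hq => baseChange_mono S (hout q (Or.inr hq)))]
  have sX := TR.lift_stab' deg Q hQ (d.baseChange S) _ hX'
  have sY := TR.lift_stab' deg Q hQ (d.baseChange S) _ hY'
  have sB := TR.lift_stab' deg Q hQ (d.baseChange S) _ (kunB_stab hd' hX' hY' hXY' 0)
  have e1 := hh_le_add (tot deg Q (d.baseChange S)) hD _ _ _ sX sB sY hle1 hle2 i
  have e2 := hh_quot_le (tot deg Q (d.baseChange S)) hD _ _ _ sX sB sY hle1 hle2 i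
  rw [hK] at e1 e2
  have e3 := hL i
  have e4 := hL (i - 1)
  set H := hh (tot deg Q (d.baseChange S)) (lift deg (bcf S Y)) (lift deg (bcf S X)) i with hH
  have e5 : H ≤ (((hc d Y X 0).toNat * t i + n * (η * τ) : ℕ) : ℕ∞) := by
    refine e1.trans ?_
    rw [Nat.cast_add]
    exact add_le_add le_rfl e3
  have hfin : H ≠ ⊤ := ne_top_of_le_ne_top (ENat.natCast_ne_top _) e5
  have e6 : (((hc d Y X 0).toNat * t i : ℕ) : ℕ∞) ≤ H + ((n * (η * τ) : ℕ) : ℕ∞) :=
    e2.trans (add_le_add le_rfl e4)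
  refine ⟨hfin, ?_⟩
  lift H to ℕ using hfin with H'
  rw [ENat.toNat_natCast]
  have e7 : H' ≤ (hc d Y X 0).toNat * t i + n * (η * τ) := by exact_mod_cast e5
  have e8 : (hc d Y X 0).toNat * t i ≤ H' + n * (η * τ) := by exact_mod_cast e6
  have e9 : (H' : ℤ) ≤ ((hc d Y X 0).toNat : ℤ) * t i + n * (η * τ) := by exact_mod_cast e7
  have e10 : ((hc d Y X 0).toNat : ℤ) * t i ≤ H' + n * (η * τ) := by exact_mod_cast e8
  have e11 : (0 : ℤ) ≤ n * (η * τ) := by positivity
  rw [abs_le]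
  constructor <;> nlinarith

end Kun2

end Vale.Agent.P202.CharP.Gen2
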