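import Vale.Agent.P202.CharP.Gen2.DefsL
import Vale.Agent.P202.CharP.Gen.LesC
import Vale.Agent.P202.CharP.BaseCh
import Vale.Agent.P202.CharP.TotBasic

/-!
P202-G3, task G3-H3: devissage over the small ring: the Koszul homology over `A` of a nilpotent
module of finite length.
-/

namespace Vale.Agent.P202.CharP.Gen2

open Submodule TensorProduct IsLocalRing Gen

namespace SmallDev

section Basic

variable {A P Om : Type*} [CommRing A] [CommRing P] [CommRing Om] [Algebra A Om]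
  [Algebra P Om] [SMulCommClass P A Om] {V W : Type*} [AddCommGroup V]
  [Module P V] [AddCommGroup W] [Module P W] {n : ℕ} (v : Fin n → Om)

lemma mem_KA {Y : Submodule P V} {p : ℤ} {f : KIdx n → Om ⊗[P] V} :
    f ∈ KA A Om n Y p ↔ ∀ a, (kdeg n a + p = 0 → f a ∈ Y.baseChange Om) ∧
      (kdeg n a + p ≠ 0 → f a = 0) := by
  rw [KA, Submodule.restrictScalars_mem, khc_mem_lift]
  refine forall_congr' fun a => ?_
  rw [mem_conc, sub_neg_eq_add]

lemma DA_apply (f : KIdx n → Om ⊗[P] V) (a : KIdx n) :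
    DA A V v f a = ∑ b, kos n v a b • f b := rfl

lemma DA_sq (f : KIdx n → Om ⊗[P] V) : DA A V v (DA A V v f) = 0 := by
  change act (kos n v) _ (act (kos n v) _ f) = 0
  rw [← act_mul, (kos_isCx n v).sq, act_zero]

lemma KA_cstab (Y : Submodule P V) : CStab (DA A V v) (KA A Om n Y) := by
  intro p f hf
  have h1 := lift_conc_stab (kdeg n) (kos n v) (kos_isCx n v) (Y.baseChange Om) (-p) f hf
  have h2 : tot (kdeg n) (kos n v) (0 : Om ⊗[P] V →ₗ[Om] Om ⊗[P] V) f = DA A V v f := by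
    ext a
    rw [tot_zero_apply]
    rfl
  have h3 : -p - 1 = -(p + 1) := by ring
  rw [h2, h3] at h1
  exact h1

lemma KA_mono {X Y : Submodule P V} (h : X ≤ Y) (p : ℤ) : KA A Om n X p ≤ KA A Om n Y p := by
  intro f hf
  rw [mem_KA] at hf ⊢
  exact fun a => ⟨fun h1 => baseChange_mono Om h ((hf a).1 h1), (hf a).2⟩

lemma KA_out (X Y : Submodule P V) (p : ℤ) (hp : p < -(n : ℤ) ∨ 1 ≤ p) :
    KA A Om n Y p ≤ KA A Om n X p := by
  intro f hf
  rw [mem_KA] at hf ⊢
  intro a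
  obtain ⟨h1, h2⟩ := kdeg_range n a
  exact ⟨fun h => absurd h (by omega), (hf a).2⟩

lemma hA_self (X : Submodule P V) (b : ℤ) : hA A v X X b = 0 := by
  rw [hA, hc, rl_eq_zero_iff]
  exact inf_le_left.trans le_sup_right

lemma hA_add_le (X Y Z : Submodule P V) (hXY : X ≤ Y) (hYZ : Y ≤ Z) (b : ℤ) :
    hA A v Z X b ≤ hA A v Z Y b + hA A v Y X b :=
  hc_le_add _ (DA_sq v) _ _ _ (KA_cstab v X) (KA_cstab v Y) (KA_cstab v Z) (KA_mono hXY)
    (KA_mono hYZ) _

lemma xic_hA (X Y : Submodule P V) :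
    xic n 1 (fun p => hA A v Y X (-p)) = xic n 1 (hc (DA A V v) (KA A Om n Y) (KA A Om n X)) := by
  congr 1
  ext1 p
  rw [hA, neg_neg]

lemma hA_xi_add (X Y Z : Submodule P V) (hXY : X ≤ Y) (hYZ : Y ≤ Z)
    (h1 : ∀ b, hA A v Z Y b ≠ ⊤) (h2 : ∀ b, hA A v Y X b ≠ ⊤) :
    xic n 1 (fun p => hA A v Z X (-p)) =
      xic n 1 (fun p => hA A v Z Y (-p)) + xic n 1 (fun p => hA A v Y X (-p)) := by
  rw [xic_hA, xic_hA, xic_hA]
  refine hc_xi_add n 1 _ (DA_sq v) _ _ _ (KA_cstab v X) (KA_cstab v Y) (KA_cstab v Z)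
    (KA_mono hXY) (KA_mono hYZ) (fun p => ?_) (fun p => ?_) (fun p hp => ?_)
  · have := h1 (-p)
    rwa [hA, neg_neg] at this
  · have := h2 (-p)
    rwa [hA, neg_neg] at this
  · exact KA_out X Z p (by simpa using hp)

/-- the map induced on the Koszul complexes. -/
noncomputable def kmap (A : Type*) {P : Type*} (Om : Type*) [CommRing A] [CommRing P]
    [CommRing Om] [Algebra A Om] [Algebra P Om] [SMulCommClass P A Om] {V W : Type*}
    [AddCommGroup V] [Module P V] [AddCommGroup W] [Module P W] (n : ℕ) (φ : W →ₗ[P] V) :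
    (KIdx n → Om ⊗[P] W) →ₗ[A] (KIdx n → Om ⊗[P] V) :=
  ((φ.baseChange Om).compLeft (KIdx n)).restrictScalars A

lemma kmap_apply (φ : W →ₗ[P] V) (f : KIdx n → Om ⊗[P] W) (a : KIdx n) :
    kmap A Om n φ f a = φ.baseChange Om (f a) := rfl

lemma kmap_DA (φ : W →ₗ[P] V) (f : KIdx n → Om ⊗[P] W) :
    kmap A Om n φ (DA A W v f) = DA A V v (kmap A Om n φ f) := by
  ext a
  rw [kmap_apply, DA_apply, DA_apply, map_sum]
  refine Finset.sum_congr rfl fun b _ => ?_
  rw [map_smul, kmap_apply]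

lemma hA_transport [Module.Flat P Om] (φ : W →ₗ[P] V) (X Y : Submodule P W)
    (X' Y' : Submodule P V) (h1 : Y.map φ ⊔ X' = Y') (h2 : Y ⊓ X'.comap φ = X) (b : ℤ) :
    hA A v Y X b = hA A v Y' X' b := by
  have hXY : X ≤ Y := h2 ▸ inf_le_left
  refine hc_transport _ _ (kmap A Om n φ) (kmap_DA v φ) _ _ _ _ (KA_cstab v X) (KA_cstab v Y)
    (KA_cstab v X') (KA_mono hXY) (fun p => ?_) (fun p => ?_) _
  · refine le_antisymm (sup_le ?_ (KA_mono (h1 ▸ le_sup_right) p)) ?_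
    · rintro _ ⟨f, hf, rfl⟩
      rw [SetLike.mem_coe, mem_KA] at hf
      rw [mem_KA]
      intro a
      refine ⟨fun ha => ?_, fun ha => ?_⟩
      · rw [kmap_apply, ← h1, baseChange_sup', baseChange_map]
        exact mem_sup_left (Submodule.mem_map_of_mem ((hf a).1 ha))
      · rw [kmap_apply, (hf a).2 ha, map_zero]
    · intro g hg
      rw [mem_KA] at hg
      have key : ∀ a, ∃ s : Om ⊗[P] W, ∃ t : Om ⊗[P] V,
          (kdeg n a + p = 0 → s ∈ Y.baseChange Om) ∧ (kdeg n a + p ≠ 0 → s = 0) ∧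
          (kdeg n a + p = 0 → t ∈ X'.baseChange Om) ∧ (kdeg n a + p ≠ 0 → t = 0) ∧
          φ.baseChange Om s + t = g a := by
        intro a
        by_cases ha : kdeg n a + p = 0
        · have h3 := (hg a).1 ha
          rw [← h1, baseChange_sup', baseChange_map] at h3
          obtain ⟨_, ⟨s, hs, rfl⟩, t, ht, he⟩ := Submodule.mem_sup.1 h3
          exact ⟨s, t, fun _ => hs, fun h => absurd ha h, fun _ => ht, fun h => absurd ha h, he⟩
        · refine ⟨0, 0, fun h => absurd h ha, fun _ => rfl, fun h => absurd h ha, fun _ => rfl, ?_⟩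
          rw [(hg a).2 ha, map_zero, add_zero]
      choose s t hs1 hs2 ht1 ht2 he using key
      have he' : kmap A Om n φ s + t = g := by
        ext a
        exact he a
      rw [← he']
      refine Submodule.add_mem_sup (Submodule.mem_map_of_mem ?_) ?_
      · rw [mem_KA]
        exact fun a => ⟨hs1 a, hs2 a⟩
      · rw [mem_KA]
        exact fun a => ⟨ht1 a, ht2 a⟩
  · ext f
    rw [Submodule.mem_inf, Submodule.mem_comap, mem_KA, mem_KA, mem_KA, ← forall_and]
    refine forall_congr' fun a => ?_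
    rw [kmap_apply, ← h2, baseChange_inf, baseChange_comap, Submodule.mem_inf, Submodule.mem_comap]
    constructor
    · rintro ⟨⟨h3, h4⟩, h5, -⟩
      exact ⟨fun h => ⟨h3 h, h5 h⟩, h4⟩
    · rintro ⟨h3, h4⟩
      exact ⟨⟨fun h => (h3 h).1, h4⟩, fun h => (h3 h).2, fun h => by rw [h4 h, map_zero]⟩

end Basic

section Step

variable {P : Type*} [CommRing P] {V : Type*} [AddCommGroup V] [Module P V]

lemma exists_step (X Y : Submodule P V) (hXY : X ≤ Y) (hfin : rl X Y ≠ ⊤) (h0 : rl X Y ≠ 0) :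
    ∃ Z, X ≤ Z ∧ Z ≤ Y ∧ rl Z Y = 1 := by
  have hfl : IsFiniteLength P (↥Y ⧸ X.submoduleOf Y) := Module.length_ne_top_iff.1 hfin
  have hN : IsNoetherian P (↥Y ⧸ X.submoduleOf Y) :=
    (isFiniteLength_iff_isNoetherian_isArtinian.1 hfl).1
  have hnt : Nontrivial (↥Y ⧸ X.submoduleOf Y) := by
    rw [← not_subsingleton_iff_nontrivial]
    intro h
    exact h0 (Module.length_eq_zero_iff.2 h)
  obtain ⟨C, hC⟩ : ∃ C : Submodule P (↥Y ⧸ X.submoduleOf Y), IsCoatom C := by
    rcases eq_top_or_exists_le_coatom (⊥ : Submodule P (↥Y ⧸ X.submoduleOf Y)) with h | ⟨C, hC, -⟩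
    · exact absurd h bot_ne_top
    · exact ⟨C, hC⟩
  refine ⟨(C.comap (X.submoduleOf Y).mkQ).map Y.subtype, ?_, Submodule.map_subtype_le _ _, ?_⟩
  · intro x hx
    refine ⟨⟨x, hXY hx⟩, ?_, rfl⟩
    have h2 : (X.submoduleOf Y).mkQ ⟨x, hXY hx⟩ = 0 :=
      (Submodule.Quotient.mk_eq_zero _).2 hx
    change (X.submoduleOf Y).mkQ ⟨x, hXY hx⟩ ∈ C
    rw [h2]
    exact C.zero_mem
  · have h1 : Y = (⊤ : Submodule P Y).map Y.subtype := by
      rw [Submodule.map_top, Submodule.range_subtype]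
    have h3 : rl (C.comap (X.submoduleOf Y).mkQ) (⊤ : Submodule P Y) = 1 := by
      have h4 := rl_comap (X.submoduleOf Y).mkQ C ⊤
      rw [Submodule.comap_top, Submodule.range_mkQ, inf_top_eq] at h4
      rw [h4, rl_top, Module.length_eq_one_iff]
      exact isSimpleModule_iff_isCoatom.2 hC
    have h5 := rl_map_of_injective Y.subtype Y.injective_subtype
      (C.comap (X.submoduleOf Y).mkQ) ⊤
    rw [← h1, h3] at h5
    exact h5

lemma step_data (m : Ideal P) [m.IsMaximal] (K : ℕ) (X Y : Submodule P V) (hXY : X ≤ Y)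
    (hK : m ^ K • Y ≤ X) (h1 : rl X Y = 1) :
    ∃ φ : P →ₗ[P] V, (⊤ : Submodule P P).map φ ⊔ X = Y ∧ ⊤ ⊓ X.comap φ = m := by
  have h2 : ¬ Y ≤ X := fun h => by
    rw [rl_eq_zero_iff.2 h] at h1
    exact zero_ne_one h1
  obtain ⟨v0, hv0, hv1⟩ := SetLike.not_le_iff_exists.1 h2
  let φ : P →ₗ[P] V := LinearMap.toSpanSingleton P V v0
  have hφ : ∀ q, φ q = q • v0 := fun q => rfl
  have hle : (⊤ : Submodule P P).map φ ⊔ X ≤ Y := by
    refine sup_le ?_ hXY
    rintro _ ⟨q, -, rfl⟩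
    exact Y.smul_mem q hv0
  have hv2 : v0 ∈ (⊤ : Submodule P P).map φ := ⟨1, trivial, one_smul P v0⟩
  have h3 : rl X ((⊤ : Submodule P P).map φ ⊔ X) ≠ 0 := fun h =>
    hv1 (rl_eq_zero_iff.1 h (mem_sup_left hv2))
  have h4 : 1 ≤ rl X ((⊤ : Submodule P P).map φ ⊔ X) := Order.one_le_iff_ne_zero.2 h3
  have h5 := rl_add (le_sup_right : X ≤ (⊤ : Submodule P P).map φ ⊔ X) hle
  rw [h1] at h5
  have h6 : rl X ((⊤ : Submodule P P).map φ ⊔ X) = 1 :=
    le_antisymm (h5 ▸ le_self_add) h4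
  have h7 : rl ((⊤ : Submodule P P).map φ ⊔ X) Y = 0 := by
    rw [h6] at h5
    have h8 : (fun x : ℕ∞ => 1 + x) (rl ((⊤ : Submodule P P).map φ ⊔ X) Y) =
        (fun x : ℕ∞ => 1 + x) 0 := by
      simp only [add_zero]
      exact h5.symm
    exact ENat.add_right_injective_of_ne_top (by simp) h8
  refine ⟨φ, le_antisymm hle (rl_eq_zero_iff.1 h7), ?_⟩
  have h9 : rl (X.comap φ) ⊤ = 1 := by
    rw [← les_rl_map_right, ← rl_sup_right, sup_comm, h6]
  rw [rl_top, Module.length_eq_one_iff, isSimpleModule_iff_isCoatom] at h9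
  rw [top_inf_eq]
  have hI : Ideal.IsMaximal (X.comap φ) := ⟨h9⟩
  have h10 : m ^ K ≤ X.comap φ := by
    intro q hq
    exact hK (Submodule.smul_mem_smul hq hv0)
  have h11 : m ≤ X.comap φ := hI.isPrime.le_of_pow_le h10
  exact (Ideal.IsMaximal.eq_of_le inferInstance hI.ne_top h11).symm

end Step

section Main

variable {A P Om : Type*} [CommRing A] [CommRing P] [CommRing Om] [Algebra A Om]
  [Algebra P Om] [SMulCommClass P A Om] [Module.Flat P Om] {V : Type*} [AddCommGroup V]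
  [Module P V] {n : ℕ} (v : Fin n → Om)

lemma hA_step (m : Ideal P) [m.IsMaximal] (K : ℕ) (X Y : Submodule P V) (hXY : X ≤ Y)
    (hK : m ^ K • Y ≤ X) (h1 : rl X Y = 1) (b : ℤ) :
    hA A v Y X b = hA A v (⊤ : Submodule P P) m b := by
  obtain ⟨φ, h2, h3⟩ := step_data m K X Y hXY hK h1
  exact (hA_transport v φ m ⊤ X Y h2 h3 b).symm

lemma hA_le_nat (m : Ideal P) [m.IsMaximal] (K : ℕ) (w : ℕ) : ∀ (X Y : Submodule P V),
    X ≤ Y → m ^ K • Y ≤ X → rl X Y = w → ∀ b : ℤ,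
    hA A v Y X b ≤ w * hA A v (⊤ : Submodule P P) m b := by
  induction w with
  | zero =>
    intro X Y hXY _ h0 b
    have h1 : Y = X := le_antisymm (rl_eq_zero_iff.1 (by simpa using h0)) hXY
    rw [h1, hA_self]
    exact zero_le
  | succ w ih =>
    intro X Y hXY hK h0 b
    obtain ⟨Z, hXZ, hZY, hZ⟩ := exists_step X Y hXY (by rw [h0]; exact ENat.natCast_ne_top _)
      (by rw [h0]; simp)
    have h1 := rl_add hXZ hZY
    rw [h0, hZ] at h1
    have h2 : rl X Z = w := by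
      have h3 : rl X Z ≠ ⊤ := fun h => by
        rw [h, top_add] at h1
        exact ENat.natCast_ne_top _ h1
      obtain ⟨z, hz⟩ := ENat.ne_top_iff_exists.1 h3
      rw [← hz] at h1 ⊢
      have h4 : w + 1 = z + 1 := by exact_mod_cast h1
      rw [Nat.add_right_cancel h4]
    have h5 := ih X Z hXZ ((Submodule.smul_mono le_rfl hZY).trans hK) h2 b
    have h6 := hA_step (A := A) v m K Z Y hZY (hK.trans hXZ) hZ b
    calc hA A v Y X b ≤ hA A v Y Z b + hA A v Z X b := hA_add_le v X Z Y hXZ hZY b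
      _ ≤ hA A v (⊤ : Submodule P P) m b + w * hA A v (⊤ : Submodule P P) m b := by
        rw [h6]
        exact add_le_add_right h5 _
      _ = ((w + 1 : ℕ) : ℕ∞) * hA A v (⊤ : Submodule P P) m b := by
        push_cast
        ring

lemma hA_xi_nat (m : Ideal P) [m.IsMaximal] (K : ℕ)
    (hb : ∀ b, hA A v (⊤ : Submodule P P) m b ≠ ⊤) (w : ℕ) : ∀ (X Y : Submodule P V),
    X ≤ Y → m ^ K • Y ≤ X → rl X Y = w →
    xic n 1 (fun p => hA A v Y X (-p)) =
      (w : ℤ) * xic n 1 (fun p => hA A v (⊤ : Submodule P P) m (-p)) := by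
  induction w with
  | zero =>
    intro X Y hXY _ h0
    have h1 : Y = X := le_antisymm (rl_eq_zero_iff.1 (by simpa using h0)) hXY
    rw [h1]
    simp [hA_self, xic]
  | succ w ih =>
    intro X Y hXY hK h0
    obtain ⟨Z, hXZ, hZY, hZ⟩ := exists_step X Y hXY (by rw [h0]; exact ENat.natCast_ne_top _)
      (by rw [h0]; simp)
    have h1 := rl_add hXZ hZY
    rw [h0, hZ] at h1
    have h2 : rl X Z = w := by
      have h3 : rl X Z ≠ ⊤ := fun h => by
        rw [h, top_add] at h1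
        exact ENat.natCast_ne_top _ h1
      obtain ⟨z, hz⟩ := ENat.ne_top_iff_exists.1 h3
      rw [← hz] at h1 ⊢
      have h4 : w + 1 = z + 1 := by exact_mod_cast h1
      rw [Nat.add_right_cancel h4]
    have hKZ : m ^ K • Z ≤ X := (Submodule.smul_mono le_rfl hZY).trans hK
    have h5 := ih X Z hXZ hKZ h2
    have h6 : ∀ b, hA A v Y Z b = hA A v (⊤ : Submodule P P) m b := fun b =>
      hA_step v m K Z Y hZY (hK.trans hXZ) hZ b
    have h7 : ∀ b, hA A v Z X b ≠ ⊤ := fun b =>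
      ne_top_of_le_ne_top (WithTop.mul_ne_top (ENat.natCast_ne_top w) (hb b))
        (hA_le_nat v m K w X Z hXZ hKZ h2 b)
    rw [hA_xi_add v X Z Y hXZ hZY (fun b => by rw [h6]; exact hb b) h7, h5]
    simp only [h6]
    push_cast
    ring

end Main

end SmallDev

section Small

variable {A P Om : Type*} [CommRing A] [CommRing P] [CommRing Om] [Algebra A Om]
  [Algebra P Om] [SMulCommClass P A Om] [Module.Flat P Om] {V : Type*} [AddCommGroup V]
  [Module P V] {n : ℕ} (v : Fin n → Om)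

/-- TASK G3-H3: the Koszul homology over `A` of a nilpotent module of finite length. -/
theorem hA_le (m : Ideal P) [m.IsMaximal] (K : ℕ) (X Y : Submodule P V) (hXY : X ≤ Y)
    (hK : m ^ K • Y ≤ X) (hfin : rl X Y ≠ ⊤) (b : ℤ) :
    hA A v Y X b ≤ rl X Y * hA A v (⊤ : Submodule P P) m b := by
  obtain ⟨w, hw⟩ := ENat.ne_top_iff_exists.1 hfin
  rw [← hw]
  exact SmallDev.hA_le_nat v m K w X Y hXY hK hw.symm b

/-- TASK G3-H3: the Euler characteristic of the Koszul homology over `A`. -/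
theorem hA_xi (m : Ideal P) [m.IsMaximal] (K : ℕ) (X Y : Submodule P V) (hXY : X ≤ Y)
    (hK : m ^ K • Y ≤ X) (hfin : rl X Y ≠ ⊤)
    (hb : ∀ b, hA A v (⊤ : Submodule P P) m b ≠ ⊤) :
    xic n 1 (fun p => hA A v Y X (-p)) =
      ((rl X Y).toNat : ℤ) * xic n 1 (fun p => hA A v (⊤ : Submodule P P) m (-p)) := by
  obtain ⟨w, hw⟩ := ENat.ne_top_iff_exists.1 hfin
  rw [← hw, ENat.toNat_natCast]
  exact SmallDev.hA_xi_nat v m K hb w X Y hXY hK hw.symm

end Small

end Vale.Agent.P202.CharP.Gen2
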