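import Vale.Agent.P202.CharP.Gen2.DefsL
import Vale.Agent.P202.CharP.KFr
import Vale.Agent.P202.CharP.BaseCh
import Vale.Agent.P202.CharP.TotBasic

/-!
P202-G3-H5: transport from `Sg ⊗ V` to `S ⊗ (Om ⊗ V)`, with the change of lengths.
-/

namespace Vale.Agent.P202.CharP.Gen2

open Submodule TensorProduct IsLocalRing Gen

universe u w

section Restrict

variable {S Sg : Type*} [CommRing S] [CommRing Sg] [Algebra S Sg] {𝕋 : Type*} [AddCommGroup 𝕋]
  [Module S 𝕋] [Module Sg 𝕋] [IsScalarTower S Sg 𝕋]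

theorem tr_zz_restrict (D : 𝕋 →ₗ[Sg] 𝕋) (Y X : ℤ → Submodule Sg 𝕋) (δ : ℤ) :
    zz (D.restrictScalars S) (fun p => (Y p).restrictScalars S)
      (fun p => (X p).restrictScalars S) δ = (zz D Y X δ).restrictScalars S := rfl

theorem tr_bb_restrict (D : 𝕋 →ₗ[Sg] 𝕋) (Y X : ℤ → Submodule Sg 𝕋) (δ : ℤ) :
    bb (D.restrictScalars S) (fun p => (Y p).restrictScalars S)
      (fun p => (X p).restrictScalars S) δ = (bb D Y X δ).restrictScalars S := by
  ext f
  rw [Submodule.restrictScalars_mem]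
  unfold bb
  rw [Submodule.mem_sup, Submodule.mem_sup]
  constructor
  · rintro ⟨z, ⟨x, hx, rfl⟩, t, ht, rfl⟩
    exact ⟨_, ⟨x, hx, rfl⟩, t, ht, rfl⟩
  · rintro ⟨z, ⟨x, hx, rfl⟩, t, ht, rfl⟩
    exact ⟨_, ⟨x, hx, rfl⟩, t, ht, rfl⟩

end Restrict

section Pm

variable {S : Type*} [CommRing S] {M : Type*} [AddCommGroup M] [Module S M]

theorem tr_pm_deg (n : ℕ) (y v : Fin n → S) (x x' : KIdx n × KIdx n)
    (h : pm n y v x x' ≠ 0) : pdegP n x' = pdegP n x + 1 := by
  unfold pm at h
  unfold pdegP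
  by_cases h2 : x.2 = x'.2
  · by_cases h1 : x.1 = x'.1
    · exfalso
      apply h
      have e1 : kos n y x.1 x'.1 = 0 := by
        by_contra h3
        have := (kos_isCx n y).deg_eq _ _ h3
        rw [h1] at this
        omega
      have e2 : kos n v x.2 x'.2 = 0 := by
        by_contra h3
        have := (kos_isCx n v).deg_eq _ _ h3
        rw [h2] at this
        omega
      rw [if_pos h2, if_pos h1, e1, e2, mul_zero, add_zero]
    · rw [if_pos h2, if_neg h1, add_zero] at h
      have := (kos_isCx n y).deg_eq _ _ h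
      rw [← h2]
      omega
  · by_cases h1 : x.1 = x'.1
    · rw [if_neg h2, if_pos h1, zero_add] at h
      have := (kos_isCx n v).deg_eq _ _ (right_ne_zero_of_mul h)
      rw [← h1]
      omega
    · exfalso
      apply h
      rw [if_neg h2, if_neg h1, add_zero]

theorem tr_pm_stab (n : ℕ) (y v : Fin n → S) (Y : Submodule S M) :
    Stab (tot (pdegP n) (pm n y v) (0 : M →ₗ[S] M)) (lift (pdegP n) (conc Y)) := by
  intro δ f hf
  rw [khc_mem_lift] at hf ⊢
  intro a
  rw [tot_zero_apply]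
  refine Submodule.sum_mem _ fun b _ => ?_
  by_cases hab : pm n y v a b = 0
  · rw [hab, zero_smul]; exact Submodule.zero_mem _
  · have h1 := tr_pm_deg n y v a b hab
    have h2 := hf b
    rw [h1] at h2
    refine Submodule.smul_mem _ _ ?_
    have e : pdegP n a - (δ - 1) = pdegP n a + 1 - δ := by ring
    rw [e]; exact h2

theorem tr_tot_pm (n : ℕ) (y v : Fin n → S) (h : KIdx n × KIdx n → M) (a b : KIdx n) :
    tot (pdegP n) (pm n y v) (0 : M →ₗ[S] M) h (a, b) =
      ∑ a', kos n y a a' • h (a', b) +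
        ((kdeg n a).negOnePow : ℤ) • ∑ b', kos n v b b' • h (a, b') := by
  rw [tot_zero_apply]
  have e : ∀ x' : KIdx n × KIdx n, pm n y v (a, b) x' • h x' =
      (if b = x'.2 then kos n y a x'.1 • h x' else 0) +
        (if a = x'.1 then ((kdeg n a).negOnePow : ℤ) • kos n v b x'.2 • h x' else 0) := by
    intro x'
    unfold pm
    rw [add_smul, ite_smul, zero_smul, ite_smul, zero_smul]
    congr 1
    split_ifs with h1
    · rw [mul_smul, Int.cast_smul_eq_zsmul]
    · rfl
  simp only [e]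
  rw [Finset.sum_add_distrib, Fintype.sum_prod_type, Fintype.sum_prod_type]
  congr 1
  · refine Finset.sum_congr rfl fun a' _ => ?_
    simp
  · rw [Finset.sum_comm, Finset.smul_sum]
    refine Finset.sum_congr rfl fun b' _ => ?_
    simp

end Pm

section Trans

variable {A P Om S : Type*} {Sg : Type u} [CommRing A] [CommRing P] [CommRing Om]
  [Algebra A Om] [Algebra P Om] [SMulCommClass P A Om] [CommRing S] [Algebra A S]
  [CommRing Sg] [Algebra A Sg] [Algebra P Sg] [Algebra S Sg] [Algebra Om Sg]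
  [IsScalarTower A S Sg] [IsScalarTower A Om Sg] [IsScalarTower P Om Sg]
  {V : Type w} [AddCommGroup V] [Module P V] {n : ℕ}

variable (P Om Sg V) in
/-- the map `Om ⊗ V → Sg ⊗ V`. -/
noncomputable def trPsi : Om ⊗[P] V →ₗ[Om] Sg ⊗[P] V :=
  TensorProduct.AlgebraTensorModule.map (Algebra.linearMap Om Sg) LinearMap.id

omit [CommRing A] [Algebra A Om] [SMulCommClass P A Om] in
theorem trPsi_tmul (o : Om) (x : V) :
    trPsi P Om Sg V (o ⊗ₜ x) = algebraMap Om Sg o ⊗ₜ x := rfl

theorem trPsi_mem (Y : Submodule P V) {t : Om ⊗[P] V} (ht : t ∈ Y.baseChange Om) :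
    trPsi P Om Sg V t ∈ Y.baseChange Sg := by
  have h : Y.baseChange Om ≤ ((Y.baseChange Sg).restrictScalars Om).comap (trPsi P Om Sg V) := by
    rw [Submodule.baseChange_eq_span Om Y, span_le]
    rintro _ ⟨x, hx, rfl⟩
    show trPsi P Om Sg V (1 ⊗ₜ x) ∈ Y.baseChange Sg
    rw [trPsi_tmul, map_one]
    exact tmul_mem_baseChange_of_mem _ hx
  exact h ht

variable (A P Om S Sg V) in
/-- the map `S ⊗ (Om ⊗ V) → Sg ⊗ V`. -/
noncomputable def trTh : S ⊗[A] (Om ⊗[P] V) →ₗ[S] Sg ⊗[P] V :=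
  ((trPsi P Om Sg V).restrictScalars A).liftBaseChange S

theorem trTh_tmul (s : S) (t : Om ⊗[P] V) :
    trTh A P Om S Sg V (s ⊗ₜ t) = s • trPsi P Om Sg V t := rfl

theorem trTh_bij [Algebra.IsPushout A S Om Sg] :
    Function.Bijective (trTh A P Om S Sg V) := by
  have h : (trTh A P Om S Sg V : S ⊗[A] (Om ⊗[P] V) → Sg ⊗[P] V) =
      (AlgebraTensorModule.cancelBaseChange P Om Sg Sg V) ∘
        (Algebra.IsPushout.cancelBaseChange A S Om Sg (Om ⊗[P] V)).symm := by
    funext t
    rw [Function.comp_apply]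
    induction t with
    | zero => simp
    | add x y hx hy => rw [map_add, map_add, map_add, hx, hy]
    | tmul s t =>
      rw [trTh_tmul, Algebra.IsPushout.cancelBaseChange_symm_tmul]
      induction t with
      | zero => simp
      | add x y hx hy => rw [map_add, smul_add, hx, hy, TensorProduct.tmul_add, map_add]
      | tmul o x =>
        rw [trPsi_tmul, AlgebraTensorModule.cancelBaseChange_tmul, TensorProduct.smul_tmul',
          Algebra.smul_def, Algebra.smul_def, mul_comm]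
  rw [h]
  exact (LinearEquiv.bijective _).comp (LinearEquiv.bijective _)

/-- surjectivity onto `Y.baseChange Sg`. -/
theorem trTh_surj [Algebra.IsPushout A S Om Sg] (Y : Submodule P V) {z : Sg ⊗[P] V}
    (hz : z ∈ Y.baseChange Sg) :
    ∃ t ∈ ((Y.baseChange Om).restrictScalars A).baseChange S, trTh A P Om S Sg V t = z := by
  obtain ⟨z, rfl⟩ := hz
  induction z with
  | zero => exact ⟨0, Submodule.zero_mem _, by simp⟩
  | add x y hx hy =>
    obtain ⟨t, ht, h1⟩ := hx
    obtain ⟨t', ht', h1'⟩ := hy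
    exact ⟨t + t', Submodule.add_mem _ ht ht', by rw [map_add, h1, h1', map_add]⟩
  | tmul g x =>
    obtain ⟨r, rfl⟩ := (Algebra.IsPushout.equiv A S Om Sg).surjective g
    induction r with
    | zero => exact ⟨0, Submodule.zero_mem _, by simp⟩
    | add r r' hr hr' =>
      obtain ⟨t, ht, h1⟩ := hr
      obtain ⟨t', ht', h1'⟩ := hr'
      exact ⟨t + t', Submodule.add_mem _ ht ht', by
        rw [map_add, h1, h1', map_add, TensorProduct.add_tmul, map_add]⟩
    | tmul s o =>
      refine ⟨s ⊗ₜ (o ⊗ₜ x.1), tmul_mem_baseChange_of_mem _ ?_, ?_⟩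
      · exact tmul_mem_baseChange_of_mem (p := Y) o x.2
      · rw [trTh_tmul, trPsi_tmul, Algebra.IsPushout.equiv_tmul, LinearMap.baseChange_tmul,
          TensorProduct.smul_tmul', Algebra.smul_def]
        rfl

variable (A P Om S Sg V n) in
/-- the map `S ⊗ (Om ⊗ V)ⁿ → (Sg ⊗ V)ⁿ`. -/
noncomputable def trPhi : S ⊗[A] (KIdx n → Om ⊗[P] V) →ₗ[S] (KIdx n → Sg ⊗[P] V) :=
  (LinearMap.pi fun b => (trTh A P Om S Sg V) ∘ₗ
    (LinearMap.proj b : (KIdx n → S ⊗[A] (Om ⊗[P] V)) →ₗ[S] S ⊗[A] (Om ⊗[P] V))) ∘ₗ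
    (TensorProduct.piRight A S S (fun _ : KIdx n => Om ⊗[P] V)).toLinearMap

theorem trPhi_apply (t : S ⊗[A] (KIdx n → Om ⊗[P] V)) (b : KIdx n) :
    trPhi A P Om S Sg V n t b = trTh A P Om S Sg V
      (TensorProduct.piRight A S S (fun _ : KIdx n => Om ⊗[P] V) t b) := rfl

theorem trPhi_tmul (s : S) (g : KIdx n → Om ⊗[P] V) (b : KIdx n) :
    trPhi A P Om S Sg V n (s ⊗ₜ g) b = s • trPsi P Om Sg V (g b) := by
  rw [trPhi_apply, TensorProduct.piRight_apply, TensorProduct.piRightHom_tmul, trTh_tmul]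

theorem trPhi_bij [Algebra.IsPushout A S Om Sg] :
    Function.Bijective (trPhi A P Om S Sg V n) := by
  have h : (trPhi A P Om S Sg V n : S ⊗[A] (KIdx n → Om ⊗[P] V) → (KIdx n → Sg ⊗[P] V)) =
      (fun (h : KIdx n → S ⊗[A] (Om ⊗[P] V)) b => trTh A P Om S Sg V (h b)) ∘
      (TensorProduct.piRight A S S (fun _ : KIdx n => Om ⊗[P] V)) := rfl
  rw [h]
  refine Function.Bijective.comp ⟨?_, ?_⟩ (LinearEquiv.bijective _)
  · intro f g hfg
    funext b
    exact trTh_bij.1 (congrFun hfg b)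
  · intro g
    choose f hf using fun b => (trTh_bij (A := A) (P := P) (Om := Om) (S := S)).2 (g b)
    exact ⟨f, funext hf⟩

theorem mem_KA (Y : Submodule P V) (p : ℤ) (g : KIdx n → Om ⊗[P] V) :
    g ∈ KA A Om n Y p ↔ ∀ b, g b ∈ conc (Y.baseChange Om) (kdeg n b + p) := by
  unfold KA
  rw [Submodule.restrictScalars_mem, khc_mem_lift]
  simp only [sub_neg_eq_add]

theorem trPhi_single [Algebra.IsPushout A S Om Sg] (Y : Submodule P V) (p : ℤ) (b : KIdx n)
    {z : Sg ⊗[P] V} (hz : z ∈ conc (Y.baseChange Sg) (kdeg n b + p)) :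
    ∃ t ∈ (KA A Om n Y p).baseChange S, trPhi A P Om S Sg V n t = Pi.single b z := by
  rw [mem_conc] at hz
  by_cases h : kdeg n b + p = 0
  · obtain ⟨t, ht, rfl⟩ := trTh_surj (A := A) (Om := Om) (S := S) Y (hz.1 h)
    refine ⟨(LinearMap.single A (fun _ : KIdx n => Om ⊗[P] V) b).baseChange S t, ?_, ?_⟩
    · have h1 : ((Y.baseChange Om).restrictScalars A).map
          (LinearMap.single A (fun _ : KIdx n => Om ⊗[P] V) b) ≤ KA A Om n Y p := by
        rintro _ ⟨x, hx, rfl⟩
        rw [mem_KA]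
        intro b'
        rw [mem_conc]
        by_cases hb : b' = b
        · subst hb
          refine ⟨fun _ => ?_, fun h' => absurd h h'⟩
          rw [LinearMap.single_apply, Pi.single_eq_same]
          exact hx
        · rw [LinearMap.single_apply, Pi.single_eq_of_ne hb]
          exact ⟨fun _ => Submodule.zero_mem _, fun _ => rfl⟩
      refine baseChange_mono S h1 ?_
      rw [baseChange_map]
      exact ⟨t, ht, rfl⟩
    · clear ht hz
      funext b'
      induction t with
      | zero => simp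
      | add x y hx hy => rw [map_add, map_add, Pi.add_apply, hx, hy, map_add, Pi.single_add,
          Pi.add_apply]
      | tmul s x =>
        rw [LinearMap.baseChange_tmul, trPhi_tmul, LinearMap.single_apply, trTh_tmul]
        by_cases hb : b' = b
        · subst hb
          rw [Pi.single_eq_same, Pi.single_eq_same]
        · rw [Pi.single_eq_of_ne hb, Pi.single_eq_of_ne hb, map_zero, smul_zero]
  · rw [hz.2 h]
    exact ⟨0, Submodule.zero_mem _, by rw [map_zero, Pi.single_zero]⟩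

theorem trPhi_mem [Algebra.IsPushout A S Om Sg] (Y : Submodule P V) (p : ℤ)
    (t : S ⊗[A] (KIdx n → Om ⊗[P] V)) :
    t ∈ (KA A Om n Y p).baseChange S ↔
      ∀ b, trPhi A P Om S Sg V n t b ∈ conc (Y.baseChange Sg) (kdeg n b + p) := by
  constructor
  · intro ht
    have h : (KA A Om n Y p).baseChange S ≤ (Submodule.pi Set.univ fun b : KIdx n =>
        (conc (Y.baseChange Sg) (kdeg n b + p)).restrictScalars S).comap
          (trPhi A P Om S Sg V n) := by
      rw [Submodule.baseChange_eq_span S (KA A Om n Y p), span_le]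
      rintro _ ⟨g, hg, rfl⟩
      rw [SetLike.mem_coe, mem_KA] at hg
      show trPhi A P Om S Sg V n (1 ⊗ₜ g) ∈ Submodule.pi Set.univ fun b : KIdx n =>
        (conc (Y.baseChange Sg) (kdeg n b + p)).restrictScalars S
      rw [Submodule.mem_pi]
      intro b _
      rw [Submodule.restrictScalars_mem, trPhi_tmul, one_smul, mem_conc]
      have h1 := hg b
      rw [mem_conc] at h1
      refine ⟨fun h => trPsi_mem Y (h1.1 h), fun h => ?_⟩
      rw [h1.2 h, map_zero]
    have h2 := h ht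
    rw [Submodule.mem_comap, Submodule.mem_pi] at h2
    exact fun b => h2 b (Set.mem_univ b)
  · intro h
    choose t' ht' hp using fun b => trPhi_single (A := A) (Om := Om) (S := S) Y p b (h b)
    have h1 : t = ∑ b, t' b := by
      refine (trPhi_bij (A := A) (P := P) (Om := Om) (S := S) (Sg := Sg)).1 ?_
      rw [map_sum]
      simp only [hp]
      funext b
      rw [Finset.sum_apply, Finset.sum_eq_single b]
      · rw [Pi.single_eq_same]
      · intro b' _ hb'
        rw [Pi.single_eq_of_ne hb'.symm]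
      · intro hb
        exact absurd (Finset.mem_univ b) hb
    rw [h1]
    exact Submodule.sum_mem _ fun b _ => ht' b

theorem trPhi_DA (v : Fin n → Om) (t : S ⊗[A] (KIdx n → Om ⊗[P] V)) (b : KIdx n) :
    trPhi A P Om S Sg V n ((DA A V v).baseChange S t) b =
      ∑ b', kos n (fun l => algebraMap Om Sg (v l)) b b' • trPhi A P Om S Sg V n t b' := by
  induction t with
  | zero => simp
  | add x y hx hy =>
    rw [map_add, map_add, Pi.add_apply, hx, hy, ← Finset.sum_add_distrib]
    refine Finset.sum_congr rfl fun b' _ => ?_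
    rw [map_add, Pi.add_apply, smul_add]
  | tmul s g =>
    rw [LinearMap.baseChange_tmul, trPhi_tmul]
    have h1 : DA A V v g b = ∑ b', kos n v b b' • g b' := rfl
    rw [h1, map_sum, Finset.smul_sum]
    refine Finset.sum_congr rfl fun b' _ => ?_
    rw [trPhi_tmul, map_smul, kos_map, algebraMap_smul]
    exact smul_comm _ _ _

variable (A P Om S Sg V n) in
/-- the transport map. -/
noncomputable def trF : (KIdx n → S ⊗[A] (KIdx n → Om ⊗[P] V)) →ₗ[S]
    (KIdx n × KIdx n → Sg ⊗[P] V) :=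
  LinearMap.pi fun x => (LinearMap.proj x.2) ∘ₗ (trPhi A P Om S Sg V n) ∘ₗ (LinearMap.proj x.1)

theorem trF_apply (f : KIdx n → S ⊗[A] (KIdx n → Om ⊗[P] V)) (a b : KIdx n) :
    trF A P Om S Sg V n f (a, b) = trPhi A P Om S Sg V n (f a) b := rfl

theorem trF_surj [Algebra.IsPushout A S Om Sg] :
    Function.Surjective (trF A P Om S Sg V n) := by
  intro h
  choose f hf using fun a => (trPhi_bij (A := A) (P := P) (Om := Om) (S := S)).2
    (fun b => h (a, b))
  refine ⟨f, ?_⟩
  funext ⟨a, b⟩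
  rw [trF_apply, hf]

theorem trF_mem [Algebra.IsPushout A S Om Sg] (Y : Submodule P V) (δ : ℤ)
    (f : KIdx n → S ⊗[A] (KIdx n → Om ⊗[P] V)) :
    f ∈ lift (kdeg n) (bcf S (KA A Om n Y)) δ ↔
      trF A P Om S Sg V n f ∈ lift (pdegP n) (conc (Y.baseChange Sg)) δ := by
  rw [khc_mem_lift, khc_mem_lift]
  unfold bcf pdegP
  simp only [trPhi_mem (Sg := Sg)]
  constructor
  · rintro h ⟨a, b⟩
    have h1 := h a b
    rw [trF_apply]
    have e : kdeg n b + (kdeg n a - δ) = kdeg n a + kdeg n b - δ := by ring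
    rw [e] at h1
    exact h1
  · intro h a b
    have h1 := h (a, b)
    rw [trF_apply] at h1
    have e : kdeg n b + (kdeg n a - δ) = kdeg n a + kdeg n b - δ := by ring
    rw [e]
    exact h1

theorem trF_comm (y : Fin n → S) (v : Fin n → Om)
    (f : KIdx n → S ⊗[A] (KIdx n → Om ⊗[P] V)) :
    tot (pdegP n) (pm n (fun l => algebraMap S Sg (y l)) fun l => algebraMap Om Sg (v l))
      (0 : Sg ⊗[P] V →ₗ[Sg] Sg ⊗[P] V) (trF A P Om S Sg V n f) =
    trF A P Om S Sg V n (tot (kdeg n) (kos n y) ((DA A V v).baseChange S) f) := by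
  funext ⟨a, b⟩
  rw [tr_tot_pm, trF_apply]
  have h1 : tot (kdeg n) (kos n y) ((DA A V v).baseChange S) f a =
      ∑ a', kos n y a a' • f a' +
        ((kdeg n a).negOnePow : ℤ) • (DA A V v).baseChange S (f a) := rfl
  rw [h1, map_add, map_sum, map_zsmul, Pi.add_apply, Pi.smul_apply, trPhi_DA, Finset.sum_apply]
  congr 1
  refine Finset.sum_congr rfl fun a' _ => ?_
  rw [kos_map, algebraMap_smul, map_smul, trF_apply]
  rfl

theorem tr_killed (m : Ideal P) (K : ℕ) (X Y : Submodule P V) (hK : m ^ K • Y ≤ X) {q : P}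
    (hq : q ∈ m ^ K) {z : Sg ⊗[P] V} (hz : z ∈ Y.baseChange Sg) :
    algebraMap P Sg q • z ∈ X.baseChange Sg := by
  have h : Y.baseChange Sg ≤ (X.baseChange Sg).comap
      (LinearMap.lsmul Sg (Sg ⊗[P] V) (algebraMap P Sg q)) := by
    rw [Submodule.baseChange_eq_span Sg Y, span_le]
    rintro _ ⟨x, hx, rfl⟩
    show algebraMap P Sg q • ((1 : Sg) ⊗ₜ[P] x) ∈ X.baseChange Sg
    rw [algebraMap_smul, TensorProduct.smul_tmul', TensorProduct.smul_tmul]
    exact tmul_mem_baseChange_of_mem _ (hK (Submodule.smul_mem_smul hq hx))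
  exact h hz

/-- TASK G3-H5: transport from `Sg ⊗ V` to `S ⊗ (Om ⊗ V)`, with the change of lengths. -/
theorem khs_trans [Algebra.IsPushout A S Om Sg] [Module.Flat A S] [Module.Flat P Om]
    (y : Fin n → S) (v : Fin n → Om) (m : Ideal P) (K : ℕ) (X Y : Submodule P V)
    (hXY : X ≤ Y) (hK : m ^ K • Y ≤ X) (c : ℕ∞)
    (hlen : ∀ (N : Type (max u w)) [AddCommGroup N] [Module Sg N] [Module S N]
      [IsScalarTower S Sg N], (∀ q ∈ m ^ K, ∀ x : N, algebraMap P Sg q • x = 0) →
      Module.length S N = c * Module.length Sg N) (i : ℤ) :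
    hh (tot (kdeg n) (kos n y) ((DA A V v).baseChange S))
      (lift (kdeg n) (bcf S (KA A Om n Y))) (lift (kdeg n) (bcf S (KA A Om n X))) i =
    c * khs (pdegP n) (pm n (fun l => algebraMap S Sg (y l)) fun l => algebraMap Om Sg (v l))
      (Y.baseChange Sg) (X.baseChange Sg) i := by
  set D' := tot (pdegP n) (pm n (fun l => algebraMap S Sg (y l)) fun l => algebraMap Om Sg (v l))
    (0 : Sg ⊗[P] V →ₗ[Sg] Sg ⊗[P] V) with hD'
  set Y' : ℤ → Submodule Sg (KIdx n × KIdx n → Sg ⊗[P] V) :=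
    lift (pdegP n) (conc (Y.baseChange Sg)) with hY'
  set X' : ℤ → Submodule Sg (KIdx n × KIdx n → Sg ⊗[P] V) :=
    lift (pdegP n) (conc (X.baseChange Sg)) with hX'
  have h1 : hh (tot (kdeg n) (kos n y) ((DA A V v).baseChange S))
      (lift (kdeg n) (bcf S (KA A Om n Y))) (lift (kdeg n) (bcf S (KA A Om n X))) i =
      hh (D'.restrictScalars S) (fun p => (Y' p).restrictScalars S)
        (fun p => (X' p).restrictScalars S) i := by
    refine hh_map_eq _ _ (trF A P Om S Sg V n) (fun f => trF_comm y v f) _ _ _ _ ?_ ?_ ?_ ?_ i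
    · intro δ f hf
      rw [trF_mem (Sg := Sg)] at hf ⊢
      rw [khc_mem_lift] at hf ⊢
      exact fun a => conc_mono (baseChange_mono Sg hXY) _ (hf a)
    · intro δ f hf
      rw [trF_mem (Sg := Sg)] at hf ⊢
      rw [← trF_comm]
      exact tr_pm_stab n _ _ (Y.baseChange Sg) δ _ hf
    · intro δ
      ext h
      constructor
      · rintro ⟨f, hf, rfl⟩
        exact (trF_mem Y δ f).1 hf
      · intro hh
        obtain ⟨f, rfl⟩ := trF_surj (A := A) (Om := Om) (S := S) h
        exact ⟨f, (trF_mem Y δ f).2 hh, rfl⟩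
    · intro δ f _
      exact (trF_mem X δ f).symm
  rw [h1]
  unfold khs hh
  rw [tr_zz_restrict, tr_bb_restrict, rl_restrict _ _ c, mul_comm]
  rw [mul_comm]
  refine hlen _ ?_
  intro q hq x
  obtain ⟨⟨x, hx⟩, rfl⟩ := Submodule.Quotient.mk_surjective _ x
  rw [← Submodule.Quotient.mk_smul, Submodule.Quotient.mk_eq_zero]
  show algebraMap P Sg q • x ∈ bb D' Y' X' i
  refine Submodule.mem_sup_right ?_
  have h2 : x ∈ Y' i := (Submodule.mem_inf.1 hx).1
  have h4 := khc_mem_lift.1 h2
  refine khc_mem_lift.2 ?_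
  intro a
  have h3 := h4 a
  rw [mem_conc] at h3 ⊢
  refine ⟨fun h => tr_killed m K X Y hK hq (h3.1 h), fun h => ?_⟩
  rw [Pi.smul_apply, h3.2 h, smul_zero]

end Trans

end Vale.Agent.P202.CharP.Gen2
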