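import Vale.Agent.P202.CharP.Gen2.KosCat
import Vale.Agent.P202.CharP.Gen2.SmallDev
import Vale.Agent.P202.CharP.Gen2.KunErr
import Vale.Agent.P202.CharP.Gen2.Trans2

/-!
P202-G3, task G3-H6: the estimate of Koszul homology.
-/

namespace Vale.Agent.P202.CharP.Gen2

open Submodule TensorProduct IsLocalRing Gen

universe u w

namespace EstB

section Homot

variable {S : Type*} [CommRing S]

/-- null-homotopies for the elements of the ideal `(y)`. -/
theorem homotopy {n : ℕ} (y : Fin n → S) (c : S) (hc : c ∈ Ideal.span (Set.range y)) :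
    ∃ h : Matrix (KIdx n) (KIdx n) S,
    (∀ a b, h a b ≠ 0 → kdeg n a = kdeg n b + 1) ∧ kos n y * h + h * kos n y = c • 1 := by
  obtain ⟨c', hc'⟩ := (Ideal.mem_span_range_iff_exists_fun).mp hc
  choose h h1 h2 using kos_homotopy n y
  refine ⟨∑ l, c' l • h l, ?_, ?_⟩
  · intro a b hab
    by_contra hne
    apply hab
    rw [Matrix.sum_apply]
    refine Finset.sum_eq_zero fun l _ => ?_
    rw [Matrix.smul_apply]
    by_cases h0 : h l a b = 0
    · rw [h0, smul_zero]
    · exact absurd (h1 l a b h0) hne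
  · rw [Finset.mul_sum, Finset.sum_mul, ← Finset.sum_add_distrib, ← hc', Finset.sum_smul]
    refine Finset.sum_congr rfl fun l _ => ?_
    rw [Matrix.mul_smul, Matrix.smul_mul, ← smul_add, h2, smul_smul]

end Homot

section Push

variable {A P Om : Type*} [CommRing A] [CommRing P] [CommRing Om] [Algebra A Om]
  [Algebra P Om] [SMulCommClass P A Om] {V : Type*} [AddCommGroup V] [Module P V] {n : ℕ}

lemma map_smul_baseChange (I : Ideal P) (X Y : Submodule P V) (hK : I • Y ≤ X) {e : Om}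
    (he : e ∈ I.map (algebraMap P Om)) {z : Om ⊗[P] V} (hz : z ∈ Y.baseChange Om) :
    e • z ∈ X.baseChange Om := by
  induction he using Submodule.span_induction with
  | mem e he =>
    obtain ⟨q, hq, rfl⟩ := he
    have h : Y.baseChange Om ≤ (X.baseChange Om).comap
        (LinearMap.lsmul Om (Om ⊗[P] V) (algebraMap P Om q)) := by
      rw [Submodule.baseChange_eq_span Om Y, span_le]
      rintro _ ⟨x, hx, rfl⟩
      show algebraMap P Om q • ((1 : Om) ⊗ₜ[P] x) ∈ X.baseChange Om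
      rw [algebraMap_smul, TensorProduct.smul_tmul', TensorProduct.smul_tmul]
      exact tmul_mem_baseChange_of_mem _ (hK (Submodule.smul_mem_smul hq hx))
    exact h hz
  | zero => rw [zero_smul]; exact zero_mem _
  | add a b _ _ ha hb => rw [add_smul]; exact add_mem ha hb
  | smul c a _ ha => rw [smul_assoc]; exact Submodule.smul_mem _ _ ha

lemma push0 [IsLocalRing A] (v : Fin n → Om) (m : Ideal P) (K : ℕ)
    (hpush : ∀ a ∈ maximalIdeal A, algebraMap A Om a ∈
      Ideal.span (Set.range v) ⊔ (m ^ K).map (algebraMap P Om))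
    (X Y : Submodule P V) (hK : m ^ K • Y ≤ X) :
    maximalIdeal A • cz (DA A V v) (KA A Om n Y) (KA A Om n X) 0 ≤
      cb (DA A V v) (KA A Om n Y) (KA A Om n X) 0 := by
  rw [Submodule.smul_le]
  intro a ha f hf
  obtain ⟨c, hc, e, he, hce⟩ := Submodule.mem_sup.mp (hpush a ha)
  have h1 : a • f = c • f + e • f := by
    rw [← add_smul, hce]
    ext b
    rw [Pi.smul_apply, Pi.smul_apply, algebraMap_smul]
  rw [h1]
  have hfY : f ∈ KA A Om n Y 0 := hf.1
  rw [SmallDev.mem_KA] at hfY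
  have hfX : ∀ b, DA A V v f b = 0 := by
    have h2 : DA A V v f ∈ KA A Om n X (0 + 1) := hf.2
    rw [SmallDev.mem_KA] at h2
    intro b
    have := (kdeg_range n b).1
    exact (h2 b).2 (by omega)
  refine add_mem ?_ (Submodule.mem_sup_right ?_)
  · obtain ⟨h, hh1, hh2⟩ := homotopy v c hc
    refine Submodule.mem_sup_left ⟨act h (Om ⊗[P] V) f, ?_, ?_⟩
    · rw [SetLike.mem_coe, SmallDev.mem_KA]
      intro b
      constructor
      · intro _
        rw [act_apply]
        refine Submodule.sum_mem _ fun b' _ => ?_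
        by_cases h0 : kdeg n b' + 0 = 0
        · exact Submodule.smul_mem _ _ ((hfY b').1 h0)
        · rw [(hfY b').2 h0, smul_zero]
          exact zero_mem _
      · intro hb
        rw [act_apply]
        refine Finset.sum_eq_zero fun b' _ => ?_
        by_cases h0 : h b b' = 0
        · rw [h0, zero_smul]
        · have h3 := hh1 b b' h0
          rw [(hfY b').2 (by omega), smul_zero]
    · have h4 : act (kos n v) (Om ⊗[P] V) (act h (Om ⊗[P] V) f) +
          act h (Om ⊗[P] V) (act (kos n v) (Om ⊗[P] V) f) = c • f := by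
        rw [← act_mul, ← act_mul, ← act_add, hh2, act_smul, act_one]
      have h5 : act (kos n v) (Om ⊗[P] V) f = 0 := by
        ext b
        exact hfX b
      rw [h5, map_zero, add_zero] at h4
      exact h4
  · rw [SmallDev.mem_KA]
    intro b
    refine ⟨fun hb => map_smul_baseChange _ X Y hK he ((hfY b).1 hb), fun hb => ?_⟩
    rw [Pi.smul_apply, (hfY b).2 hb, smul_zero]

end Push

end EstB

section Trans

variable {A P Om S : Type*} {Sg : Type u} [CommRing A] [CommRing P] [CommRing Om]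
  [Algebra A Om] [Algebra P Om] [SMulCommClass P A Om] [CommRing S] [Algebra A S]
  [CommRing Sg] [Algebra A Sg] [Algebra P Sg] [Algebra S Sg] [Algebra Om Sg]
  [IsScalarTower A S Sg] [IsScalarTower A Om Sg] [IsScalarTower P Om Sg]
  [Algebra.IsPushout A S Om Sg] [Module.Flat A S] [Module.Flat P Om]
  {V : Type w} [AddCommGroup V] [Module P V] {n : ℕ}

/-- TASK G3-H6: the estimate. -/
theorem est_main [IsLocalRing A] (y : Fin n → S) (v : Fin n → Om) (m : Ideal P) [m.IsMaximal]
    (K : ℕ)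
    (hpush : ∀ a ∈ maximalIdeal A, algebraMap A Om a ∈
      Ideal.span (Set.range v) ⊔ (m ^ K).map (algebraMap P Om))
    (c : ℕ)
    (hlen : ∀ (N : Type (max u w)) [AddCommGroup N] [Module Sg N] [Module S N]
      [IsScalarTower S Sg N], (∀ q ∈ m ^ K, ∀ x : N, algebraMap P Sg q • x = 0) →
      Module.length S N = (c : ℕ∞) * Module.length Sg N) (hc : 1 ≤ c)
    (lam η : ℕ) (hη : ∀ b, 1 ≤ b → hA A v (⊤ : Submodule P P) m b ≤ η)
    (h0 : hA A v (⊤ : Submodule P P) m 0 ≠ ⊤)
    (hlam : xic n 1 (fun p => hA A v (⊤ : Submodule P P) m (-p)) = lam)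
    (t : ℤ → ℕ)
    (ht : ∀ i, kk y (S ⧸ (maximalIdeal A).map (algebraMap A S)) i = t i)
    (τ : ℕ) (hτ : ∀ i, t i ≤ τ) (X Y : Submodule P V) (hXY : X ≤ Y) (hK : m ^ K • Y ≤ X)
    (hfin : rl X Y ≠ ⊤) (i : ℤ) :
    khs (kdeg (n + n)) (kos (n + n) (cat (fun l => algebraMap Om Sg (v l)) n
        fun l => algebraMap S Sg (y l))) (Y.baseChange Sg) (X.baseChange Sg) i ≠ ⊤ ∧
    |(c : ℤ) * ((khs (kdeg (n + n)) (kos (n + n) (cat (fun l => algebraMap Om Sg (v l)) n
        fun l => algebraMap S Sg (y l))) (Y.baseChange Sg) (X.baseChange Sg) i).toNat : ℤ) -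
      (lam : ℤ) * ((rl X Y).toNat : ℤ) * (t i : ℤ)| ≤
      ((rl X Y).toNat : ℤ) * ((3 * n * τ * η : ℕ) : ℤ) := by
  obtain ⟨D, hD⟩ := ENat.ne_top_iff_exists.mp hfin
  have hDn : (rl X Y).toNat = D := by rw [← hD, ENat.toNat_natCast]
  -- the homology over `A`
  have hneg : ∀ b : ℤ, b < 0 → hA A v (⊤ : Submodule P P) m b = 0 := by
    intro b hb
    rw [hA, Gen.hc, rl_eq_zero_iff]
    exact inf_le_left.trans ((SmallDev.KA_out m ⊤ (-b) (Or.inr (by omega))).trans le_sup_right)
  have hb : ∀ b, hA A v (⊤ : Submodule P P) m b ≠ ⊤ := by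
    intro b
    rcases lt_trichotomy b 0 with h | h | h
    · rw [hneg b h]
      exact ENat.zero_ne_top
    · rw [h]
      exact h0
    · exact ne_top_of_le_ne_top (ENat.natCast_ne_top _) (hη b (by omega))
  have hle := hA_le (A := A) v m K X Y hXY hK hfin
  have hxi := hA_xi (A := A) v m K X Y hXY hK hfin hb
  rw [hlam, hDn] at hxi
  have hAe : ∀ p, Gen.hc (DA A V v) (KA A Om n Y) (KA A Om n X) p = hA A v Y X (-p) := fun p => by
    rw [hA, neg_neg]
  have hp1 : ∀ p : ℤ, p ≠ 0 → Gen.hc (DA A V v) (KA A Om n Y) (KA A Om n X) p ≤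
      ((D * η : ℕ) : ℕ∞) := by
    intro p hp
    rw [hAe]
    refine (hle (-p)).trans ?_
    rw [← hD]
    push_cast
    refine mul_le_mul_right ?_ _
    rcases lt_or_gt_of_ne hp with h | h
    · exact hη _ (by omega)
    · rw [hneg _ (by omega)]
      exact zero_le
  have hp0 : Gen.hc (DA A V v) (KA A Om n Y) (KA A Om n X) 0 ≠ ⊤ := by
    rw [hAe]
    refine ne_top_of_le_ne_top ?_ (hle _)
    rw [neg_zero]
    exact WithTop.mul_ne_top hfin h0
  obtain ⟨k1, k2⟩ := kun_err S (kdeg n) (kos n y) (kos_isCx n y) n (DA A V v)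
    (SmallDev.DA_sq v) (KA A Om n Y) (KA A Om n X) (SmallDev.KA_cstab v X)
    (SmallDev.KA_cstab v Y) (SmallDev.KA_mono hXY) (fun p hp => SmallDev.KA_out X Y p hp)
    (EstB.push0 v m K hpush X Y hK) (D * η) hp1 hp0 t ht τ hτ i
  rw [khs_trans y v m K X Y hXY hK c hlen i, ← khs_cat] at k1 k2
  set H := khs (kdeg (n + n)) (kos (n + n) (cat (fun l => algebraMap Om Sg (v l)) n
        fun l => algebraMap S Sg (y l))) (Y.baseChange Sg) (X.baseChange Sg) i with hH
  have hHt : H ≠ ⊤ := by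
    intro h
    apply k1
    rw [h]
    exact ENat.mul_top (by exact_mod_cast (by omega : c ≠ 0))
  obtain ⟨h, hh⟩ := ENat.ne_top_iff_exists.mp hHt
  refine ⟨hHt, ?_⟩
  rw [← hh] at k2 ⊢
  rw [ENat.toNat_natCast, hDn]
  have e1 : ((c : ℕ∞) * (h : ℕ∞)).toNat = c * h := by
    rw [← Nat.cast_mul, ENat.toNat_natCast]
  rw [e1] at k2
  -- the Euler characteristic
  obtain ⟨g, hg⟩ := ENat.ne_top_iff_exists.mp hp0
  rw [← hg, ENat.toNat_natCast] at k2
  have e2 : |(g : ℤ) - (D : ℤ) * lam| ≤ n * (D * η : ℕ) := by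
    rw [← hxi]
    unfold xic
    have e3 : Finset.Ico (-(n : ℤ)) ((1 : ℕ) : ℤ) = insert 0 (Finset.Ico (-(n : ℤ)) 0) := by
      ext p
      simp only [Finset.mem_Ico, Finset.mem_insert, Nat.cast_one]
      omega
    rw [e3, Finset.sum_insert (by simp)]
    have e4 : ((Int.negOnePow 0 : ℤˣ) : ℤ) * ((hA A v Y X (-0)).toNat : ℤ) = g := by
      rw [← hAe, ← hg, ENat.toNat_natCast]
      simp
    rw [e4]
    have e5 : (g : ℤ) - (g + ∑ x ∈ Finset.Ico (-(n : ℤ)) 0,
        ((Int.negOnePow x : ℤˣ) : ℤ) * ((hA A v Y X (-x)).toNat : ℤ)) =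
        -∑ x ∈ Finset.Ico (-(n : ℤ)) 0,
        ((Int.negOnePow x : ℤˣ) : ℤ) * ((hA A v Y X (-x)).toNat : ℤ) := by ring
    rw [e5, abs_neg]
    refine (Finset.abs_sum_le_sum_abs _ _).trans ?_
    refine (Finset.sum_le_card_nsmul _ _ ((D * η : ℕ) : ℤ) fun x hx => ?_).trans ?_
    · rw [Finset.mem_Ico] at hx
      have e6 := hp1 x (by omega)
      rw [hAe] at e6
      obtain ⟨w, hw⟩ := ENat.ne_top_iff_exists.mp
        (ne_top_of_le_ne_top (ENat.natCast_ne_top _) e6)
      rw [← hw] at e6 ⊢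
      rw [ENat.toNat_natCast, abs_mul]
      have e7 : |((Int.negOnePow x : ℤˣ) : ℤ)| = 1 := by
        rcases Int.units_eq_one_or (Int.negOnePow x) with h | h <;> rw [h] <;> simp
      rw [e7, one_mul, abs_of_nonneg (by positivity)]
      exact_mod_cast e6
    · rw [Int.card_Ico, nsmul_eq_mul]
      simp
  have ht0 : (0 : ℤ) ≤ t i := by positivity
  have htτ : (t i : ℤ) ≤ τ := by exact_mod_cast hτ i
  have e8 : (c : ℤ) * (h : ℤ) - (lam : ℤ) * D * (t i : ℤ) =
      (((c * h : ℕ) : ℤ) - g * t i) + ((g : ℤ) - D * lam) * t i := by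
    push_cast
    ring
  rw [e8]
  refine (abs_add_le _ _).trans ?_
  have e9 : |((g : ℤ) - D * lam) * t i| ≤ (n * (D * η : ℕ)) * τ := by
    rw [abs_mul, abs_of_nonneg ht0]
    exact mul_le_mul e2 htτ ht0 (by positivity)
  refine (add_le_add k2 e9).trans (le_of_eq ?_)
  push_cast
  ring

end Trans

end Vale.Agent.P202.CharP.Gen2
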