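import Vale.Agent.P202.CharP.Gen2.DefsL
import Vale.Agent.P202.CharP.TotBasic
import Vale.Agent.P202.CharP.KhCongr

/-!
P202-G3, G3-H2: the product Koszul complex as a total complex.
-/

namespace Vale.Agent.P202.CharP.Gen2

open Submodule TensorProduct IsLocalRing Gen

section Equiv

variable {S 𝕋 𝕋' : Type*} [CommRing S] [AddCommGroup 𝕋] [Module S 𝕋] [AddCommGroup 𝕋']
  [Module S 𝕋']

/-- relative homology under an isomorphism. -/
theorem hh_equiv (e : 𝕋 ≃ₗ[S] 𝕋') (D : 𝕋 →ₗ[S] 𝕋) (D' : 𝕋' →ₗ[S] 𝕋')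
    (he : ∀ x, D' (e x) = e (D x)) (Y X : ℤ → Submodule S 𝕋) (Y' X' : ℤ → Submodule S 𝕋')
    (hY : ∀ δ x, e x ∈ Y' δ ↔ x ∈ Y δ) (hX : ∀ δ x, e x ∈ X' δ ↔ x ∈ X δ) (δ : ℤ) :
    hh D Y X δ = hh D' Y' X' δ := by
  have hYm : ∀ δ, (Y δ).map e.toLinearMap = Y' δ := by
    intro δ
    ext y
    constructor
    · rintro ⟨x, hx, rfl⟩
      exact (hY δ x).mpr hx
    · intro hy
      refine ⟨e.symm y, ?_, e.apply_symm_apply y⟩
      have := (hY δ (e.symm y)).mp (by rwa [e.apply_symm_apply])
      exact this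
  have hXm : ∀ δ, (X δ).map e.toLinearMap = X' δ := by
    intro δ
    ext y
    constructor
    · rintro ⟨x, hx, rfl⟩
      exact (hX δ x).mpr hx
    · intro hy
      refine ⟨e.symm y, ?_, e.apply_symm_apply y⟩
      have := (hX δ (e.symm y)).mp (by rwa [e.apply_symm_apply])
      exact this
  have hzz : (zz D Y X δ).map e.toLinearMap = zz D' Y' X' δ := by
    ext y
    constructor
    · rintro ⟨x, hx, rfl⟩
      obtain ⟨h1, h2⟩ := Submodule.mem_inf.mp hx
      refine Submodule.mem_inf.mpr ⟨(hY δ x).mpr h1, ?_⟩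
      rw [Submodule.mem_comap]
      change D' (e x) ∈ _
      rw [he, hX]
      exact h2
    · intro hy
      obtain ⟨h1, h2⟩ := Submodule.mem_inf.mp hy
      refine ⟨e.symm y, Submodule.mem_inf.mpr ⟨?_, ?_⟩, e.apply_symm_apply y⟩
      · rw [← hY, e.apply_symm_apply]; exact h1
      · rw [Submodule.mem_comap, ← hX, ← he, e.apply_symm_apply]; exact h2
  have hcomp : D'.comp e.toLinearMap = e.toLinearMap.comp D := LinearMap.ext he
  have hbb : (bb D Y X δ).map e.toLinearMap = bb D' Y' X' δ := by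
    unfold bb
    rw [Submodule.map_sup, hXm, ← hYm (δ + 1), ← Submodule.map_comp, ← Submodule.map_comp, hcomp]
  unfold hh
  rw [← hzz, ← hbb]
  exact (rl_map_of_injective e.toLinearMap e.injective _ _).symm

end Equiv

section Pm

variable {S : Type*} [CommRing S] {M : Type*} [AddCommGroup M] [Module S M]

/-- TASK G3-H2: the product complex as a total complex. -/
theorem khs_pm (n : ℕ) (y v : Fin n → S) (Y X : Submodule S M) (i : ℤ) :
    khs (pdegP n) (pm n y v) Y X i =
      hh (tot (kdeg n) (kos n y) (act (kos n v) M)) (lift (kdeg n) (KF n Y))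
        (lift (kdeg n) (KF n X)) i := by
  unfold khs
  have hl : ∀ (Z : Submodule S M) (δ : ℤ) (f : KIdx n × KIdx n → M),
      LinearEquiv.curry S M (KIdx n) (KIdx n) f ∈ lift (kdeg n) (KF n Z) δ ↔
        f ∈ lift (pdegP n) (conc Z) δ := by
    intro Z δ f
    rw [mem_lift, mem_lift]
    constructor
    · rintro h ⟨a, b⟩
      have h1 := h a
      unfold KF at h1
      rw [mem_lift] at h1
      have h2 := h1 b
      have e : pdegP n (a, b) - δ = kdeg n b - -(kdeg n a - δ) := by
        unfold pdegP; ring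
      rw [e]
      exact h2
    · intro h a
      unfold KF
      rw [mem_lift]
      intro b
      have h2 := h (a, b)
      have e : pdegP n (a, b) - δ = kdeg n b - -(kdeg n a - δ) := by
        unfold pdegP; ring
      rw [e] at h2
      exact h2
  refine hh_equiv (LinearEquiv.curry S M (KIdx n) (KIdx n)) _ _ ?_ _ _ _ _ (hl Y) (hl X) i
  intro f
  ext a b
  have e1 : (tot (kdeg n) (kos n y) (act (kos n v) M)
      (LinearEquiv.curry S M (KIdx n) (KIdx n) f)) a b =
      ∑ a', kos n y a a' • f (a', b) +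
        ((kdeg n a).negOnePow : ℤ) • ∑ b', kos n v b b' • f (a, b') := by
    rw [tot_apply, Pi.add_apply, Finset.sum_apply]
    rfl
  have e2 : (LinearEquiv.curry S M (KIdx n) (KIdx n)
      (tot (pdegP n) (pm n y v) (0 : M →ₗ[S] M) f)) a b =
      ∑ x', pm n y v (a, b) x' • f x' := by
    change tot (pdegP n) (pm n y v) (0 : M →ₗ[S] M) f (a, b) = _
    rw [tot_zero_apply]
  rw [e1, e2, Fintype.sum_prod_type]
  simp only [pm, add_smul, Finset.sum_add_distrib, ite_smul, zero_smul]
  congr 1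
  · refine Finset.sum_congr rfl fun a' _ => ?_
    rw [Finset.sum_ite_eq]
    simp
  · rw [Finset.sum_comm]
    simp only [Finset.sum_ite_eq, Finset.mem_univ, if_true, mul_smul]
    rw [Finset.smul_sum]
    refine Finset.sum_congr rfl fun b' _ => ?_
    rw [Int.cast_smul_eq_zsmul]

/-- TASK G3-H2: basic properties of `KF`. -/
theorem KF_cstab (n : ℕ) (v : Fin n → S) (Y : Submodule S M) :
    CStab (act (kos n v) M) (KF n Y) := by
  intro p f hf
  unfold KF at hf ⊢
  rw [mem_lift] at hf ⊢
  intro a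
  rw [act_apply]
  refine Submodule.sum_mem _ fun b _ => ?_
  by_cases hab : kos n v a b = 0
  · rw [hab, zero_smul]; exact Submodule.zero_mem _
  · have h1 := (kos_isCx n v).deg_eq a b hab
    have h2 := hf b
    rw [h1] at h2
    refine Submodule.smul_mem _ _ ?_
    have e : kdeg n a - -(p + 1) = kdeg n a + 1 - -p := by ring
    rw [e]; exact h2

end Pm

end Vale.Agent.P202.CharP.Gen2
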