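import Vale.Agent.P202.CharP.Gen2.DefsO
import Vale.Agent.P202.CharP.Gen2.PmTot
import Vale.Agent.P202.CharP.Gen.LesC
import Vale.Agent.P202.CharP.KFr
import Vale.Agent.P202.CharP.FrobBasic

/-!
P202-G3-H9: Koszul homology over `A` of the residue field of the polynomial ring.
-/

namespace Vale.Agent.P202.CharP.Gen2

set_option linter.unusedSectionVars false

open Submodule TensorProduct IsLocalRing Gen

universe u

section general

variable {A A' : Type*} [CommRing A] [CommRing A'] [Algebra A A'] {T : Type*} [AddCommGroup T]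
  [Module A T] [Module A' T] [IsScalarTower A A' T]

/-- change of the base ring for the length of the homology of a pair. -/
lemma hat_hh_restrict (D : T →ₗ[A'] T) (Y X : ℤ → Submodule A' T) (c : ℕ∞)
    (hc : ∀ Y X : Submodule A' T, Module.length A (↥Y ⧸ X.submoduleOf Y) =
      Module.length A' (↥Y ⧸ X.submoduleOf Y) * c) (δ : ℤ) :
    hh (D.restrictScalars A) (fun δ => (Y δ).restrictScalars A)
      (fun δ => (X δ).restrictScalars A) δ = hh D Y X δ * c := by
  unfold hh
  rw [← rl_restrict (A := A) _ _ c (hc _ _)]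
  have hb : bb (D.restrictScalars A) (fun δ => (Y δ).restrictScalars A)
      (fun δ => (X δ).restrictScalars A) δ = (bb D Y X δ).restrictScalars A := by
    ext f
    rw [Submodule.restrictScalars_mem]
    unfold bb
    rw [Submodule.mem_sup, Submodule.mem_sup]
    constructor
    · rintro ⟨u, ⟨v, hv, rfl⟩, w, hw, rfl⟩
      exact ⟨_, ⟨v, hv, rfl⟩, w, hw, rfl⟩
    · rintro ⟨u, ⟨v, hv, rfl⟩, w, hw, rfl⟩
      exact ⟨_, ⟨v, hv, rfl⟩, w, hw, rfl⟩
  have hz : zz (D.restrictScalars A) (fun δ => (Y δ).restrictScalars A)
      (fun δ => (X δ).restrictScalars A) δ = (zz D Y X δ).restrictScalars A := by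
    ext f
    rfl
  rw [hb, hz]

lemma hat_mem_lift_conc {n : ℕ} {S M : Type*} [CommRing S] [AddCommGroup M] [Module S M]
    (X : Submodule S M) (δ : ℤ) (f : KIdx n → M) :
    f ∈ lift (kdeg n) (conc X) δ ↔ ∀ a, (kdeg n a = δ → f a ∈ X) ∧ (kdeg n a ≠ δ → f a = 0) := by
  simp only [lift, Submodule.mem_pi, Set.mem_univ, true_implies]
  refine forall_congr' fun a => ?_
  unfold conc
  by_cases h : kdeg n a = δ
  · rw [if_pos (by omega)]
    simp [h]
  · rw [if_neg (by omega)]
    simp [h]

end general

section

variable (p r : ℕ) [Fact p.Prime] {A A' : Type u} [CommRing A] [CommRing A'] [Algebra A A']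
  [CharP A' p]

omit [CharP A' p] in
lemma hat_cc_smul (a : A) (f : MvPolynomial (Fin (r + 1)) A') :
    MvPolynomial.constantCoeff (a • f) = a • MvPolynomial.constantCoeff f := by
  rw [Algebra.smul_def, map_mul, MvPolynomial.algebraMap_apply, MvPolynomial.constantCoeff_C,
    Algebra.smul_def]

omit [CharP A' p] in
lemma hat_ker (f : MvPolynomial (Fin (r + 1)) A') : MvPolynomial.constantCoeff f = 0 ↔
    f ∈ Ideal.span ((MvPolynomial.X : Fin (r + 1) → MvPolynomial (Fin (r + 1)) A') '' Set.univ) := by
  rw [MvPolynomial.mem_ideal_span_X_image, MvPolynomial.constantCoeff_eq]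
  constructor
  · intro h m hm
    by_contra hc
    push Not at hc
    have h3 : m = 0 := by
      ext i
      exact hc i (Set.mem_univ i)
    rw [MvPolynomial.mem_support_iff, h3] at hm
    exact hm h
  · intro h
    by_contra hc
    obtain ⟨i, -, hi⟩ := h 0 (MvPolynomial.mem_support_iff.mpr hc)
    exact hi rfl

/-- the constant coefficient, `A`-linear. -/
noncomputable def hatC (A A' : Type u) [CommRing A] [CommRing A'] [Algebra A A'] (p r : ℕ) :
    OmR p r A' →ₗ[A] A' where
  toFun f := MvPolynomial.constantCoeff (f : MvPolynomial (Fin (r + 1)) A')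
  map_add' f g := map_add (MvPolynomial.constantCoeff (R := A') (σ := Fin (r + 1))) f g
  map_smul' a f := hat_cc_smul r a f

variable {p r} in
lemma hatC_mul (f g : OmR p r A') : hatC A A' p r (f * g) = hatC A A' p r f * hatC A A' p r g :=
  map_mul (MvPolynomial.constantCoeff (R := A') (σ := Fin (r + 1))) f g

/-- kernel of the constant coefficient. -/
lemma hatC_eq_zero (f : OmR p r A') :
    hatC A A' p r f = 0 ↔ f ∈ (mX (ZMod p) r).map (algebraMap (PP (ZMod p) r) (OmR p r A')) := by
  have h1 : (mX (ZMod p) r).map (algebraMap (PP (ZMod p) r) (OmR p r A')) =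
      Ideal.span ((MvPolynomial.X : Fin (r + 1) → MvPolynomial (Fin (r + 1)) A') '' Set.univ) := by
    rw [mX, Ideal.map_span, ← Set.range_comp, Set.image_univ]
    congr 1
    congr 1
    funext l
    change MvPolynomial.map (ZMod.castHom (dvd_refl p) A') (MvPolynomial.X l) = _
    rw [MvPolynomial.map_X]
  rw [h1]
  exact hat_ker r f

variable [SMulCommClass (PP (ZMod p) r) A (OmR p r A')]

/-- the map to the residue module. -/
noncomputable def hatPhi (A A' : Type u) [CommRing A] [CommRing A'] [Algebra A A'] (p r : ℕ)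
    [Fact p.Prime] [CharP A' p] [SMulCommClass (PP (ZMod p) r) A (OmR p r A')] :
    (OmR p r A' ⊗[PP (ZMod p) r] (PP (ZMod p) r)) →ₗ[A] A' :=
  (hatC A A' p r).comp
    ((AlgebraTensorModule.rid (PP (ZMod p) r) (OmR p r A') (OmR p r A')).toLinearMap.restrictScalars A)

lemma hatPhi_smul (w : OmR p r A') (x : OmR p r A' ⊗[PP (ZMod p) r] (PP (ZMod p) r)) :
    hatPhi A A' p r (w • x) = hatC A A' p r w * hatPhi A A' p r x := by
  unfold hatPhi
  rw [LinearMap.comp_apply, LinearMap.comp_apply, LinearMap.restrictScalars_apply,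
    LinearMap.restrictScalars_apply, map_smul, smul_eq_mul, hatC_mul]

lemma hatPhi_surjective : Function.Surjective (hatPhi A A' p r) := by
  intro y
  refine ⟨(cOm p r A' y) ⊗ₜ 1, ?_⟩
  unfold hatPhi
  rw [LinearMap.comp_apply, LinearMap.restrictScalars_apply]
  change hatC A A' p r ((1 : PP (ZMod p) r) • cOm p r A' y) = y
  rw [one_smul]
  exact MvPolynomial.constantCoeff_C _ y

lemma hatPhi_eq_zero (x : OmR p r A' ⊗[PP (ZMod p) r] (PP (ZMod p) r)) :
    hatPhi A A' p r x = 0 ↔
      x ∈ (show Submodule (PP (ZMod p) r) (PP (ZMod p) r) from mX (ZMod p) r).baseChange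
        (OmR p r A') := by
  set e := AlgebraTensorModule.rid (PP (ZMod p) r) (OmR p r A') (OmR p r A') with he
  have h1 : hatPhi A A' p r x = hatC A A' p r (e x) := rfl
  rw [h1, hatC_eq_zero]
  have h2 : (((show Submodule (PP (ZMod p) r) (PP (ZMod p) r) from mX (ZMod p) r).baseChange
      (OmR p r A')).map e.toLinearMap) =
      (mX (ZMod p) r).map (algebraMap (PP (ZMod p) r) (OmR p r A')) := by
    rw [Submodule.baseChange_eq_span, Submodule.map_span, Ideal.map, Ideal.span]
    congr 1
    ext y
    constructor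
    · rintro ⟨_, ⟨q, hq, rfl⟩, rfl⟩
      refine ⟨q, hq, ?_⟩
      change algebraMap (PP (ZMod p) r) (OmR p r A') q = q • (1 : OmR p r A')
      rw [Algebra.algebraMap_eq_smul_one]
    · rintro ⟨q, hq, rfl⟩
      refine ⟨_, ⟨q, hq, rfl⟩, ?_⟩
      change q • (1 : OmR p r A') = algebraMap (PP (ZMod p) r) (OmR p r A') q
      rw [Algebra.algebraMap_eq_smul_one]
  rw [← h2, Submodule.mem_map]
  constructor
  · rintro ⟨y, hy, hye⟩
    have : y = x := e.injective hye
    rwa [← this]
  · intro hx
    exact ⟨x, hx, rfl⟩

lemma hat_kos : ∀ (n : ℕ) (z : Fin n → A') (u : Fin n → OmR p r A')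
    (_ : ∀ l, hatC A A' p r (u l) = z l) (a b : KIdx n),
    hatC A A' p r (kos n u a b) = kos n z a b
  | 0, z, u, h, a, b => by
    change hatC A A' p r (0 : OmR p r A') = (0 : A')
    exact map_zero _
  | n + 1, z, u, h, Sum.inl a, Sum.inl b =>
    hat_kos n (fun i => z i.succ) (fun i => u i.succ) (fun l => h l.succ) a b
  | n + 1, z, u, h, Sum.inl a, Sum.inr b => by
    change hatC A A' p r ((u 0 • (1 : Matrix (KIdx n) (KIdx n) (OmR p r A'))) a b) =
      (z 0 • (1 : Matrix (KIdx n) (KIdx n) A')) a b
    rw [Matrix.smul_apply, Matrix.smul_apply, smul_eq_mul, smul_eq_mul, hatC_mul, h 0,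
      Matrix.one_apply, Matrix.one_apply]
    congr 1
    split_ifs
    · exact map_one (MvPolynomial.constantCoeff (R := A') (σ := Fin (r + 1)))
    · exact map_zero _
  | n + 1, z, u, h, Sum.inr a, Sum.inl b => by
    change hatC A A' p r (0 : OmR p r A') = (0 : A')
    exact map_zero _
  | n + 1, z, u, h, Sum.inr a, Sum.inr b => by
    have := hat_kos n (fun i => z i.succ) (fun i => u i.succ) (fun l => h l.succ) a b
    change hatC A A' p r (-(kos n (fun i => u i.succ) a b)) = -(kos n (fun i => z i.succ) a b)
    rw [map_neg, this]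

/-- Koszul homology over `A` of the residue field of the polynomial ring. -/
theorem hat_main [IsLocalRing A] [IsLocalRing A'] [IsLocalHom (algebraMap A A')]
    (z : Fin (r + 1) → A') (b : ℤ) :
    hA A (vz p r z) (⊤ : Submodule (PP (ZMod p) r) (PP (ZMod p) r)) (mX (ZMod p) r) b =
      Module.length (ResidueField A) (ResidueField A') * kk z A' b := by
  have hu : ∀ l, hatC A A' p r (vz p r z l) = z l := by
    intro l
    change MvPolynomial.constantCoeff (MvPolynomial.C (z l) -
      (MvPolynomial.X l : MvPolynomial (Fin (r + 1)) A')) = z l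
    rw [map_sub, MvPolynomial.constantCoeff_C, MvPolynomial.constantCoeff_X, sub_zero]
  have h1 := hc_transport (DA A (PP (ZMod p) r) (vz p r z))
    ((act (kos (r + 1) z) A').restrictScalars A)
    ((hatPhi A A' p r).compLeft (KIdx (r + 1))) (by
      intro x
      funext a
      change hatPhi A A' p r (∑ b, kos (r + 1) (vz p r z) a b • x b) =
        ∑ b, kos (r + 1) z a b • hatPhi A A' p r (x b)
      rw [map_sum]
      refine Finset.sum_congr rfl fun b _ => ?_
      rw [hatPhi_smul, hat_kos p r (r + 1) z _ hu, smul_eq_mul])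
    (KA A (OmR p r A') (r + 1) (mX (ZMod p) r : Submodule (PP (ZMod p) r) (PP (ZMod p) r)))
    (KA A (OmR p r A') (r + 1) (⊤ : Submodule (PP (ZMod p) r) (PP (ZMod p) r)))
    (fun q => (KF (r + 1) (⊥ : Submodule A' A') q).restrictScalars A)
    (fun q => (KF (r + 1) (⊤ : Submodule A' A') q).restrictScalars A)
    (fun q x hx => KF_cstab (r + 1) (vz p r z) _ q x hx)
    (fun q x hx => KF_cstab (r + 1) (vz p r z) _ q x hx)
    (fun q x hx => KF_cstab (r + 1) z _ q x hx)
    (by
      intro q x hx
      change x ∈ lift (kdeg (r + 1)) (conc _) (-q) at hx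
      change x ∈ lift (kdeg (r + 1)) (conc _) (-q)
      rw [hat_mem_lift_conc] at hx ⊢
      intro a
      exact ⟨fun h => Submodule.baseChange_mono _ le_top ((hx a).1 h), (hx a).2⟩)
    (by
      intro q
      apply le_antisymm
      · refine sup_le ?_ ?_
        · rintro _ ⟨x, hx, rfl⟩
          change x ∈ lift (kdeg (r + 1)) (conc _) (-q) at hx
          change _ ∈ lift (kdeg (r + 1)) (conc (⊤ : Submodule A' A')) (-q)
          rw [hat_mem_lift_conc] at hx ⊢
          intro a
          refine ⟨fun _ => Submodule.mem_top, fun h => ?_⟩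
          change hatPhi A A' p r (x a) = 0
          rw [(hx a).2 h, map_zero]
        · intro x hx
          change x ∈ lift (kdeg (r + 1)) (conc (⊥ : Submodule A' A')) (-q) at hx
          change x ∈ lift (kdeg (r + 1)) (conc (⊤ : Submodule A' A')) (-q)
          rw [hat_mem_lift_conc] at hx ⊢
          intro a
          exact ⟨fun _ => Submodule.mem_top, (hx a).2⟩
      · intro y hy
        change y ∈ lift (kdeg (r + 1)) (conc (⊤ : Submodule A' A')) (-q) at hy
        rw [hat_mem_lift_conc] at hy
        refine Submodule.mem_sup_left ?_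
        choose g hg using hatPhi_surjective (A := A) (A' := A') p r
        refine ⟨fun a => if kdeg (r + 1) a = -q then g (y a) else 0, ?_, ?_⟩
        · change _ ∈ lift (kdeg (r + 1)) (conc _) (-q)
          rw [hat_mem_lift_conc]
          intro a
          constructor
          · intro h
            rw [if_pos h]
            have : (⊤ : Submodule (PP (ZMod p) r) (PP (ZMod p) r)).baseChange (OmR p r A') = ⊤ :=
              Submodule.baseChange_top _
            rw [this]
            exact Submodule.mem_top
          · intro h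
            rw [if_neg h]
        · funext a
          change hatPhi A A' p r (if kdeg (r + 1) a = -q then g (y a) else 0) = y a
          split_ifs with h
          · exact hg (y a)
          · rw [map_zero, (hy a).2 h])
    (by
      intro q
      ext x
      constructor
      · rintro ⟨hx1, hx2⟩
        change x ∈ lift (kdeg (r + 1)) (conc _) (-q) at hx1
        change (fun a => hatPhi A A' p r (x a)) ∈ lift (kdeg (r + 1))
          (conc (⊥ : Submodule A' A')) (-q) at hx2
        change x ∈ lift (kdeg (r + 1)) (conc _) (-q)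
        rw [hat_mem_lift_conc] at hx1 hx2 ⊢
        intro a
        exact ⟨fun h => (hatPhi_eq_zero p r (x a)).1 ((hx2 a).1 h), (hx1 a).2⟩
      · intro hx
        change x ∈ lift (kdeg (r + 1)) (conc _) (-q) at hx
        rw [hat_mem_lift_conc] at hx
        constructor
        · change x ∈ lift (kdeg (r + 1)) (conc _) (-q)
          rw [hat_mem_lift_conc]
          intro a
          exact ⟨fun h => Submodule.baseChange_mono _ le_top ((hx a).1 h), (hx a).2⟩
        · change (fun a => hatPhi A A' p r (x a)) ∈ lift (kdeg (r + 1))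
            (conc (⊥ : Submodule A' A')) (-q)
          rw [hat_mem_lift_conc]
          intro a
          refine ⟨fun h => ?_, fun h => ?_⟩
          · exact (hatPhi_eq_zero p r (x a)).2 ((hx a).1 h)
          · rw [(hx a).2 h, map_zero])
    (-b)
  unfold hA
  rw [h1, LesC.hc_eq, neg_neg]
  have h2 := hat_hh_restrict (A := A) (act (kos (r + 1) z) A')
    (fun δ => lift (kdeg (r + 1)) (conc (⊤ : Submodule A' A')) δ)
    (fun δ => lift (kdeg (r + 1)) (conc (⊥ : Submodule A' A')) δ)
    (Module.length (ResidueField A) (ResidueField A'))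
    (fun Y X => length_restrict (A := A) (A' := A') _) b
  have e1 : LesC.rev (fun q => (KF (r + 1) (⊤ : Submodule A' A') q).restrictScalars A) =
      fun δ => (lift (kdeg (r + 1)) (conc (⊤ : Submodule A' A')) δ).restrictScalars A := by
    funext δ
    simp only [LesC.rev, KF, neg_neg]
  have e2 : LesC.rev (fun q => (KF (r + 1) (⊥ : Submodule A' A') q).restrictScalars A) =
      fun δ => (lift (kdeg (r + 1)) (conc (⊥ : Submodule A' A')) δ).restrictScalars A := by
    funext δ
    simp only [LesC.rev, KF, neg_neg]
  rw [e1, e2, h2, mul_comm]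
  congr 1
  have e3 : act (kos (r + 1) z) A' = tot (kdeg (r + 1)) (kos (r + 1) z) (0 : A' →ₗ[A'] A') := by
    ext f a
    simp [tot_apply, act_apply]
  rw [e3]
  rfl

end

section

variable (p r : ℕ) [Fact p.Prime] {A A' : Type u} [CommRing A] [CommRing A'] [Algebra A A']
  [CharP A' p]

theorem hat_smulComm : SMulCommClass (PP (ZMod p) r) A (OmR p r A') :=
  ⟨fun q a x => by
    rw [Algebra.smul_def q, Algebra.smul_def a, Algebra.smul_def q, Algebra.smul_def a,
      mul_left_comm]⟩

/-- TASK G3-H9: Koszul homology over `A` of the residue field of the polynomial ring. -/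
theorem hA_top [IsLocalRing A] [IsLocalRing A'] [IsLocalHom (algebraMap A A')]
    (z : Fin (r + 1) → A') (b : ℤ) :
    letI := hat_smulComm p r (A := A) (A' := A')
    hA A (vz p r z) (⊤ : Submodule (PP (ZMod p) r) (PP (ZMod p) r)) (mX (ZMod p) r) b =
      Module.length (ResidueField A) (ResidueField A') * kk z A' b := by
  letI := hat_smulComm p r (A := A) (A' := A')
  exact hat_main p r z b

end

end Vale.Agent.P202.CharP.Gen2
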