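import Vale.Agent.P202.CharP.Gen2.DefsC
import Vale.Agent.P202.CharP.DefsM

/-!
P202-G3, definitions for the finite box model of the Čech complex.
-/

namespace Vale.Agent.P202.CharP.Gen2

open Submodule TensorProduct Gen

/-- the level `1 - k` of the window filtration, restricted to the box `s i ≤ B + j`. -/
def SWB {r : ℕ} (a : Fin r → ℤ) (Q : ℕ) (B : ℤ) (k : ℕ) : Set (Finset (Fin r) × Gx r) :=
  {x | x ∈ SG a ∨ (x ∈ SF r ∧ (1 - (k : ℤ)) * Q ≤ x.2.2 ∧ ∀ i, x.2.1 i ≤ B + x.2.2)}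

/-- position of the cohomology of the window `-j`. -/
def pos (r m j : ℕ) : ℤ := if j < r + 1 then pdeg m j else r

/-- the estimate of the homology of all finite subquotients of `Lam` killed by `(X)^Q`. -/
def EstAll (κ : Type*) [Field κ] (r Q : ℕ) (S : Type*) [CommRing S] [Algebra (PP κ r) S]
    {ι : Type*} [Fintype ι] (deg : ι → ℤ) (K : Matrix ι ι S) (c lam : ℕ) (t : ℤ → ℕ) (η : ℕ) :
    Prop :=
  ∀ X Y : Submodule (PP κ r) (Lam κ r), X ≤ Y → (mX κ r) ^ Q • Y ≤ X → rl X Y ≠ ⊤ → ∀ i : ℤ,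
    khs deg K (Y.baseChange S) (X.baseChange S) i ≠ ⊤ ∧
    |(c : ℤ) * ((khs deg K (Y.baseChange S) (X.baseChange S) i).toNat : ℤ) -
      (lam : ℤ) * ((rl X Y).toNat : ℤ) * (t i : ℤ)| ≤ ((rl X Y).toNat : ℤ) * (η : ℤ)

/-- the total differential of the model. -/
noncomputable def DB (κ : Type*) [Field κ] (r : ℕ) (S : Type*) [CommRing S] [Algebra (PP κ r) S]
    {n' : ℕ} (L : Fin n' → S) :
    (KIdx n' → S ⊗[PP κ r] Lam κ r) →ₗ[S] (KIdx n' → S ⊗[PP κ r] Lam κ r) :=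
  tot (kdeg n') (kos n' L) ((dC κ r).baseChange S)

/-- the level `k` of the box model. -/
noncomputable def WB (κ : Type*) [Field κ] {r : ℕ} (a : Fin r → ℤ) (Q : ℕ) (B : ℤ) (S : Type*)
    [CommRing S] [Algebra (PP κ r) S] (n' k : ℕ) (δ : ℤ) :
    Submodule S (KIdx n' → S ⊗[PP κ r] Lam κ r) :=
  lift (kdeg n') (bcf S (MF κ (SWB a Q B k))) δ

/-- the bottom of the model. -/
noncomputable def WI (κ : Type*) [Field κ] {r : ℕ} (a : Fin r → ℤ) (S : Type*)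
    [CommRing S] [Algebra (PP κ r) S] (n' : ℕ) (δ : ℤ) :
    Submodule S (KIdx n' → S ⊗[PP κ r] Lam κ r) :=
  lift (kdeg n') (bcf S (MF κ (SG a))) δ

end Vale.Agent.P202.CharP.Gen2
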