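import Vale.Agent.P202.CharP.Gen2.DefsL
import Vale.Agent.P202.CharP.Gen2.DefsG
import Vale.Agent.P202.CharP.KhCongr

/-!
P202-G3-H1: the Koszul complex of a concatenation is the product complex.
-/

namespace Vale.Agent.P202.CharP.Gen2

open Submodule TensorProduct IsLocalRing Gen

section KCatEquiv

variable {S 𝕋 𝕋' : Type*} [CommRing S] [AddCommGroup 𝕋] [Module S 𝕋] [AddCommGroup 𝕋']
  [Module S 𝕋']

theorem kcat_hh_equiv (e : 𝕋 ≃ₗ[S] 𝕋') (D : 𝕋 →ₗ[S] 𝕋) (D' : 𝕋' →ₗ[S] 𝕋')
    (hD : ∀ x, D' (e x) = e (D x)) (Y X : ℤ → Submodule S 𝕋) (Y' X' : ℤ → Submodule S 𝕋')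
    (hY : ∀ δ x, e x ∈ Y' δ ↔ x ∈ Y δ) (hX : ∀ δ x, e x ∈ X' δ ↔ x ∈ X δ) (δ : ℤ) :
    hh D Y X δ = hh D' Y' X' δ := by
  have hmap : ∀ (Z : Submodule S 𝕋) (Z' : Submodule S 𝕋'), (∀ x, e x ∈ Z' ↔ x ∈ Z) →
      Z.map (e : 𝕋 →ₗ[S] 𝕋') = Z' := by
    intro Z Z' h
    ext x'
    obtain ⟨x, rfl⟩ := e.surjective x'
    rw [h]
    constructor
    · rintro ⟨y, hy, hyx⟩
      have : y = x := e.injective hyx
      exact this ▸ hy
    · exact fun hx => ⟨x, hx, rfl⟩
  have hb : (bb D Y X δ).map (e : 𝕋 →ₗ[S] 𝕋') = bb D' Y' X' δ := by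
    unfold bb
    rw [Submodule.map_sup, hmap _ _ (hX δ), ← hmap _ _ (hY (δ + 1)), ← Submodule.map_comp,
      ← Submodule.map_comp]
    congr 2
    ext1 x
    exact (hD x).symm
  have hz : (zz D Y X δ).map (e : 𝕋 →ₗ[S] 𝕋') = zz D' Y' X' δ := by
    refine hmap _ _ fun x => ?_
    unfold zz
    rw [Submodule.mem_inf, Submodule.mem_inf, Submodule.mem_comap, Submodule.mem_comap, hD, hY,
      hX]
  unfold hh
  rw [← hb, ← hz, rl_map_of_injective _ e.injective]

variable {ι ι' : Type*} [Fintype ι] [Fintype ι'] {M : Type*} [AddCommGroup M] [Module S M]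

theorem kcat_khs (σ : ι' ≃ ι) (deg : ι → ℤ) (Q : Matrix ι ι S) (deg' : ι' → ℤ)
    (Q' : Matrix ι' ι' S) (hdeg : ∀ a, deg (σ a) = deg' a)
    (hQ : ∀ a b, Q (σ a) (σ b) = Q' a b) (Y X : Submodule S M) (i : ℤ) :
    khs deg Q Y X i = khs deg' Q' Y X i := by
  have hl : ∀ (Z : Submodule S M) (δ : ℤ) (f : ι → M),
      LinearEquiv.funCongrLeft S M σ f ∈ lift deg' (conc Z) δ ↔ f ∈ lift deg (conc Z) δ := by
    intro Z δ f
    rw [khc_mem_lift, khc_mem_lift]
    constructor
    · intro h a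
      have h1 := h (σ.symm a)
      rw [← hdeg] at h1
      change f (σ (σ.symm a)) ∈ _ at h1
      rwa [σ.apply_symm_apply] at h1
    · intro h a
      rw [← hdeg]
      exact h (σ a)
  unfold khs
  refine kcat_hh_equiv (LinearEquiv.funCongrLeft S M σ) _ _ ?_ _ _ _ _ (hl Y) (hl X) i
  intro f
  ext a
  rw [tot_zero_apply]
  change ∑ b, Q' a b • f (σ b) = tot deg Q (0 : M →ₗ[S] M) f (σ a)
  rw [tot_zero_apply, ← σ.sum_comp]
  exact Finset.sum_congr rfl fun b _ => by rw [hQ]

end KCatEquiv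

/-- the index set of the concatenation. -/
def kcatE (m : ℕ) : ∀ k, KIdx k × KIdx m ≃ KIdx (m + k)
  | 0 => Equiv.punitProd (KIdx m)
  | k + 1 => (Equiv.sumProdDistrib (KIdx k) (KIdx k) (KIdx m)).trans
      (Equiv.sumCongr (kcatE m k) (kcatE m k))

theorem kcatE_deg (m : ℕ) : ∀ (k : ℕ) (x : KIdx k × KIdx m),
    kdeg (m + k) (kcatE m k x) = kdeg k x.1 + kdeg m x.2
  | 0, x => by
    have h1 : kdeg 0 x.1 = 0 := rfl
    rw [h1, zero_add]
    rfl
  | k + 1, (Sum.inl a, b) => kcatE_deg m k (a, b)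
  | k + 1, (Sum.inr a, b) => by
    have h1 : kdeg (m + (k + 1)) (kcatE m (k + 1) (Sum.inr a, b)) =
      kdeg (m + k) (kcatE m k (a, b)) + 1 := rfl
    have h2 : kdeg (k + 1) (Sum.inr a : KIdx k ⊕ KIdx k) = kdeg k a + 1 := rfl
    rw [h1, kcatE_deg m k (a, b)]
    show kdeg k a + kdeg m b + 1 = kdeg (k + 1) (Sum.inr a : KIdx k ⊕ KIdx k) + kdeg m b
    rw [h2]
    ring

section

variable {S : Type*} [CommRing S]

/-- the product matrix for lists of different lengths. -/
def kcatP (k m : ℕ) (y : Fin k → S) (u : Fin m → S) :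
    Matrix (KIdx k × KIdx m) (KIdx k × KIdx m) S := fun x x' =>
  (if x.2 = x'.2 then kos k y x.1 x'.1 else 0) +
    (if x.1 = x'.1 then (((kdeg k x.1).negOnePow : ℤ) : S) * kos m u x.2 x'.2 else 0)

theorem kcatE_kos (m : ℕ) (u : Fin m → S) : ∀ (k : ℕ) (y : Fin k → S) (x x' : KIdx k × KIdx m),
    kos (m + k) (cat u k y) (kcatE m k x) (kcatE m k x') = kcatP k m y u x x'
  | 0, y, x, x' => by
    have h1 : x.1 = x'.1 := by
      cases x with | mk a b => cases x' with | mk a' b' => exact Subsingleton.elim (α := PUnit) _ _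
    have h2 : kdeg 0 x.1 = 0 := rfl
    have h3 : kos 0 y x.1 x'.1 = 0 := rfl
    unfold kcatP
    rw [if_pos h1, h2, h3, ite_self, zero_add]
    simp only [Int.negOnePow_zero, Units.val_one, Int.cast_one, one_mul]
    rfl
  | k + 1, y, (Sum.inl a, b), (Sum.inl a', b') => by
    have ih : kos (m + k) (cat u k fun i => y i.succ) (kcatE m k (a, b)) (kcatE m k (a', b')) =
      (if b = b' then kos k (fun i => y i.succ) a a' else 0) +
      (if a = a' then (((kdeg k a).negOnePow : ℤ) : S) * kos m u b b' else 0) :=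
      kcatE_kos m u k (fun i => y i.succ) (a, b) (a', b')
    refine Eq.trans (show _ = kos (m + k) (cat u k fun i => y i.succ) (kcatE m k (a, b))
      (kcatE m k (a', b')) from rfl) (ih.trans ?_)
    show _ = (if b = b' then kos k (fun i => y i.succ) a a' else 0) +
      (if (Sum.inl a : KIdx k ⊕ KIdx k) = Sum.inl a' then
        (((kdeg k a).negOnePow : ℤ) : S) * kos m u b b' else 0)
    congr 1
    by_cases ha : a = a'
    · rw [if_pos ha, if_pos (congrArg Sum.inl ha)]
    · rw [if_neg ha, if_neg fun h => ha (Sum.inl.inj h)]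
  | k + 1, y, (Sum.inl a, b), (Sum.inr a', b') => by
    have h1 : (kcatE m k (a, b) = kcatE m k (a', b')) ↔ (a = a' ∧ b = b') :=
      (kcatE m k).injective.eq_iff.trans Prod.mk_inj
    have e1 : kos (m + (k + 1)) (cat u (k + 1) y) (kcatE m (k + 1) (Sum.inl a, b))
      (kcatE m (k + 1) (Sum.inr a', b')) = y 0 • (1 : Matrix (KIdx (m + k)) (KIdx (m + k)) S)
        (kcatE m k (a, b)) (kcatE m k (a', b')) := rfl
    have e2 : kcatP (k + 1) m y u (Sum.inl a, b) (Sum.inr a', b') =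
      (if b = b' then y 0 • (1 : Matrix (KIdx k) (KIdx k) S) a a' else 0) +
      (if (Sum.inl a : KIdx k ⊕ KIdx k) = Sum.inr a' then
        (((kdeg k a).negOnePow : ℤ) : S) * kos m u b b' else 0) := rfl
    have hne : ¬ ((Sum.inl a : KIdx k ⊕ KIdx k) = Sum.inr a') := Sum.inl_ne_inr
    rw [e1, e2, if_neg hne, add_zero, Matrix.one_apply, Matrix.one_apply]
    by_cases ha : a = a' <;> by_cases hb : b = b'
    · rw [if_pos (h1.2 ⟨ha, hb⟩), if_pos hb, if_pos ha]
    · rw [if_neg fun h => hb (h1.1 h).2, if_neg hb, smul_zero]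
    · rw [if_neg fun h => ha (h1.1 h).1, if_pos hb, if_neg ha]
    · rw [if_neg fun h => hb (h1.1 h).2, if_neg hb, smul_zero]
  | k + 1, y, (Sum.inr a, b), (Sum.inl a', b') => by
    have e1 : kos (m + (k + 1)) (cat u (k + 1) y) (kcatE m (k + 1) (Sum.inr a, b))
      (kcatE m (k + 1) (Sum.inl a', b')) = 0 := rfl
    have e2 : kcatP (k + 1) m y u (Sum.inr a, b) (Sum.inl a', b') =
      (if b = b' then 0 else 0) +
      (if (Sum.inr a : KIdx k ⊕ KIdx k) = Sum.inl a' then
        (((kdeg (k + 1) (Sum.inr a : KIdx k ⊕ KIdx k)).negOnePow : ℤ) : S) * kos m u b b'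
        else 0) := rfl
    have hne : ¬ ((Sum.inr a : KIdx k ⊕ KIdx k) = Sum.inl a') := Sum.inr_ne_inl
    rw [e1, e2, if_neg hne, add_zero, ite_self]
  | k + 1, y, (Sum.inr a, b), (Sum.inr a', b') => by
    have ih : kos (m + k) (cat u k fun i => y i.succ) (kcatE m k (a, b)) (kcatE m k (a', b')) =
      (if b = b' then kos k (fun i => y i.succ) a a' else 0) +
      (if a = a' then (((kdeg k a).negOnePow : ℤ) : S) * kos m u b b' else 0) :=
      kcatE_kos m u k (fun i => y i.succ) (a, b) (a', b')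
    have e1 : kos (m + (k + 1)) (cat u (k + 1) y) (kcatE m (k + 1) (Sum.inr a, b))
      (kcatE m (k + 1) (Sum.inr a', b')) = -kos (m + k) (cat u k fun i => y i.succ)
        (kcatE m k (a, b)) (kcatE m k (a', b')) := rfl
    have e2 : kcatP (k + 1) m y u (Sum.inr a, b) (Sum.inr a', b') =
      (if b = b' then -kos k (fun i => y i.succ) a a' else 0) +
      (if (Sum.inr a : KIdx k ⊕ KIdx k) = Sum.inr a' then
        (((kdeg k a + 1).negOnePow : ℤ) : S) * kos m u b b' else 0) := rfl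
    rw [e1, e2, ih, neg_add]
    congr 1
    · split_ifs <;> simp
    · by_cases ha : a = a'
      · rw [if_pos ha, if_pos (congrArg Sum.inr ha), Int.negOnePow_succ]
        push_cast
        ring
      · rw [if_neg ha, if_neg fun h => ha (Sum.inr.inj h), neg_zero]

omit [CommRing S] in
theorem kcat_range {m : ℕ} (u : Fin m → S) : ∀ (k : ℕ) (y : Fin k → S),
    Set.range (cat u k y) = Set.range y ∪ Set.range u
  | 0, y => by
    rw [Set.range_eq_empty y, Set.empty_union]
    rfl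
  | k + 1, y => by
    have h1 : cat u (k + 1) y = Fin.cons (y 0) (cat u k fun i => y i.succ) := rfl
    rw [h1]
    erw [Fin.range_cons]
    rw [kcat_range u k]
    have h2 : Set.range y = insert (y 0) (Set.range fun i : Fin k => y i.succ) := by
      conv_lhs => rw [← Fin.cons_self_tail y]
      rw [Fin.range_cons]
      rfl
    rw [h2, Set.insert_union]

end

section Pm

variable {S : Type*} [CommRing S] {M : Type*} [AddCommGroup M] [Module S M]

/-- TASK G3-H1: the Koszul complex of a concatenation is the product complex. -/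
theorem khs_cat (n : ℕ) (y v : Fin n → S) (Y X : Submodule S M) (i : ℤ) :
    khs (kdeg (n + n)) (kos (n + n) (cat v n y)) Y X i = khs (pdegP n) (pm n y v) Y X i :=
  kcat_khs (kcatE n n) _ _ _ _ (fun a => kcatE_deg n n a) (fun a b => kcatE_kos n v n y a b) Y X i

/-- TASK G3-H1. -/
theorem range_cat (n : ℕ) (y v : Fin n → S) :
    Set.range (cat v n y) = Set.range y ∪ Set.range v := kcat_range v n y

end Pm

end Vale.Agent.P202.CharP.Gen2
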