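import Vale.Agent.P202.CharP.Gen2.DefsO
import Vale.Agent.P202.CharP.Gen2.KosCat
import Vale.Agent.P202.CharP.Gen2.PmTot
import Vale.Agent.P202.CharP.KCm
import Vale.Agent.P202.CharP.KFr
import Vale.Agent.P202.CharP.TotRows

/-!
P202-G3, task H11: the Euler characteristic of the list `(y, z - X)`.
-/

namespace Vale.Agent.P202.CharP.Gen2

open Submodule TensorProduct IsLocalRing Gen
open scoped Pointwise

section Poly

open MvPolynomial

variable {B : Type*} [CommRing B]

lemma kl_sub_mem {n : ℕ} (w : Fin n → B) (f : MvPolynomial (Fin n) B) :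
    f - C (aeval w f) ∈
      Ideal.span (Set.range fun l => (C (w l) - X l : MvPolynomial (Fin n) B)) := by
  set J := Ideal.span (Set.range fun l => (C (w l) - X l : MvPolynomial (Fin n) B)) with hJ
  let φ : MvPolynomial (Fin n) B →ₐ[B] (MvPolynomial (Fin n) B ⧸ J) := Ideal.Quotient.mkₐ B J
  let ψ : MvPolynomial (Fin n) B →ₐ[B] (MvPolynomial (Fin n) B ⧸ J) :=
    (φ.comp (Algebra.ofId B (MvPolynomial (Fin n) B))).comp (aeval w)
  have h : φ = ψ := by
    refine MvPolynomial.algHom_ext fun l => ?_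
    have h1 : ψ (X l) = φ (C (w l)) := by
      change φ (algebraMap B (MvPolynomial (Fin n) B) (aeval w (X l))) = _
      rw [aeval_X]
      rfl
    rw [h1]
    refine (Ideal.Quotient.eq.2 ?_).symm
    exact Ideal.subset_span ⟨l, rfl⟩
  refine Ideal.Quotient.eq.1 ?_
  exact DFunLike.congr_fun h f

lemma kl_mem_span_iff {n : ℕ} (w : Fin n → B) (f : MvPolynomial (Fin n) B) :
    f ∈ Ideal.span (Set.range fun l => (C (w l) - X l : MvPolynomial (Fin n) B)) ↔
      aeval w f = 0 := by
  constructor
  · intro h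
    have h1 : Ideal.span (Set.range fun l => (C (w l) - X l : MvPolynomial (Fin n) B)) ≤
        RingHom.ker (aeval w : MvPolynomial (Fin n) B →ₐ[B] B) := by
      rw [Ideal.span_le]
      rintro _ ⟨l, rfl⟩
      change aeval w (C (w l) - X l) = 0
      rw [map_sub, aeval_X, aeval_C, Algebra.algebraMap_self, RingHom.id_apply, sub_self]
    exact h1 h
  · intro h
    have h1 := kl_sub_mem w f
    rwa [h, C_0, sub_zero] at h1

/-- partial evaluation of the first variable. -/
noncomputable def klp (n : ℕ) (b : B) : MvPolynomial (Fin (n + 1)) B →ₐ[B] MvPolynomial (Fin n) B :=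
  aeval (Fin.cons (C b) X)

lemma klp_sub_mem (n : ℕ) (b : B) (f : MvPolynomial (Fin (n + 1)) B) :
    f - rename Fin.succ (klp n b f) ∈
      Ideal.span {(C b - X 0 : MvPolynomial (Fin (n + 1)) B)} := by
  set J := Ideal.span {(C b - X 0 : MvPolynomial (Fin (n + 1)) B)} with hJ
  let φ : MvPolynomial (Fin (n + 1)) B →ₐ[B] (MvPolynomial (Fin (n + 1)) B ⧸ J) :=
    Ideal.Quotient.mkₐ B J
  let ψ : MvPolynomial (Fin (n + 1)) B →ₐ[B] (MvPolynomial (Fin (n + 1)) B ⧸ J) :=
    (φ.comp (rename Fin.succ)).comp (klp n b)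
  have h : φ = ψ := by
    refine MvPolynomial.algHom_ext fun l => ?_
    rcases Fin.eq_zero_or_eq_succ l with rfl | ⟨l, rfl⟩
    · have h1 : rename Fin.succ (klp n b (X 0)) = (C b : MvPolynomial (Fin (n + 1)) B) := by
        rw [klp, aeval_X, Fin.cons_zero, rename_C]
      have h2 : ψ (X 0) = Ideal.Quotient.mk J (rename Fin.succ (klp n b (X 0))) := rfl
      rw [h2, h1]
      have h3 : Ideal.Quotient.mk J (C b) = Ideal.Quotient.mk J (X 0) :=
        Ideal.Quotient.eq.2 (Ideal.subset_span (Set.mem_singleton _))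
      exact h3.symm
    · have h1 : rename Fin.succ (klp n b (X l.succ)) =
          (X l.succ : MvPolynomial (Fin (n + 1)) B) := by
        rw [klp, aeval_X, Fin.cons_succ, rename_X]
      have h2 : ψ (X l.succ) = Ideal.Quotient.mk J (rename Fin.succ (klp n b (X l.succ))) := rfl
      rw [h2, h1]
      rfl
  exact Ideal.Quotient.eq.1 (DFunLike.congr_fun h f)

lemma kl_reg0 {n : ℕ} (b : B) :
    IsSMulRegular (MvPolynomial (Fin (n + 1)) B) (C b - X 0 : MvPolynomial (Fin (n + 1)) B) := by
  intro f g h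
  change (C b - X 0) * f = (C b - X 0) * g at h
  have e1 : finSuccEquiv B n (C b - X 0) = -(Polynomial.X - Polynomial.C (C b)) := by
    rw [map_sub, finSuccEquiv_X_zero]
    have : finSuccEquiv B n (C b) = Polynomial.C (C b) := by
      simp [finSuccEquiv_apply]
    rw [this]
    ring
  have h2 := congrArg (finSuccEquiv B n) h
  rw [map_mul, map_mul, e1] at h2
  have h3 : (Polynomial.X - Polynomial.C (C b)) * finSuccEquiv B n f =
      (Polynomial.X - Polynomial.C (C b)) * finSuccEquiv B n g := by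
    linear_combination (-1 : Polynomial (MvPolynomial (Fin n) B)) * h2
  exact (finSuccEquiv B n).injective ((Polynomial.monic_X_sub_C _).isRegular.left h3)

theorem kl_weaklyRegular : ∀ (n : ℕ) (w : Fin n → B),
    RingTheory.Sequence.IsWeaklyRegular (MvPolynomial (Fin n) B)
      (List.ofFn fun l => (C (w l) - X l : MvPolynomial (Fin n) B))
  | 0, w => by
    rw [List.ofFn_zero]
    exact RingTheory.Sequence.IsWeaklyRegular.nil _ _
  | n + 1, w => by
    rw [List.ofFn_succ, RingTheory.Sequence.isWeaklyRegular_cons_iff]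
    refine ⟨kl_reg0 _, ?_⟩
    have ih := kl_weaklyRegular n (fun i => w i.succ)
    let f : MvPolynomial (Fin (n + 1)) B →ₛₗ[(klp n (w 0)).toRingHom] MvPolynomial (Fin n) B :=
      { toFun := klp n (w 0)
        map_add' := fun x y => map_add _ x y
        map_smul' := fun x y => map_mul _ x y }
    have hker : ((C (w 0) - X 0 : MvPolynomial (Fin (n + 1)) B) •
        (⊤ : Submodule (MvPolynomial (Fin (n + 1)) B) (MvPolynomial (Fin (n + 1)) B))) ≤
          LinearMap.ker f := by
      rintro _ ⟨x, -, rfl⟩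
      have h0 : klp n (w 0) (C (w 0) - X 0) = 0 := by
        have h1 : klp n (w 0) (C (w 0)) = C (w 0) := by
          rw [klp, aeval_C]
          rfl
        have h2 : klp n (w 0) (X 0) = C (w 0) := by
          rw [klp, aeval_X, Fin.cons_zero]
        rw [map_sub, h1, h2, sub_self]
      have h3 : klp n (w 0) ((C (w 0) - X 0) * x) = 0 := by
        rw [map_mul, h0, zero_mul]
      exact h3
    let e₀ : QuotSMulTop (C (w 0) - X 0 : MvPolynomial (Fin (n + 1)) B)
        (MvPolynomial (Fin (n + 1)) B) →ₛₗ[(klp n (w 0)).toRingHom] MvPolynomial (Fin n) B :=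
      Submodule.liftQ _ f hker
    have hinj : Function.Injective e₀ := by
      rw [injective_iff_map_eq_zero]
      intro x hx
      obtain ⟨x, rfl⟩ := Submodule.Quotient.mk_surjective _ x
      have hx' : klp n (w 0) x = 0 := hx
      have h1 := klp_sub_mem n (w 0) x
      rw [hx', map_zero, sub_zero, Ideal.mem_span_singleton'] at h1
      obtain ⟨c, hc⟩ := h1
      rw [Submodule.Quotient.mk_eq_zero]
      exact ⟨c, trivial, by rw [← hc]; exact mul_comm _ _⟩
    have hsurj : Function.Surjective e₀ := by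
      intro y
      refine ⟨Submodule.Quotient.mk (rename Fin.succ y), ?_⟩
      change klp n (w 0) (rename Fin.succ y) = y
      have h1 : (klp n (w 0)).comp (rename Fin.succ) = AlgHom.id B (MvPolynomial (Fin n) B) := by
        refine MvPolynomial.algHom_ext fun l => ?_
        change klp n (w 0) (rename Fin.succ (X l)) = X l
        rw [rename_X, klp, aeval_X, Fin.cons_succ]
      exact DFunLike.congr_fun h1 y
    let e := AddEquiv.ofBijective e₀.toAddMonoidHom ⟨hinj, hsurj⟩
    refine (AddEquiv.isWeaklyRegular_congr (e := e) ?_).mpr ih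
    rw [List.forall₂_iff_get]
    refine ⟨by simp, fun i h1 h2 x => ?_⟩
    simp only [List.get_ofFn]
    change e₀ _ = _ • e₀ x
    rw [LinearMap.map_smulₛₗ]
    congr 1
    change klp n (w 0) (C _ - X _) = _
    rw [map_sub, klp, aeval_X, aeval_C, Fin.cons_succ]
    rfl

end Poly

section Len

open MvPolynomial

variable {S B : Type*} [CommRing S] [CommRing B] [Algebra S B] {n : ℕ}

lemma kl_length [IsLocalRing S] [IsLocalRing B] [IsLocalHom (algebraMap S B)] (w : Fin n → B)
    (Q : Type*) [AddCommGroup Q] [Module (MvPolynomial (Fin n) B) Q] [Module S Q]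
    [IsScalarTower S (MvPolynomial (Fin n) B) Q]
    (hQ : ∀ s : MvPolynomial (Fin n) B, aeval w s = 0 → ∀ q : Q, s • q = 0) :
    Module.length S Q = Module.length (MvPolynomial (Fin n) B) Q *
      Module.length (ResidueField S) (ResidueField B) := by
  let m1 : Module B Q := Module.compHom Q (C : B →+* MvPolynomial (Fin n) B)
  have t1 : IsScalarTower S B Q := ⟨fun s b q => by
    change (C (s • b) : MvPolynomial (Fin n) B) • q = s • ((C b : MvPolynomial (Fin n) B) • q)
    rw [← smul_assoc]
    congr 1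
    rw [Algebra.smul_def, C_mul, Algebra.smul_def]
    rfl⟩
  let a1 : Algebra (MvPolynomial (Fin n) B) B :=
    (aeval w : MvPolynomial (Fin n) B →ₐ[B] B).toRingHom.toAlgebra
  have t2 : IsScalarTower (MvPolynomial (Fin n) B) B Q := ⟨fun f b q => by
    change (C (aeval w f * b) : MvPolynomial (Fin n) B) • q =
      f • ((C b : MvPolynomial (Fin n) B) • q)
    rw [smul_smul, ← sub_eq_zero, ← sub_smul]
    refine hQ _ ?_ q
    rw [map_sub, map_mul, map_mul, aeval_C, aeval_C, Algebra.algebraMap_self, RingHom.id_apply,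
      RingHom.id_apply, map_mul, aeval_C, Algebra.algebraMap_self, RingHom.id_apply, sub_self]⟩
  have h1 : Module.length (MvPolynomial (Fin n) B) Q = Module.length B Q := by
    refine Module.length_eq_of_surjective (S := MvPolynomial (Fin n) B) (R := B) (M := Q) ?_
    intro b
    refine ⟨C b, ?_⟩
    change aeval w (C b) = b
    rw [aeval_C, Algebra.algebraMap_self, RingHom.id_apply]
  rw [h1]
  exact length_restrict (A := S) (A' := B) Q

end Len

section Main

open MvPolynomial

variable {S B : Type*} [CommRing S] [CommRing B] [Algebra S B] {n : ℕ}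

lemma kl_ex (w : Fin n → B) (p : ℤ) (hp : p ≠ 0) :
    Ex (act (kos n fun l => (C (w l) - X l : MvPolynomial (Fin n) B)) (MvPolynomial (Fin n) B))
      (KF n ⊤) (KF n ⊥) p := by
  intro f hf
  have h1 : ∀ a, kdeg n a ≠ -p → f a = 0 := (kcm_mem_top _ _ _).1 hf.1
  have h2 : act (kos n fun l => (C (w l) - X l : MvPolynomial (Fin n) B))
      (MvPolynomial (Fin n) B) f = 0 := (kcm_mem_bot _ _ _).1 hf.2
  rcases lt_or_gt_of_ne hp with h | h
  · have h3 : KVan (fun l => (C (w l) - X l : MvPolynomial (Fin n) B)) (MvPolynomial (Fin n) B)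
        (-p) := by
      refine kcm_van_of_regular _ _ ?_ _ (kl_weaklyRegular n w) (-p) ?_
      · intro z hz
        refine ⟨1, ?_⟩
        rw [pow_one]
        obtain ⟨l, rfl⟩ := (List.mem_ofFn' _ _).mp hz
        exact Ideal.subset_span ⟨l, rfl⟩
      · rw [List.length_ofFn]
        omega
    obtain ⟨g, hg, hgf⟩ := h3 f h1 h2
    refine Submodule.mem_sup_left ⟨g, ?_, hgf⟩
    refine (kcm_mem_top _ _ _).2 fun a ha => hg a ?_
    omega
  · have h3 : f = 0 := by
      funext a
      refine h1 a ?_
      have := kdeg_range n a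
      omega
    rw [h3]
    exact Submodule.zero_mem _

lemma kl_top_bot (M : Type*) [AddCommGroup M] [Module S M] (p : ℤ) :
    KF n (⊥ : Submodule S M) p ≤ KF n ⊤ p := by
  intro f hf
  rw [show f = 0 from (kcm_mem_bot _ _ _).1 hf]
  exact Submodule.zero_mem _

variable [IsLocalRing S] [IsLocalRing B] [IsLocalHom (algebraMap S B)]

theorem kl_kk (w : Fin n → B) (y : Fin n → S) (i : ℤ) :
    kk y B i = kk (cat (fun l => (C (w l) - X l : MvPolynomial (Fin n) B)) n
      fun l => algebraMap S (MvPolynomial (Fin n) B) (y l)) (MvPolynomial (Fin n) B) i *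
        Module.length (ResidueField S) (ResidueField B) := by
  set v : Fin n → MvPolynomial (Fin n) B := fun l => C (w l) - X l with hv
  set y' : Fin n → MvPolynomial (Fin n) B :=
    fun l => algebraMap S (MvPolynomial (Fin n) B) (y l) with hy'
  let m1 : Module (MvPolynomial (Fin n) B) B :=
    Module.compHom B (aeval w : MvPolynomial (Fin n) B →ₐ[B] B).toRingHom
  have hsm : ∀ (f : MvPolynomial (Fin n) B) (b : B), f • b = aeval w f * b := fun _ _ => rfl
  have t1 : IsScalarTower S (MvPolynomial (Fin n) B) B := ⟨fun s f b => by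
    rw [hsm, hsm, Algebra.smul_def, Algebra.smul_def, map_mul, mul_assoc]
    congr 1
    change aeval w (C (algebraMap S B s)) = _
    rw [aeval_C, Algebra.algebraMap_self, RingHom.id_apply]⟩
  have e1 : kk (cat v n y') (MvPolynomial (Fin n) B) i = kk y' B i := by
    have hd : ∀ x, act (kos n v) (MvPolynomial (Fin n) B)
        (act (kos n v) (MvPolynomial (Fin n) B) x) = 0 := fun x => kcm_act_act _ _
    have s1 := khs_cat (M := MvPolynomial (Fin n) B) n y' v ⊤ ⊥ i
    have s2 := khs_pm (M := MvPolynomial (Fin n) B) n y' v ⊤ ⊥ i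
    have s3 := hh_lift_of_ex (kdeg n) (kos n y') (kos_isCx n y')
      (act (kos n v) (MvPolynomial (Fin n) B)) hd (KF n ⊥) (KF n ⊤)
      (KF_cstab n v _) (KF_cstab n v _) (kl_top_bot _) 0 (fun p hp => kl_ex w p hp) i
    let φ : (KIdx n → MvPolynomial (Fin n) B) →ₗ[MvPolynomial (Fin n) B] B :=
      { toFun := fun f => aeval w (f (kz n))
        map_add' := fun f g => by rw [Pi.add_apply, map_add]
        map_smul' := fun c f => by
          rw [Pi.smul_apply, smul_eq_mul, map_mul, RingHom.id_apply, hsm] }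
    have s4 := khs_map_eq (kdeg n) (kos n y') (kos_isCx n y') φ
      (cz (act (kos n v) (MvPolynomial (Fin n) B)) (KF n ⊤) (KF n ⊥) 0)
      (cb (act (kos n v) (MvPolynomial (Fin n) B)) (KF n ⊤) (KF n ⊥) 0) ⊤ ⊥
      (TR.cb_le_cz hd (KF_cstab n v _) (KF_cstab n v _) (kl_top_bot _) 0) ?_ ?_ (i + 0)
    · unfold kk kh
      rw [s1, s2, s3, s4, add_zero]
    · rw [eq_top_iff]
      intro b _
      have hf1 : (Pi.single (kz n) (C b) : KIdx n → MvPolynomial (Fin n) B) ∈
          KF n (⊤ : Submodule (MvPolynomial (Fin n) B) (MvPolynomial (Fin n) B)) 0 := by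
        refine (kcm_mem_top _ _ _).2 fun a ha => Pi.single_eq_of_ne ?_ _
        rintro rfl
        exact ha (by rw [kdeg_kz, neg_zero])
      have hf2 : act (kos n v) (MvPolynomial (Fin n) B)
          (Pi.single (kz n) (C b) : KIdx n → MvPolynomial (Fin n) B) = 0 := by
        have h := (kcm_mem_top _ _ _).1 (KF_cstab n v _ 0 _ hf1)
        funext a
        refine h a ?_
        have := kdeg_range n a
        omega
      refine ⟨Pi.single (kz n) (C b), ⟨hf1, ?_⟩, ?_⟩
      · refine (kcm_mem_bot _ _ _).2 ?_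
        exact hf2
      · change aeval w ((Pi.single (kz n) (C b) : KIdx n → MvPolynomial (Fin n) B) (kz n)) = b
        rw [Pi.single_eq_same, aeval_C, Algebra.algebraMap_self, RingHom.id_apply]
    · intro x hx
      have hx1 : ∀ a, kdeg n a - 0 ≠ 0 → x a = 0 := fun a ha =>
        (kcm_mem_top _ _ _).1 hx.1 a (by omega)
      have h1 := mem_bb_zero v x hx1
      have h2 : tot (kdeg n) (kos n v) (0 : MvPolynomial (Fin n) B →ₗ[MvPolynomial (Fin n) B]
          MvPolynomial (Fin n) B) = act (kos n v) (MvPolynomial (Fin n) B) :=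
        LinearMap.ext fun f => kcm_tot_zero _ _ f
      have h3 : cb (act (kos n v) (MvPolynomial (Fin n) B)) (KF n ⊤) (KF n ⊥) 0 =
          bb (tot (kdeg n) (kos n v) (0 : MvPolynomial (Fin n) B →ₗ[MvPolynomial (Fin n) B]
            MvPolynomial (Fin n) B)) (lift (kdeg n) (conc ⊤)) (lift (kdeg n) (conc ⊥)) 0 := by
        unfold cb bb KF
        rw [h2]
        norm_num
      rw [h3, h1, Submodule.mem_bot, smul_eq_mul, Ideal.mul_top, kl_mem_span_iff]
      rfl
  rw [e1]
  refine kk_restrict (A := S) (A' := MvPolynomial (Fin n) B) (N := B) y _ (fun X Y => ?_) i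
  refine kl_length w _ ?_
  intro s hs q
  obtain ⟨z, rfl⟩ := Submodule.Quotient.mk_surjective _ q
  have h1 : s • z = 0 := by
    refine Subtype.ext (funext fun a => ?_)
    change s • (z.1 a) = 0
    rw [hsm, hs, zero_mul]
  rw [← Submodule.Quotient.mk_smul, h1, Submodule.Quotient.mk_zero]

end Main

section Final

universe u

variable (p r : ℕ) [Fact p.Prime] {A S A' : Type u} [CommRing A] [CommRing S] [CommRing A']
  [Algebra A S] [Algebra A A'] [CharP A' p]

omit [Fact p.Prime] [CharP A' p] in
lemma kl_LL (y : Fin (r + 1) → S) (z : Fin (r + 1) → A') :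
    LL p r A y z = cat (fun l => (MvPolynomial.C ((1 : S) ⊗ₜ[A] z l) - MvPolynomial.X l :
      MvPolynomial (Fin (r + 1)) (S ⊗[A] A'))) (r + 1)
      fun l => algebraMap S (MvPolynomial (Fin (r + 1)) (S ⊗[A] A')) (y l) := by
  have h1 : (fun l => algebraMap (OmR p r A') (SgR p r A S A') (vz p r z l)) =
      fun l => (MvPolynomial.C ((1 : S) ⊗ₜ[A] z l) - MvPolynomial.X l :
        MvPolynomial (Fin (r + 1)) (S ⊗[A] A')) := by
    funext l
    have h2 : MvPolynomial.map
        (Algebra.TensorProduct.includeRight : A' →ₐ[A] S ⊗[A] A').toRingHom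
        (MvPolynomial.C (z l) - MvPolynomial.X l : MvPolynomial (Fin (r + 1)) A') =
        MvPolynomial.C ((1 : S) ⊗ₜ[A] z l) - MvPolynomial.X l := by
      rw [map_sub, MvPolynomial.map_C, MvPolynomial.map_X]
      rfl
    exact h2
  unfold LL
  rw [h1]
  rfl

/-- TASK G3-H11: the Euler characteristic of the list. -/
theorem kchi_LL [IsLocalRing S] [IsNoetherianRing S] [Module.Finite A A']
    [IsLocalRing (S ⊗[A] A')] [IsLocalHom (algebraMap S (S ⊗[A] A'))]
    (y : Fin (r + 1) → S) (z : Fin (r + 1) → A') (hy : ∀ i, y i ∈ maximalIdeal S)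
    (hyl : Module.length S (S ⧸ Ideal.span (Set.range y)) ≠ ⊤) (c : ℕ)
    (hc : Module.length (ResidueField S) (ResidueField (S ⊗[A] A')) = c) :
    (c : ℤ) * kchi (LL p r A y z) (SgR p r A S A') = kchi y (S ⊗[A] A') := by
  have key : ∀ i : ℤ, kk y (S ⊗[A] A') i = kk (LL p r A y z) (SgR p r A S A') i * c := by
    intro i
    have h1 := kl_kk (S := S) (B := S ⊗[A] A') (fun l => (1 : S) ⊗ₜ[A] z l) y i
    rw [hc] at h1
    rw [kl_LL]
    exact h1
  unfold kchi
  rw [Finset.mul_sum]
  have h1 : ∑ i ∈ Finset.range (r + 1 + 1), (-1 : ℤ) ^ i * ((kk y (S ⊗[A] A') (i : ℤ)).toNat : ℤ) =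
      ∑ i ∈ Finset.range (r + 1 + (r + 1) + 1),
        (-1 : ℤ) ^ i * ((kk y (S ⊗[A] A') (i : ℤ)).toNat : ℤ) := by
    refine Finset.sum_subset (Finset.range_mono (by omega)) fun i _ hi => ?_
    rw [kk_out y (S ⊗[A] A') i (Or.inr (by
      rw [Finset.mem_range, not_lt] at hi
      omega))]
    simp
  rw [h1]
  refine Finset.sum_congr rfl fun i _ => ?_
  rw [key, ENat.toNat_mul, ENat.toNat_natCast]
  push_cast
  ring

end Final

end Vale.Agent.P202.CharP.Gen2
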