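import Vale.Agent.P202.CharP.Gen2.DefsO
import Vale.Agent.P202.CharP.FrobBasic

/-!
P202-G3, task H10: lengths over `S` and over `Σ`; the residue degree is finite and positive.
-/

namespace Vale.Agent.P202.CharP.Gen2

open Submodule TensorProduct IsLocalRing Gen

universe u

theorem LengthO_one {σ : Type*} {B : Type*} [CommRing B] (P : Type*) [AddCommGroup P]
    [Module (MvPolynomial σ B) P] [Module B P] [IsScalarTower B (MvPolynomial σ B) P]
    (h : ∀ l, ∀ x : P, (MvPolynomial.X l : MvPolynomial σ B) • x = 0) :
    Module.length B P = Module.length (MvPolynomial σ B) P := by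
  have key : ∀ (f : MvPolynomial σ B) (x : P), f • x = MvPolynomial.constantCoeff f • x := by
    intro f x
    induction f using MvPolynomial.induction_on with
    | C a => rw [MvPolynomial.constantCoeff_C, ← MvPolynomial.algebraMap_eq, algebraMap_smul]
    | add p q hp hq => rw [add_smul, hp, hq, map_add, add_smul]
    | mul_X p l hp =>
      rw [mul_smul, h, smul_zero, map_mul, MvPolynomial.constantCoeff_X, mul_zero, zero_smul]
  let _ : Algebra (MvPolynomial σ B) B := (MvPolynomial.constantCoeff).toAlgebra
  have : IsScalarTower (MvPolynomial σ B) B P := ⟨fun f b x => by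
    show (MvPolynomial.constantCoeff f * b) • x = f • (b • x)
    rw [mul_smul, key]⟩
  exact (Module.length_eq_of_surjective (S := MvPolynomial σ B) (R := B)
    fun b => ⟨MvPolynomial.C b, MvPolynomial.constantCoeff_C σ b⟩).symm

theorem LengthO_pow {σ : Type*} {B : Type*} [CommRing B] (K : ℕ) :
    ∀ (N : Type u) [AddCommGroup N] [Module (MvPolynomial σ B) N] [Module B N]
      [IsScalarTower B (MvPolynomial σ B) N], (∀ L : List σ, L.length = K → ∀ x : N,
        (L.map (MvPolynomial.X : σ → MvPolynomial σ B)).prod • x = 0) →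
      Module.length B N = Module.length (MvPolynomial σ B) N := by
  induction K with
  | zero =>
    intro N _ _ _ _ h
    have : Subsingleton N := ⟨fun x y => by
      have h1 := h [] rfl x
      have h2 := h [] rfl y
      simp only [List.map_nil, List.prod_nil, one_smul] at h1 h2
      rw [h1, h2]⟩
    rw [Module.length_eq_zero, Module.length_eq_zero]
  | succ K ih =>
    intro N _ _ _ _ h
    let P : Submodule (MvPolynomial σ B) N :=
      { carrier := {x | ∀ l : σ, (MvPolynomial.X l : MvPolynomial σ B) • x = 0}
        add_mem' := fun {a b} ha hb l => by rw [smul_add, ha l, hb l, add_zero]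
        zero_mem' := fun l => smul_zero _
        smul_mem' := fun c x hx l => by rw [smul_comm, hx l, smul_zero] }
    have h1 : Module.length B N = Module.length B P + Module.length B (N ⧸ P) :=
      Module.length_eq_add_of_exact (P.subtype.restrictScalars B) (P.mkQ.restrictScalars B)
        (Submodule.subtype_injective P) (Submodule.mkQ_surjective P)
        (LinearMap.exact_subtype_mkQ P)
    have h2 : Module.length (MvPolynomial σ B) N = Module.length (MvPolynomial σ B) P +
        Module.length (MvPolynomial σ B) (N ⧸ P) :=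
      Module.length_eq_add_of_exact P.subtype P.mkQ
        (Submodule.subtype_injective P) (Submodule.mkQ_surjective P)
        (LinearMap.exact_subtype_mkQ P)
    rw [h1, h2, LengthO_one P fun l x => Subtype.ext (x.2 l), ih (N ⧸ P) ?_]
    intro L hL x
    obtain ⟨y, rfl⟩ := P.mkQ_surjective x
    rw [← map_smul, Submodule.mkQ_apply, Submodule.Quotient.mk_eq_zero]
    intro l
    rw [smul_smul, ← List.prod_cons, ← List.map_cons]
    exact h (l :: L) (by simp [hL]) y

section

variable (p r : ℕ) [Fact p.Prime] {A S A' : Type u} [CommRing A] [CommRing S] [CommRing A']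
  [Algebra A S] [Algebra A A'] [CharP A' p]

theorem LengthO_mem (κ : Type*) [Field κ] (r : ℕ) (L : List (Fin (r + 1))) :
    (L.map (MvPolynomial.X : Fin (r + 1) → PP κ r)).prod ∈ (mX κ r) ^ L.length := by
  induction L with
  | nil => simp
  | cons l L ih =>
    rw [List.map_cons, List.prod_cons, List.length_cons, pow_succ']
    exact Ideal.mul_mem_mul (Ideal.subset_span ⟨l, rfl⟩) ih

theorem LengthO_map (L : List (Fin (r + 1))) :
    algebraMap (PP (ZMod p) r) (SgR p r A S A') ((L.map MvPolynomial.X).prod) =
      (L.map (MvPolynomial.X : Fin (r + 1) → MvPolynomial (Fin (r + 1)) (S ⊗[A] A'))).prod := by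
  have h : ∀ l : Fin (r + 1), algebraMap (PP (ZMod p) r) (SgR p r A S A') (MvPolynomial.X l) =
      (MvPolynomial.X l : MvPolynomial (Fin (r + 1)) (S ⊗[A] A')) := by
    intro l
    show MvPolynomial.map _ (MvPolynomial.map _ (MvPolynomial.X l)) = _
    rw [MvPolynomial.map_X, MvPolynomial.map_X]
  induction L with
  | nil => exact map_one _
  | cons l L ih =>
    rw [List.map_cons, List.prod_cons, map_mul, ih, h l, List.map_cons, List.prod_cons]
    rfl

/-- TASK G3-H10: lengths over `S` and over `Σ`. -/
theorem length_Sg [IsLocalRing S] [IsLocalRing (S ⊗[A] A')]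
    [IsLocalHom (algebraMap S (S ⊗[A] A'))] (K : ℕ)
    (N : Type u) [AddCommGroup N] [Module (SgR p r A S A') N] [Module S N]
    [IsScalarTower S (SgR p r A S A') N]
    (hN : ∀ q ∈ (mX (ZMod p) r) ^ K, ∀ x : N,
      algebraMap (PP (ZMod p) r) (SgR p r A S A') q • x = 0) :
    Module.length S N = Module.length (ResidueField S) (ResidueField (S ⊗[A] A')) *
      Module.length (SgR p r A S A') N := by
  let m1 : Module (MvPolynomial (Fin (r + 1)) (S ⊗[A] A')) N :=
    ‹Module (SgR p r A S A') N›
  let m2 : Module (S ⊗[A] A') N :=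
    Module.compHom N (MvPolynomial.C : (S ⊗[A] A') →+* MvPolynomial (Fin (r + 1)) (S ⊗[A] A'))
  have t1 : IsScalarTower (S ⊗[A] A') (MvPolynomial (Fin (r + 1)) (S ⊗[A] A')) N :=
    ⟨fun b f x => by
      rw [Algebra.smul_def, mul_smul]
      rfl⟩
  have t2 : IsScalarTower S (S ⊗[A] A') N := ⟨fun s b x => by
    have h1 : ∀ (s : S) (x : N), s • x = (algebraMap S (SgR p r A S A') s) • x :=
      fun s x => (algebraMap_smul (SgR p r A S A') s x).symm
    rw [Algebra.smul_def, mul_smul, h1]
    rfl⟩
  rw [length_restrict (A := S) (A' := S ⊗[A] A') N, mul_comm]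
  congr 1
  refine LengthO_pow K N fun L hL x => ?_
  have h2 := hN _ (hL ▸ LengthO_mem (ZMod p) r L) x
  rw [LengthO_map] at h2
  exact h2

/-- TASK G3-H10: the residue degree is finite and positive. -/
theorem residue_finite [IsLocalRing S] [IsNoetherianRing S] [Module.Finite A A']
    [IsLocalRing (S ⊗[A] A')] :
    ∃ _ : IsLocalHom (algebraMap S (S ⊗[A] A')), ∃ c : ℕ, 1 ≤ c ∧
      Module.length (ResidueField S) (ResidueField (S ⊗[A] A')) = c := by
  have hloc : IsLocalHom (algebraMap S (S ⊗[A] A')) := by
    refine ⟨fun s hs => ?_⟩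
    by_contra hns
    have hsm : s ∈ maximalIdeal S := (mem_maximalIdeal s).2 hns
    have h1 : (⊤ : Submodule S (S ⊗[A] A')) ≤ maximalIdeal S • ⊤ := by
      intro b _
      obtain ⟨u, hu⟩ := hs
      have h2 : b = s • ((↑u⁻¹ : S ⊗[A] A') * b) := by
        rw [Algebra.smul_def, ← hu, Units.mul_inv_cancel_left]
      rw [h2]
      exact Submodule.smul_mem_smul hsm Submodule.mem_top
    have h3 := Submodule.eq_bot_of_le_smul_of_le_jacobson_bot (maximalIdeal S)
      (⊤ : Submodule S (S ⊗[A] A')) Module.Finite.fg_top h1 (maximalIdeal_le_jacobson _)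
    have h4 : (1 : S ⊗[A] A') ∈ (⊥ : Submodule S (S ⊗[A] A')) := h3 ▸ Submodule.mem_top
    exact one_ne_zero ((Submodule.mem_bot S).1 h4)
  refine ⟨hloc, ?_⟩
  have hf : Module.Finite (ResidueField S) (ResidueField (S ⊗[A] A')) := inferInstance
  refine ⟨Module.finrank (ResidueField S) (ResidueField (S ⊗[A] A')), Module.finrank_pos, ?_⟩
  exact Module.length_eq_finrank _ _

end

end Vale.Agent.P202.CharP.Gen2
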