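import Vale.Agent.P202.CharP.Gen2.DefsO

/-!
P202-G3-H8: the list `(y, z - X)` in `Σ`.
-/

namespace Vale.Agent.P202.CharP.Gen2

open Submodule TensorProduct IsLocalRing Gen

universe u

lemma listO_cat_left {S : Type*} {m : ℕ} (u : Fin m → S) (j : Fin m) (k : ℕ) :
    ∀ y : Fin k → S, u j ∈ Set.range (cat u k y) := by
  induction k with
  | zero => exact fun _ => ⟨j, rfl⟩
  | succ k ih =>
    intro y
    obtain ⟨i, hi⟩ := ih (fun i => y i.succ)
    exact ⟨i.succ, by rw [← hi]; rfl⟩

lemma listO_cat_right {S : Type*} {m : ℕ} (u : Fin m → S) (k : ℕ) :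
    ∀ (y : Fin k → S) (j : Fin k), y j ∈ Set.range (cat u k y) := by
  induction k with
  | zero => exact fun _ j => j.elim0
  | succ k ih =>
    intro y j
    refine Fin.cases ⟨0, rfl⟩ (fun j' => ?_) j
    obtain ⟨i, hi⟩ := ih (fun i => y i.succ) j'
    exact ⟨i.succ, by rw [← hi]; rfl⟩

lemma listO_sup_pow {R : Type*} [CommRing R] (I J : Ideal R) (n : ℕ) :
    (I ⊔ J) ^ n ≤ I ⊔ J ^ n := by
  induction n with
  | zero => simp
  | succ n ih =>
    calc (I ⊔ J) ^ (n + 1) = (I ⊔ J) ^ n * (I ⊔ J) := pow_succ _ _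
      _ ≤ (I ⊔ J ^ n) * (I ⊔ J) := Ideal.mul_mono_left ih
      _ ≤ I ⊔ J ^ (n + 1) := by
        rw [Ideal.sup_mul, Ideal.mul_sup, Ideal.mul_sup, pow_succ]
        refine sup_le (sup_le ?_ ?_) (sup_le ?_ ?_)
        · exact le_sup_of_le_left Ideal.mul_le_right
        · exact le_sup_of_le_left Ideal.mul_le_left
        · exact le_sup_of_le_left Ideal.mul_le_right
        · exact le_sup_right

lemma listO_push {R T P ι : Type*} [CommRing R] [CommRing T] [CommRing P] (c : R →+* T)
    (z : ι → R) (v x : ι → T) (h : ∀ l, c (z l) = v l + x l) (f : P →+* T) (m : Ideal P)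
    (hx : ∀ l, x l ∈ m.map f) (Q : ℕ) (a : R) (ha : a ∈ Ideal.span (Set.range z) ^ Q) :
    c a ∈ Ideal.span (Set.range v) ⊔ (m ^ Q).map f := by
  have h1 : c a ∈ (Ideal.span (Set.range z) ^ Q).map c := Ideal.mem_map_of_mem c ha
  rw [Ideal.map_pow, Ideal.map_span] at h1
  have h2 : Ideal.span (c '' Set.range z) ≤ Ideal.span (Set.range v) ⊔ m.map f := by
    rw [Ideal.span_le]
    rintro _ ⟨_, ⟨l, rfl⟩, rfl⟩
    rw [SetLike.mem_coe, h l]
    exact add_mem (Ideal.mem_sup_left (Ideal.subset_span ⟨l, rfl⟩))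
      (Ideal.mem_sup_right (hx l))
  rw [Ideal.map_pow]
  exact listO_sup_pow _ _ Q (Ideal.pow_right_mono h2 Q h1)

/-- a finite module killed by an ideal of finite colength has finite length. -/
lemma listO_length_ne_top_of_killed {S : Type*} [CommRing S] {I : Ideal S}
    (hfin : Module.length S (S ⧸ I) ≠ ⊤)
    (M : Type*) [AddCommGroup M] [Module S M] [Module.Finite S M]
    (hI : ∀ r ∈ I, ∀ m : M, r • m = 0) : Module.length S M ≠ ⊤ := by
  obtain ⟨n, π, hπ⟩ := Module.Finite.exists_fin' S M
  let g : Fin n → ((S ⧸ I) →ₗ[S] M) := fun i =>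
    Submodule.liftQ I (LinearMap.toSpanSingleton S M (π (Pi.single i 1))) (by
      intro r hr
      rw [LinearMap.mem_ker, LinearMap.toSpanSingleton_apply]
      exact hI r hr _)
  let G : (Fin n → (S ⧸ I)) →ₗ[S] M := LinearMap.lsum S (fun _ => S ⧸ I) S g
  have hG : Function.Surjective G := by
    intro m
    obtain ⟨v, rfl⟩ := hπ m
    refine ⟨fun i => Submodule.Quotient.mk (v i), ?_⟩
    have h0 : G (fun i => Submodule.Quotient.mk (v i)) =
        ∑ i, g i (Submodule.Quotient.mk (v i)) := by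
      simp [G, LinearMap.lsum_apply]
    have h1 : ∀ i, g i (Submodule.Quotient.mk (v i)) = v i • π (Pi.single i 1) := fun i => rfl
    rw [h0]
    simp only [h1, ← map_smul, ← map_sum]
    congr 1
    ext j
    simp [Finset.sum_apply, Pi.single_apply]
  have h2 : Module.length S (Fin n → (S ⧸ I)) ≠ ⊤ := by
    rw [Module.length_pi]
    refine WithTop.mul_ne_top ?_ hfin
    rw [ENat.card_eq_coe_fintype_card]
    exact ENat.natCast_ne_top _
  exact ne_top_of_le_ne_top h2 (Module.length_le_of_surjective G hG)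

/-- lengths of quotients of polynomial rings. -/
lemma listO_length {S T R : Type*} [CommRing S] [CommRing T] [CommRing R] [Algebra S T]
    [Algebra S R] [Module.Finite S T] (I : Ideal S) (hI : Module.length S (S ⧸ I) ≠ ⊤)
    (c : T →+* R) (hc : ∀ s, c (algebraMap S T s) = algebraMap S R s) (J : Ideal R)
    (hIJ : I.map (algebraMap S R) ≤ J) (hsurj : ∀ x : R, ∃ t : T, x - c t ∈ J) :
    Module.length R (R ⧸ J) ≠ ⊤ := by
  have h1 : Module.length R (R ⧸ J) ≤ Module.length S (R ⧸ J) := by
    have h2 := Submodule.length_le_length_restrictScalars S (⊤ : Submodule R (R ⧸ J))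
    rw [Submodule.restrictScalars_top, Module.length_top, Module.length_top] at h2
    exact h2
  refine ne_top_of_le_ne_top ?_ h1
  let g : T →ₗ[S] (R ⧸ J) :=
    { toFun := fun t => Ideal.Quotient.mk J (c t)
      map_add' := fun a b => by rw [map_add, map_add]
      map_smul' := fun s t => by
        rw [Algebra.smul_def, map_mul, hc, RingHom.id_apply, Algebra.smul_def, map_mul]
        rfl }
  have hg : Function.Surjective g := by
    intro y
    obtain ⟨x, rfl⟩ := Ideal.Quotient.mk_surjective y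
    obtain ⟨t, ht⟩ := hsurj x
    exact ⟨t, (Ideal.Quotient.eq.2 ht).symm⟩
  have : Module.Finite S (R ⧸ J) := Module.Finite.of_surjective g hg
  refine listO_length_ne_top_of_killed hI (R ⧸ J) fun a ha m => ?_
  obtain ⟨x, rfl⟩ := Ideal.Quotient.mk_surjective m
  rw [Algebra.smul_def]
  show Ideal.Quotient.mk J (algebraMap S R a) * Ideal.Quotient.mk J x = 0
  rw [← map_mul, Ideal.Quotient.eq_zero_iff_mem]
  exact Ideal.mul_mem_right _ _ (hIJ (Ideal.mem_map_of_mem _ ha))

section

variable (p r : ℕ) [Fact p.Prime] {A S A' : Type u} [CommRing A] [CommRing S] [CommRing A']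
  [Algebra A S] [Algebra A A'] [CharP A' p]

lemma listO_algebraMap_Om (a : A) :
    algebraMap A (OmR p r A') a = cOm p r A' (algebraMap A A' a) := rfl

lemma listO_X_Om (l : Fin (r + 1)) :
    algebraMap (PP (ZMod p) r) (OmR p r A') (MvPolynomial.X l) = xOm p r A' l :=
  MvPolynomial.map_X _ l

/-- TASK G3-H8: `m_A` acts through high powers of the variables. -/
theorem push_Om [IsLocalRing A] (z : Fin (r + 1) → A') (Q : ℕ)
    (hz : ∀ a ∈ maximalIdeal A, algebraMap A A' a ∈ Ideal.span (Set.range z) ^ Q) :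
    ∀ a ∈ maximalIdeal A, algebraMap A (OmR p r A') a ∈
      Ideal.span (Set.range (vz p r z)) ⊔
        ((mX (ZMod p) r) ^ Q).map (algebraMap (PP (ZMod p) r) (OmR p r A')) := by
  intro a ha
  rw [listO_algebraMap_Om]
  refine listO_push (cOm p r A') z (vz p r z) (xOm p r A') (fun l => ?_)
    (algebraMap (PP (ZMod p) r) (OmR p r A')) (mX (ZMod p) r) (fun l => ?_) Q _ (hz a ha)
  · unfold vz
    ring
  · rw [← listO_X_Om]
    exact Ideal.mem_map_of_mem _ (Ideal.subset_span ⟨l, rfl⟩)

lemma listO_vz_Sg (z : Fin (r + 1) → A') (l : Fin (r + 1)) :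
    algebraMap (OmR p r A') (SgR p r A S A') (vz p r z l) =
      cSg p r A S A' ((1 : S) ⊗ₜ[A] z l) -
        algebraMap (PP (ZMod p) r) (SgR p r A S A') (MvPolynomial.X l) := by
  have h1 : algebraMap (PP (ZMod p) r) (SgR p r A S A') (MvPolynomial.X l) =
      toSg p r A S A' (xOm p r A' l) := by
    rw [← listO_X_Om]
    rfl
  have h2 : toSg p r A S A' (cOm p r A' (z l)) = cSg p r A S A' ((1 : S) ⊗ₜ[A] z l) :=
    MvPolynomial.map_C _ _
  have h3 : algebraMap (OmR p r A') (SgR p r A S A') (vz p r z l) =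
      toSg p r A S A' (cOm p r A' (z l) - xOm p r A' l) := rfl
  rw [h3, map_sub, h2, h1]

lemma listO_cSg_algebraMap (s : S) :
    cSg p r A S A' (algebraMap S (S ⊗[A] A') s) = algebraMap S (SgR p r A S A') s := rfl

/-- TASK G3-H8: a power of each variable lies in the ideal of the list. -/
theorem X_pow_mem (y : Fin (r + 1) → S) (z : Fin (r + 1) → A') (N₀ : ℕ)
    (hz : ∀ l, (1 : S) ⊗ₜ[A] (z l ^ N₀) ∈
      (Ideal.span (Set.range y)).map (algebraMap S (S ⊗[A] A'))) (l : Fin (r + 1)) :
    (algebraMap (PP (ZMod p) r) (SgR p r A S A') (MvPolynomial.X l)) ^ N₀ ∈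
      Ideal.span (Set.range (LL p r A y z)) := by
  set X := algebraMap (PP (ZMod p) r) (SgR p r A S A') (MvPolynomial.X l) with hX
  set c := cSg p r A S A' ((1 : S) ⊗ₜ[A] z l) with hc
  have h1 : c - X ∈ Ideal.span (Set.range (LL p r A y z)) := by
    rw [hc, hX, ← listO_vz_Sg]
    exact Ideal.subset_span (listO_cat_left
      (fun l => algebraMap (OmR p r A') (SgR p r A S A') (vz p r z l)) l (r + 1) _)
  have h2 : c ^ N₀ ∈ Ideal.span (Set.range (LL p r A y z)) := by
    have h3 : c ^ N₀ = cSg p r A S A' ((1 : S) ⊗ₜ[A] (z l ^ N₀)) := by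
      rw [hc, ← map_pow, Algebra.TensorProduct.tmul_pow, one_pow]
    have h4 : cSg p r A S A' ((1 : S) ⊗ₜ[A] (z l ^ N₀)) ∈
        ((Ideal.span (Set.range y)).map (algebraMap S (S ⊗[A] A'))).map (cSg p r A S A') :=
      Ideal.mem_map_of_mem _ (hz l)
    rw [h3]
    rw [Ideal.map_map, Ideal.map_span] at h4
    refine Ideal.span_le.2 ?_ h4
    rintro _ ⟨_, ⟨j, rfl⟩, rfl⟩
    exact Ideal.subset_span (listO_cat_right
      (fun l => algebraMap (OmR p r A') (SgR p r A S A') (vz p r z l)) (r + 1)
      (fun l => algebraMap S (SgR p r A S A') (y l)) j)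
  have h5 : c ^ N₀ - X ^ N₀ ∈ Ideal.span (Set.range (LL p r A y z)) :=
    Ideal.mem_of_dvd _ (sub_dvd_pow_sub_pow c X N₀) h1
  have h6 := sub_mem h2 h5
  rwa [sub_sub_cancel] at h6

variable (A S A') in
/-- the identity. -/
noncomputable def listO_i : MvPolynomial (Fin (r + 1)) (S ⊗[A] A') →+* SgR p r A S A' :=
  RingHom.id (MvPolynomial (Fin (r + 1)) (S ⊗[A] A'))

/-- TASK G3-H8: the list generates an ideal of finite colength. -/
theorem length_LL [IsNoetherianRing S] [IsLocalRing S] [Module.Finite A A']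
    (y : Fin (r + 1) → S) (z : Fin (r + 1) → A')
    (hyl : Module.length S (S ⧸ Ideal.span (Set.range y)) ≠ ⊤) :
    Module.length (SgR p r A S A')
      (SgR p r A S A' ⧸ Ideal.span (Set.range (LL p r A y z))) ≠ ⊤ := by
  refine listO_length (Ideal.span (Set.range y)) hyl (cSg p r A S A')
    (listO_cSg_algebraMap p r) _ ?_ ?_
  · rw [Ideal.map_span, Ideal.span_le]
    rintro _ ⟨_, ⟨j, rfl⟩, rfl⟩
    exact Ideal.subset_span (listO_cat_right
      (fun l => algebraMap (OmR p r A') (SgR p r A S A') (vz p r z l)) (r + 1)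
      (fun l => algebraMap S (SgR p r A S A') (y l)) j)
  · have key : ∀ x : MvPolynomial (Fin (r + 1)) (S ⊗[A] A'), ∃ t : S ⊗[A] A',
        listO_i p r A S A' x - cSg p r A S A' t ∈
          Ideal.span (Set.range (LL p r A y z)) := by
      intro x
      induction x using MvPolynomial.induction_on with
      | C a =>
        refine ⟨a, ?_⟩
        have h : listO_i p r A S A' (MvPolynomial.C a) - cSg p r A S A' a = 0 :=
          sub_self _
        rw [h]
        exact zero_mem _
      | add f g hf hg =>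
        obtain ⟨t, ht⟩ := hf
        obtain ⟨t', ht'⟩ := hg
        refine ⟨t + t', ?_⟩
        rw [map_add, map_add, ← sub_add_sub_comm]
        exact add_mem ht ht'
      | mul_X f n hf =>
        obtain ⟨t, ht⟩ := hf
        refine ⟨t * ((1 : S) ⊗ₜ[A] z n), ?_⟩
        have h1 := listO_vz_Sg p r (A := A) (S := S) z n
        have h0 : algebraMap (PP (ZMod p) r) (SgR p r A S A') (MvPolynomial.X n) =
            listO_i p r A S A' (MvPolynomial.X n) := by
          show toSg p r A S A' (toOm p r A' (MvPolynomial.X n)) = _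
          have e1 : toOm p r A' (MvPolynomial.X n) = xOm p r A' n := listO_X_Om p r n
          rw [e1]
          exact MvPolynomial.map_X _ n
        rw [h0] at h1
        have h2 : (cSg p r A S A' ((1 : S) ⊗ₜ[A] z n)) -
            listO_i p r A S A' (MvPolynomial.X n) ∈
              Ideal.span (Set.range (LL p r A y z)) := by
          rw [← h1]
          exact Ideal.subset_span (listO_cat_left
            (fun l => algebraMap (OmR p r A') (SgR p r A S A') (vz p r z l)) n (r + 1) _)
        have h : listO_i p r A S A' (f * MvPolynomial.X n) -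
            cSg p r A S A' (t * ((1 : S) ⊗ₜ[A] z n)) =
            listO_i p r A S A' (MvPolynomial.X n) *
              (listO_i p r A S A' f - cSg p r A S A' t) -
            cSg p r A S A' t * ((cSg p r A S A' ((1 : S) ⊗ₜ[A] z n)) -
              listO_i p r A S A' (MvPolynomial.X n)) := by
          rw [map_mul, map_mul]
          ring
        rw [h]
        exact sub_mem (Ideal.mul_mem_left _ _ ht) (Ideal.mul_mem_left _ _ h2)
    exact key

end

end Vale.Agent.P202.CharP.Gen2
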