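import Vale.Agent.P202.CharP.Gen2.DefsG
import Vale.Agent.P202.CharP.MonBasic
import Vale.Agent.P202.CharP.WinLen

/-!
P202-G3, task M1: basic properties of the box families.
-/

set_option linter.all false

namespace Vale.Agent.P202.CharP.Gen2

open Submodule TensorProduct Gen

variable {κ : Type*} [Field κ] {r : ℕ}

namespace BoxBasic

/-- level `b`, restricted to the box. -/
def SBB (a : Fin r → ℤ) (b B : ℤ) : Set (Finset (Fin r) × Gx r) :=
  {x | x ∈ SG a ∨ (x ∈ SF r ∧ b ≤ x.2.2 ∧ ∀ i, x.2.1 i ≤ B + x.2.2)}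

theorem SWB_eq (a : Fin r → ℤ) (Q : ℕ) (B : ℤ) (k : ℕ) :
    SWB a Q B k = SBB a ((1 - (k : ℤ)) * Q) B := rfl

theorem up_SBB (a : Fin r → ℤ) (b B : ℤ) : Up (SBB a b B) := by
  rintro I g L (h | h)
  · exact Or.inl (up_SG a I g L h)
  · refine Or.inr ⟨up_SF I g L h.1, ?_, fun i => ?_⟩
    · have h1 : b ≤ g.2 := h.2.1
      change b ≤ g.2 + 1
      omega
    · have h1 := mb_ex_fst_le L i
      have h2 : g.1 i ≤ B + g.2 := h.2.2 i
      change g.1 i + (ex L).1 i ≤ B + (g.2 + 1)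
      omega

theorem SF_ins {I : Finset (Fin r)} {g : Gx r} (i : Fin r) (h : (I, g) ∈ SF r) :
    (insert i I, g) ∈ SF r := fun k hk => h k (fun h' => hk (Finset.mem_insert_of_mem h'))

theorem SG_ins {a : Fin r → ℤ} {I : Finset (Fin r)} {g : Gx r} (i : Fin r) (h : (I, g) ∈ SG a) :
    (insert i I, g) ∈ SG a := by
  obtain ⟨k, hk, hk'⟩ := h.2
  exact ⟨SF_ins i h.1, k, Finset.mem_insert_of_mem hk, hk'⟩

theorem mem_MF {E : Set (Finset (Fin r) × Gx r)} (hE : Up E) {p : ℤ} {f : Lam κ r} :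
    f ∈ MF κ E p ↔ ∀ I g, cf (f I) g ≠ 0 → (I, g) ∈ E ∧ (I.card : ℤ) = p :=
  mem_Mon (up_grd hE p) f

theorem MF_mono {E E' : Set (Finset (Fin r) × Gx r)} (hE : Up E) (hE' : Up E') (h : E ⊆ E')
    (p : ℤ) : MF κ E p ≤ MF κ E' p := by
  intro f hf
  rw [mem_MF hE] at hf
  rw [mem_MF hE']
  exact fun I g hg => ⟨h (hf I g hg).1, (hf I g hg).2⟩

/-- multiplication by a variable raises the level -/
theorem X_MF {a : Fin r → ℤ} {b B p : ℤ} (l : Fin (r + 1)) {f : Lam κ r}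
    (hf : f ∈ MF κ (SBB a b B) p) :
    (MvPolynomial.X l : PP κ r) • f ∈ MF κ (SBB a (b + 1) B) p := by
  rw [mem_MF (up_SBB a b B)] at hf
  rw [mem_MF (up_SBB a (b + 1) B)]
  intro I g hg
  rw [Pi.smul_apply] at hg
  obtain ⟨L, hL⟩ := WinAux.cf_X_smul l (f I) g hg
  obtain ⟨h1, h2⟩ := hf I _ hL
  refine ⟨?_, h2⟩
  rcases h1 with h1 | h1
  · have := up_SG a I _ L h1
    rw [sub_add_cancel] at this
    exact Or.inl this
  · have h3 := up_SF I _ L h1.1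
    rw [sub_add_cancel] at h3
    refine Or.inr ⟨h3, ?_, fun i => ?_⟩
    · have h4 : b ≤ g.2 - 1 := h1.2.1
      change b + 1 ≤ g.2
      omega
    · have h4 : g.1 i - (ex L).1 i ≤ B + (g.2 - 1) := h1.2.2 i
      have h5 := mb_ex_fst_le L i
      change g.1 i ≤ B + g.2
      omega

theorem mX_MF {a : Fin r → ℤ} {b B p : ℤ} :
    mX κ r • MF κ (SBB a b B) p ≤ MF κ (SBB a (b + 1) B) p := by
  rw [Submodule.smul_le]
  intro c hc f hf
  unfold mX at hc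
  induction hc using Submodule.span_induction with
  | mem x h =>
    obtain ⟨l, rfl⟩ := h
    exact X_MF l hf
  | zero => rw [zero_smul]; exact Submodule.zero_mem _
  | add x y _ _ hx hy => rw [add_smul]; exact Submodule.add_mem _ hx hy
  | smul c x _ hx => rw [smul_eq_mul, mul_smul]; exact Submodule.smul_mem _ _ hx

theorem mX_pow_MF {a : Fin r → ℤ} {b B p : ℤ} (k : ℕ) :
    (mX κ r) ^ k • MF κ (SBB a b B) p ≤ MF κ (SBB a (b + k) B) p := by
  induction k generalizing b with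
  | zero => simp
  | succ k ih =>
    rw [pow_succ, Submodule.mul_smul]
    refine (smul_mono_right _ mX_MF).trans (ih.trans ?_)
    rw [show b + 1 + (k : ℤ) = b + ((k + 1 : ℕ) : ℤ) by push_cast; ring]

end BoxBasic

open BoxBasic

/-- TASK G3-M1: basic properties of the box families. -/
theorem up_SWB (a : Fin r → ℤ) (Q : ℕ) (B : ℤ) (k : ℕ) : Up (SWB a Q B k) := up_SBB _ _ _

/-- TASK G3-M1. -/
theorem cstab_SWB (a : Fin r → ℤ) (Q : ℕ) (B : ℤ) (k : ℕ) :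
    CStab (dC κ r) (MF κ (SWB a Q B k)) := by
  refine cstab_MF (up_SWB a Q B k) fun I g i h hi => ?_
  rcases h with h | h
  · exact Or.inl (SG_ins i h)
  · exact Or.inr ⟨SF_ins i h.1, h.2⟩

/-- TASK G3-M1. -/
theorem SWB_mono (a : Fin r → ℤ) (Q : ℕ) (B : ℤ) (k : ℕ) (p : ℤ) :
    MF κ (SWB a Q B k) p ≤ MF κ (SWB a Q B (k + 1)) p := by
  refine MF_mono (up_SWB a Q B k) (up_SWB a Q B (k + 1)) ?_ p
  rintro x (h | h)
  · exact Or.inl h
  · refine Or.inr ⟨h.1, ?_, h.2.2⟩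
    have h1 := h.2.1
    have h2 : (0 : ℤ) ≤ Q := Int.natCast_nonneg Q
    push_cast
    have h3 : (1 - ((k : ℤ) + 1)) * Q = (1 - (k : ℤ)) * Q - Q := by ring
    rw [h3]
    omega

/-- TASK G3-M1. -/
theorem SG_le_SWB (a : Fin r → ℤ) (Q : ℕ) (B : ℤ) (k : ℕ) (p : ℤ) :
    MF κ (SG a) p ≤ MF κ (SWB a Q B k) p :=
  MF_mono (up_SG a) (up_SWB a Q B k) (fun _ h => Or.inl h) p

/-- TASK G3-M1. -/
theorem SWB_le_SW (a : Fin r → ℤ) (Q : ℕ) (B : ℤ) (k : ℕ) (p : ℤ) :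
    MF κ (SWB a Q B k) p ≤ MF κ (SW a Q k) p := by
  refine MF_mono (up_SWB a Q B k) (up_SW a Q k) ?_ p
  rintro x (h | h)
  · exact Or.inl h
  · exact Or.inr ⟨h.1, h.2.1⟩

/-- TASK G3-M1. -/
theorem MF_out (E : Set (Finset (Fin r) × Gx r)) (p : ℤ) (hp : p < 0 ∨ ((r + 1 : ℕ) : ℤ) ≤ p) :
    MF κ E p = ⊥ := by
  rw [eq_bot_iff]
  intro f hf
  rw [Submodule.mem_bot]
  funext I
  refine mb_lau_ext fun g => ?_
  rw [Pi.zero_apply, cf_zero]
  by_contra hne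
  have h1 := hf 1 I g (by rwa [one_smul])
  have h2 : (I.card : ℤ) = p := h1.2
  have h3 : I.card ≤ r := by
    have := Finset.card_le_univ I
    rwa [Fintype.card_fin] at this
  omega

/-- TASK G3-M1. -/
theorem push_SWB (a : Fin r → ℤ) (Q : ℕ) (B : ℤ) (k : ℕ) (p : ℤ) :
    (mX κ r) ^ Q • MF κ (SWB a Q B (k + 1)) p ≤ MF κ (SWB a Q B k) p := by
  have h := mX_pow_MF (κ := κ) (a := a) (b := (1 - ((k + 1 : ℕ) : ℤ)) * Q) (B := B) (p := p) Q
  rw [show (1 - ((k + 1 : ℕ) : ℤ)) * Q + Q = (1 - (k : ℤ)) * Q by push_cast; ring] at h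
  exact h

end Vale.Agent.P202.CharP.Gen2
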