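import Vale.Agent.P202.CharP.Gen2.DefsG
import Vale.Agent.P202.CharP.Windows

/-!
P202-G3, task M4: the Euler characteristic of the windows of the box model, by a direct count.
-/

namespace Vale.Agent.P202.CharP.Gen2

open Submodule TensorProduct Gen WinAux

variable {κ : Type*} [Field κ] {r : ℕ}

namespace BoxEuler

/-- level `b` of the box -/
def SBB (a : Fin r → ℤ) (b B : ℤ) : Set (Finset (Fin r) × Gx r) :=
  {x | x ∈ SG a ∨ (x ∈ SF r ∧ b ≤ x.2.2 ∧ ∀ i, x.2.1 i ≤ B + x.2.2)}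

theorem SWB_eq (a : Fin r → ℤ) (Q : ℕ) (B : ℤ) (k : ℕ) :
    SWB a Q B k = SBB a ((1 - (k : ℤ)) * Q) B := rfl

theorem up_SBB (a : Fin r → ℤ) (b B : ℤ) : Up (SBB a b B) := by
  rintro I g L (h | h)
  · exact Or.inl (up_SG a I g L h)
  · refine Or.inr ⟨up_SF I g L h.1, ?_, fun i => ?_⟩
    · have : b ≤ g.2 := h.2.1
      change b ≤ g.2 + 1
      omega
    · have h1 : g.1 i ≤ B + g.2 := h.2.2 i
      have h2 := mb_ex_fst_le L i
      change g.1 i + (ex L).1 i ≤ B + (g.2 + 1)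
      omega

theorem SBB_anti {a : Fin r → ℤ} {b b' B : ℤ} (h : b ≤ b') : SBB a b' B ⊆ SBB a b B := by
  rintro x (h1 | h1)
  · exact Or.inl h1
  · exact Or.inr ⟨h1.1, h.trans h1.2.1, h1.2.2⟩

/-- multiplication by a variable raises the level -/
theorem X_MF {a : Fin r → ℤ} {b B p : ℤ} (l : Fin (r + 1)) {f : Lam κ r}
    (hf : f ∈ MF κ (SBB a b B) p) :
    (MvPolynomial.X l : PP κ r) • f ∈ MF κ (SBB a (b + 1) B) p := by
  rw [mem_MF (up_SBB a b B)] at hf
  rw [mem_MF (up_SBB a (b + 1) B)]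
  intro I g hg
  rw [Pi.smul_apply] at hg
  obtain ⟨L, hL⟩ := cf_X_smul l (f I) g hg
  obtain ⟨h1, h2⟩ := hf I _ hL
  refine ⟨?_, h2⟩
  rcases h1 with h1 | h1
  · have := up_SG a I _ L h1
    rw [sub_add_cancel] at this
    exact Or.inl this
  · have h3 := up_SF I _ L h1.1
    rw [sub_add_cancel] at h3
    refine Or.inr ⟨h3, ?_, fun i => ?_⟩
    · have h4 : b ≤ g.2 - 1 := h1.2.1
      change b + 1 ≤ g.2
      omega
    · have h4 : g.1 i - (ex L).1 i ≤ B + (g.2 - 1) := h1.2.2 i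
      have h5 := mb_ex_fst_le L i
      change g.1 i ≤ B + g.2
      omega

theorem mX_MF {a : Fin r → ℤ} {b B p : ℤ} :
    mX κ r • MF κ (SBB a b B) p ≤ MF κ (SBB a (b + 1) B) p := by
  rw [Submodule.smul_le]
  intro c hc f hf
  unfold mX at hc
  induction hc using Submodule.span_induction with
  | mem x h =>
    obtain ⟨l, rfl⟩ := h
    exact X_MF l hf
  | zero => rw [zero_smul]; exact Submodule.zero_mem _
  | add x y _ _ hx hy => rw [add_smul]; exact Submodule.add_mem _ hx hy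
  | smul c x _ hx => rw [smul_eq_mul, mul_smul]; exact Submodule.smul_mem _ _ hx

theorem mX_pow_MF {a : Fin r → ℤ} {b B p : ℤ} (k : ℕ) :
    (mX κ r) ^ k • MF κ (SBB a b B) p ≤ MF κ (SBB a (b + k) B) p := by
  induction k generalizing b with
  | zero => simp
  | succ k ih =>
    rw [pow_succ, Submodule.mul_smul]
    refine (smul_mono_right _ mX_MF).trans (ih.trans ?_)
    rw [show b + 1 + (k : ℤ) = b + ((k + 1 : ℕ) : ℤ) by push_cast; ring]

/-- relative length of two monomial families -/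
theorem rl_MF {E E' : Set (Finset (Fin r) × Gx r)} (hE : Up E) (hE' : Up E')
    {p : ℤ} (n : ℕ) (hn : (mX κ r) ^ n • MF κ E' p ≤ MF κ E p) {ι : Type*} [Fintype ι]
    (ix : ι → Finset (Fin r) × Gx r) (hinj : Function.Injective ix)
    (hix : ∀ x, (∃ v, ix v = x) ↔ x ∈ E' ∧ (x.1.card : ℤ) = p ∧ x ∉ E) :
    rl (MF κ E p) (MF κ E' p) = (Fintype.card ι : ℕ∞) := by
  classical
  set Y := MF κ E' p with hY
  set X := MF κ E p with hX
  have hnil : ∀ c ∈ (mX κ r) ^ n, ∀ x : (↥Y ⧸ X.submoduleOf Y), c • x = 0 := by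
    intro c hc x
    obtain ⟨x, rfl⟩ := Submodule.Quotient.mk_surjective _ x
    rw [← Submodule.Quotient.mk_smul, Submodule.Quotient.mk_eq_zero]
    exact hn (Submodule.smul_mem_smul hc x.2)
  let f₀ : Lam κ r →ₗ[κ] (ι → κ) :=
    { toFun := fun f v => cf (f (ix v).1) (ix v).2
      map_add' := fun f f' => by ext v; exact cf_add _ _ _
      map_smul' := fun c f => by ext v; exact cf_smul _ _ _ }
  let f : ↥Y →ₗ[κ] (ι → κ) := f₀.comp (Y.subtype.restrictScalars κ)
  have hf : Function.Surjective f := by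
    intro c
    have hstd : ∀ v, (Pi.single (ix v).1 (mono (ix v).2 (c v)) : Lam κ r) ∈ Y := by
      intro v
      rw [hY, mem_MF hE']
      intro I g hg
      rw [Pi.single_apply] at hg
      by_cases hI : I = (ix v).1
      · rw [if_pos hI, cf_mono] at hg
        have hg' : (ix v).2 = g := by
          by_contra h
          rw [if_neg h] at hg
          exact hg rfl
        have h1 := (hix (ix v)).1 ⟨v, rfl⟩
        rw [hI, ← hg']
        exact ⟨h1.1, h1.2.1⟩
      · rw [if_neg hI, cf_zero] at hg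
        exact absurd rfl hg
    refine ⟨⟨∑ v, Pi.single (ix v).1 (mono (ix v).2 (c v)),
      Submodule.sum_mem _ fun v _ => hstd v⟩, ?_⟩
    have h1 : ∀ v, f₀ (Pi.single (ix v).1 (mono (ix v).2 (c v))) = Pi.single v (c v) := by
      intro v
      ext w
      change cf ((Pi.single (ix v).1 (mono (ix v).2 (c v)) : Lam κ r) (ix w).1) (ix w).2 = _
      rw [Pi.single_apply, Pi.single_apply]
      by_cases hvw : w = v
      · subst hvw
        rw [if_pos rfl, if_pos rfl, cf_mono, if_pos rfl]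
      · rw [if_neg hvw]
        by_cases hI : (ix w).1 = (ix v).1
        · rw [if_pos hI, cf_mono, if_neg]
          intro h
          exact hvw (hinj (Prod.ext hI h.symm))
        · rw [if_neg hI, cf_zero]
    change f₀ (∑ v, Pi.single (ix v).1 (mono (ix v).2 (c v))) = c
    rw [map_sum, Finset.sum_congr rfl fun v _ => h1 v]
    ext w
    rw [Finset.sum_apply, Finset.sum_eq_single w]
    · rw [Pi.single_eq_same]
    · intro v _ hv
      exact Pi.single_eq_of_ne hv.symm _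
    · intro hw
      exact absurd (Finset.mem_univ _) hw
  have hk : LinearMap.ker f = (X.submoduleOf Y).restrictScalars κ := by
    ext z
    rw [LinearMap.mem_ker]
    have hz : z.1 ∈ MF κ E' p := z.2
    rw [mem_MF hE'] at hz
    constructor
    · intro h0
      change z.1 ∈ MF κ E p
      rw [mem_MF hE]
      intro I g hg
      obtain ⟨h1, h2⟩ := hz I g hg
      refine ⟨?_, h2⟩
      by_contra hc
      obtain ⟨v, hv⟩ := (hix (I, g)).2 ⟨h1, h2, hc⟩
      have h3 : cf (z.1 (ix v).1) (ix v).2 = 0 := congrFun h0 v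
      rw [hv] at h3
      exact hg h3
    · intro h0
      have h0' : z.1 ∈ MF κ E p := h0
      rw [mem_MF hE] at h0'
      ext v
      change cf (z.1 (ix v).1) (ix v).2 = 0
      by_contra hne
      exact ((hix (ix v)).1 ⟨v, rfl⟩).2.2 (h0' _ _ hne).1
  have e : (↥Y ⧸ X.submoduleOf Y) ≃ₗ[κ] (ι → κ) :=
    (Submodule.quotEquivOfEq _ _ hk.symm).trans (f.quotKerEquivOfSurjective hf)
  rw [rl, length_eq_of_nilpotent n _ hnil, e.length_eq, Module.length_eq_finrank,
    Module.finrank_fintype_fun_eq_card]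

/-- the monomials of a window of the box, of degree `p` -/
noncomputable def TB (a : Fin r → ℤ) (b B : ℤ) (Q p : ℕ) :
    Finset (Σ _ : ℕ, Σ _ : Finset (Fin r), (Fin r → ℤ)) :=
  (Finset.range Q).sigma fun u => (Finset.univ.filter fun I : Finset (Fin r) => I.card = p).sigma
    fun I => Fintype.piFinset fun i =>
      if i ∈ I then Finset.Ioc (a i + (b + u)) (B + (b + u)) else Finset.Icc 0 (B + (b + u))

theorem mem_TB {a : Fin r → ℤ} {b B : ℤ} {Q p : ℕ}
    (x : Σ _ : ℕ, Σ _ : Finset (Fin r), (Fin r → ℤ)) :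
    x ∈ TB a b B Q p ↔ x.1 < Q ∧ x.2.1.card = p ∧
      ∀ i, x.2.2 i ≤ B + (b + x.1) ∧ (i ∈ x.2.1 → a i + (b + x.1) < x.2.2 i) ∧
        (i ∉ x.2.1 → 0 ≤ x.2.2 i) := by
  unfold TB
  rw [Finset.mem_sigma, Finset.mem_sigma, Finset.mem_range, Finset.mem_filter,
    Fintype.mem_piFinset]
  simp only [Finset.mem_univ, true_and]
  refine and_congr_right fun _ => and_congr_right fun _ => forall_congr' fun i => ?_
  by_cases hi : i ∈ x.2.1
  · rw [if_pos hi, Finset.mem_Ioc]
    tauto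
  · rw [if_neg hi, Finset.mem_Icc]
    tauto

theorem card_TB (a : Fin r → ℤ) (b B : ℤ) (Q p : ℕ) (hb : 0 ≤ B + b) (ha : ∀ i, a i ≤ B) :
    ((TB a b B Q p).card : ℤ) = ∑ u ∈ Finset.range Q,
      ∑ I ∈ Finset.univ.filter fun I : Finset (Fin r) => I.card = p,
        ∏ i, (if i ∈ I then (B - a i) else (B + (b + u) + 1)) := by
  rw [TB, Finset.card_sigma]
  push_cast
  refine Finset.sum_congr rfl fun u _ => ?_
  rw [Finset.card_sigma]
  push_cast
  refine Finset.sum_congr rfl fun I _ => ?_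
  rw [Fintype.card_piFinset]
  push_cast
  refine Finset.prod_congr rfl fun i _ => ?_
  have hai := ha i
  split_ifs
  · rw [Int.card_Ioc]
    omega
  · rw [Int.card_Icc]
    omega

/-- the index of a monomial -/
def ixB (a : Fin r → ℤ) (b B : ℤ) (Q p : ℕ) (x : ↥(TB a b B Q p)) : Finset (Fin r) × Gx r :=
  (x.1.2.1, (x.1.2.2, b + x.1.1))

theorem ixB_inj (a : Fin r → ℤ) (b B : ℤ) (Q p : ℕ) : Function.Injective (ixB a b B Q p) := by
  rintro ⟨⟨u, I, s⟩, hx⟩ ⟨⟨u', I', s'⟩, hx'⟩ h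
  unfold ixB at h
  simp only [Prod.mk.injEq] at h
  obtain ⟨h1, h2, h3⟩ := h
  have h4 : u = u' := by omega
  subst h1 h2 h4
  rfl

theorem ixB_range (a : Fin r → ℤ) (b B : ℤ) (Q p : ℕ) (x : Finset (Fin r) × Gx r) :
    (∃ v, ixB a b B Q p v = x) ↔ x ∈ SBB a b B ∧ (x.1.card : ℤ) = (p : ℤ) ∧
      x ∉ SBB a (b + Q) B := by
  constructor
  · rintro ⟨⟨⟨u, I, s⟩, hx⟩, rfl⟩
    rw [mem_TB] at hx
    obtain ⟨h1, h2, h3⟩ := hx
    simp only at h1 h2 h3
    have hSF : (I, ((s, b + (u : ℤ)) : Gx r)) ∈ SF r := fun i hi => (h3 i).2.2 hi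
    refine ⟨Or.inr ⟨hSF, ?_, fun i => (h3 i).1⟩, ?_, ?_⟩
    · change b ≤ b + (u : ℤ)
      omega
    · exact_mod_cast h2
    · rintro (h | h)
      · obtain ⟨i, hi, hi'⟩ := h.2
        have h4 := (h3 i).2.1 hi
        change s i ≤ a i + (b + u) at hi'
        omega
      · have h4 : b + Q ≤ b + (u : ℤ) := h.2.1
        omega
  · obtain ⟨I, s, j⟩ := x
    rintro ⟨h1, h2, h3⟩
    have hG : (I, ((s, j) : Gx r)) ∉ SG a := fun hG => h3 (Or.inl hG)
    rcases h1 with h1 | h1
    · exact absurd h1 hG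
    · obtain ⟨h4, h5, h6⟩ := h1
      change b ≤ j at h5
      have h7 : j < b + Q := by
        by_contra hc
        exact h3 (Or.inr ⟨h4, not_lt.1 hc, h6⟩)
      obtain ⟨u, hu⟩ : ∃ u : ℕ, j = b + u := ⟨(j - b).toNat, by omega⟩
      subst hu
      refine ⟨⟨⟨u, I, s⟩, ?_⟩, rfl⟩
      rw [mem_TB]
      refine ⟨by change u < Q; omega, by exact_mod_cast h2, fun i => ⟨h6 i, fun hi => ?_,
        fun hi => h4 i hi⟩⟩
      by_contra hc
      exact hG ⟨h4, i, hi, not_lt.1 hc⟩

theorem rl_SBB (a : Fin r → ℤ) (b B : ℤ) (Q p : ℕ) :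
    rl (MF κ (SBB a (b + Q) B) p) (MF κ (SBB a b B) p) = ((TB a b B Q p).card : ℕ∞) := by
  rw [rl_MF (up_SBB a _ B) (up_SBB a b B) Q (mX_pow_MF Q) (ixB a b B Q p) (ixB_inj a b B Q p)
    (ixB_range a b B Q p), Fintype.card_coe]

theorem sum_TB (a : Fin r → ℤ) (b B : ℤ) (Q : ℕ) (hb : 0 ≤ B + b) (ha : ∀ i, a i ≤ B) :
    ∑ p ∈ Finset.range (r + 1), (-1 : ℤ) ^ p * ((TB a b B Q p).card : ℤ) =
      ∑ u ∈ Finset.range Q, ∏ i, (a i + (b + u) + 1) := by
  simp only [card_TB a b B Q _ hb ha, Finset.mul_sum]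
  rw [Finset.sum_comm]
  refine Finset.sum_congr rfl fun u _ => ?_
  set G : Finset (Fin r) → ℤ := fun I => (-1 : ℤ) ^ I.card *
    ∏ i, (if i ∈ I then (B - a i) else (B + (b + u) + 1)) with hG
  have h1 : ∑ p ∈ Finset.range (r + 1), ∑ I ∈ Finset.univ.filter
      (fun I : Finset (Fin r) => I.card = p), (-1 : ℤ) ^ p *
        ∏ i, (if i ∈ I then (B - a i) else (B + (b + u) + 1)) = ∑ I, G I := by
    rw [← Finset.sum_fiberwise_of_maps_to (s := (Finset.univ : Finset (Finset (Fin r))))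
      (t := Finset.range (r + 1)) (g := fun I => I.card) (fun I _ => by
        rw [Finset.mem_range]
        have := Finset.card_le_univ I
        rw [Fintype.card_fin] at this
        omega) G]
    refine Finset.sum_congr rfl fun p _ => Finset.sum_congr rfl fun I hI => ?_
    change _ = (-1 : ℤ) ^ I.card * _
    rw [(Finset.mem_filter.1 hI).2]
  rw [h1]
  have h2 : ∀ i : Fin r, a i + (b + u) + 1 = -(B - a i) + (B + (b + u) + 1) := fun i => by ring
  simp only [h2]
  rw [Finset.prod_add, Finset.powerset_univ]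
  refine Finset.sum_congr rfl fun I _ => ?_
  rw [hG]
  simp only
  rw [Finset.prod_ite, Finset.prod_neg, ← mul_assoc]
  have e1 : (Finset.univ.filter fun i : Fin r => i ∈ I) = I := by ext i; simp
  have e2 : (Finset.univ.filter fun i : Fin r => i ∉ I) = Finset.univ \ I := by ext i; simp
  rw [e1, e2]

theorem prod_sign (m : Fin (r + 1)) {Q k : ℕ} (hk : k < r + 1) {u : ℕ} (hu : u < Q) :
    ∏ i : Fin r, (am m Q i + (-((k : ℤ) * Q) + u) + 1) =
      ((pdeg m k).negOnePow : ℤ) * ((∏ i : Fin r, (am m Q i - (k : ℤ) * Q + u + 1).natAbs : ℕ) : ℤ) := by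
  have h1 : ∀ i : Fin r, am m Q i + (-((k : ℤ) * Q) + u) + 1 =
      (if i ∈ slot (am m Q) (-((k : ℤ) * Q) + u) then -1 else 1) *
        ((am m Q i - (k : ℤ) * Q + u + 1).natAbs : ℤ) := by
    intro i
    have e : am m Q i - (k : ℤ) * Q + u + 1 = am m Q i + (-((k : ℤ) * Q) + u) + 1 := by ring
    rw [e]
    simp only [slot, Finset.mem_filter, Finset.mem_univ, true_and]
    split_ifs with h
    · omega
    · omega
  rw [Finset.prod_congr rfl fun i _ => h1 i, Finset.prod_mul_distrib, Finset.prod_ite_mem,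
    Finset.univ_inter, Finset.prod_const]
  push_cast
  congr 1
  have h2 := slot_card m (Q := Q) (j := k) (by omega) (t := -((k : ℤ) * Q) + u) (by omega)
    (by omega)
  rw [← h2, Int.negOnePow_def]
  simp

end BoxEuler

open BoxEuler

/-- TASK G3-M4: the Euler characteristic of the windows of the box model. -/
theorem euler_SWB (m : Fin (r + 1)) (Q : ℕ) (hQ : 1 ≤ Q) (B : ℤ) (k : ℕ)
    (hB : (k : ℤ) * Q ≤ B) (hB' : (r : ℤ) * Q ≤ B) (hk' : k < r + 1) :
    ∑ p ∈ Finset.range (r + 1), (-1 : ℤ) ^ p *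
      ((rl (MF κ (SWB (am m Q) Q B k) p) (MF κ (SWB (am m Q) Q B (k + 1)) p)).toNat : ℤ) =
    ((pdeg m k).negOnePow : ℤ) * (wc m Q k : ℤ) := by
  have h1 : ∀ p : ℕ, (rl (MF κ (SWB (am m Q) Q B k) p)
      (MF κ (SWB (am m Q) Q B (k + 1)) p)).toNat = (TB (am m Q) (-((k : ℤ) * Q)) B Q p).card := by
    intro p
    have h := rl_SBB (κ := κ) (am m Q) (-((k : ℤ) * Q)) B Q p
    rw [← lev, ← lev_succ] at h
    rw [SWB_eq, SWB_eq, h]
    rw [lev_succ]
    rfl
  simp only [h1]
  rw [sum_TB]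
  · unfold wc
    rw [Nat.cast_sum, Finset.mul_sum]
    exact Finset.sum_congr rfl fun u hu => prod_sign m hk' (Finset.mem_range.1 hu)
  · omega
  · intro i
    refine le_trans ?_ hB'
    unfold am
    have h2 : ((m.succAbove i : ℕ) : ℤ) ≤ r := by
      have := (m.succAbove i).isLt
      omega
    exact mul_le_mul_of_nonneg_right h2 (by positivity)

end Vale.Agent.P202.CharP.Gen2
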