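import Vale.Agent.P202.CharP.Gen2.DefsG
import Vale.Agent.P202.CharP.Windows

/-!
P202-G3, tasks M3 and M5: exactness of the windows of the box model.
-/

namespace Vale.Agent.P202.CharP.Gen2

open Submodule TensorProduct Gen

variable {κ : Type*} [Field κ] {r : ℕ}

namespace BoxExAux

open WinAux TogM

theorem up_SWB (a : Fin r → ℤ) (Q : ℕ) (B : ℤ) (k : ℕ) : Up (SWB a Q B k) := by
  rintro I g L (h | h)
  · exact Or.inl (up_SG a I g L h)
  · refine Or.inr ⟨up_SF I g L h.1, ?_, fun i => ?_⟩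
    · have : (1 - (k : ℤ)) * Q ≤ g.2 := h.2.1
      change (1 - (k : ℤ)) * Q ≤ g.2 + 1
      omega
    · have h1 : g.1 i ≤ B + g.2 := h.2.2 i
      have h2 := mb_ex_fst_le L i
      change g.1 i + (ex L).1 i ≤ B + (g.2 + 1)
      omega

theorem tog_SWB (a : Fin r → ℤ) (Q : ℕ) (B : ℤ) (k : ℕ) : Tog a (SWB a Q B k) := by
  intro i I g hi h h0 h1
  rcases h with h | h
  · exact Or.inl (tog_SG a i I g hi h h0 h1)
  · refine Or.inr ⟨fun k hk => ?_, h.2⟩
    by_cases hki : k = i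
    · subst hki; exact h0
    · exact h.1 k (fun h' => by
        rcases Finset.mem_insert.1 h' with h2 | h2
        · exact hki h2
        · exact hk h2)

/-- the homotopy argument -/
theorem ex_gen {a : Fin r → ℤ} {E E' : Set (Finset (Fin r) × Gx r)} (hE : Up E) (hE' : Up E')
    (hT : Tog a E) (hT' : Tog a E') {p : ℤ}
    (hn : ∀ I g, (I, g) ∈ E → (I.card : ℤ) = p → (∀ i, g.1 i < 0 ∨ g.1 i ≤ a i + g.2) →
      (I, g) ∈ E') : Ex (dC κ r) (MF κ E) (MF κ E') p := by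
  obtain ⟨h, π, H⟩ := exists_hom (κ := κ) a
  rintro z ⟨hz, hdz⟩
  replace hdz : dC κ r z ∈ MF κ E' (p + 1) := hdz
  replace hz : z ∈ MF κ E p := hz
  rw [H.eq z]
  refine Submodule.add_mem _ (Submodule.add_mem _ (Submodule.mem_sup_left ?_)
    (Submodule.mem_sup_right ?_)) (Submodule.mem_sup_right ?_)
  · exact Submodule.mem_map_of_mem (H.mem hE hT (by rwa [sub_add_cancel]))
  · exact H.mem hE' hT' hdz
  · rw [mem_MF hE']
    intro I g hg
    obtain ⟨h1, h2⟩ := H.ps z I g hg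
    rw [mem_MF hE] at hz
    obtain ⟨h3, h4⟩ := hz I g h1
    exact ⟨hn I g h3 h4 h2, h4⟩

end BoxExAux

open WinAux BoxExAux

/-- TASK G3-M3: exactness of the windows of the box model. -/
theorem ex_SWB (m : Fin (r + 1)) (Q : ℕ) (_hQ : 1 ≤ Q) (B : ℤ) (k : ℕ) (p : ℤ)
    (hp : p ≠ pos r m k) :
    Ex (dC κ r) (MF κ (SWB (am m Q) Q B (k + 1))) (MF κ (SWB (am m Q) Q B k)) p := by
  refine ex_gen (BoxExAux.up_SWB _ _ _ _) (BoxExAux.up_SWB _ _ _ _) (tog_SWB _ _ _ _)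
    (tog_SWB _ _ _ _) fun I g h3 h4 h2 => ?_
  by_contra hc
  have hG : (I, g) ∉ SG (am m Q) := fun h => hc (Or.inl h)
  rcases h3 with h3 | ⟨hF, hlev, hbox⟩
  · exact hG h3
  have hl : g.2 < -((k : ℤ) * Q) + Q := by
    by_contra hl
    refine hc (Or.inr ⟨hF, ?_, hbox⟩)
    change (1 - (k : ℤ)) * Q ≤ g.2
    rw [lev]
    omega
  have hlev' : -((k : ℤ) * Q) ≤ g.2 := by
    have h5 : (1 - ((k + 1 : ℕ) : ℤ)) * Q ≤ g.2 := hlev
    rwa [lev_succ] at h5
  have hS : (I, g) ∈ SB (am m Q) (-((k : ℤ) * Q)) := Or.inr ⟨hF, hlev'⟩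
  have hS' : (I, g) ∉ SB (am m Q) (-((k : ℤ) * Q) + Q) := by
    rintro (h5 | h5)
    · exact hG h5
    · have h6 : -((k : ℤ) * Q) + Q ≤ g.2 := h5.2
      omega
  obtain ⟨h5, h6, h7, _⟩ := nofree hS hS' h2
  have hI : I = slot (am m Q) g.2 := by
    ext i
    simp [slot, h7 i]
  apply hp
  unfold pos
  rw [← h4]
  split_ifs with hk
  · rw [hI]
    exact slot_card m (by omega) h5 h6
  · have : I = Finset.univ := by
      rw [hI]
      ext i
      simp only [slot, Finset.mem_filter, Finset.mem_univ, true_and, iff_true]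
      rw [slot_iff m h5 h6 i]
      have := (m.succAbove i).isLt
      omega
    rw [this, Finset.card_univ, Fintype.card_fin]

/-- TASK G3-M5: the box model computes the same cohomology. -/
theorem ex_SW_SWB (m : Fin (r + 1)) (Q : ℕ) (_hQ : 1 ≤ Q) (B : ℤ) (k : ℕ)
    (hB : (k : ℤ) * Q ≤ B) (hB' : (r : ℤ) * Q ≤ B) (p : ℤ) :
    Ex (dC κ r) (MF κ (SW (am m Q) Q k)) (MF κ (SWB (am m Q) Q B k)) p := by
  refine ex_gen (up_SB _ _) (BoxExAux.up_SWB _ _ _ _) (tog_SB _ _)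
    (tog_SWB _ _ _ _) fun I g h3 _ h2 => ?_
  rcases h3 with h3 | ⟨hF, hlev⟩
  · exact Or.inl h3
  refine Or.inr ⟨hF, hlev, fun i => ?_⟩
  have hlev' : (1 - (k : ℤ)) * Q ≤ g.2 := hlev
  rw [lev] at hlev'
  rcases h2 i with h5 | h5
  · change g.1 i ≤ B + g.2
    omega
  · change g.1 i ≤ B + g.2
    have h6 : am m Q i ≤ (r : ℤ) * Q := by
      unfold am
      have h7 : ((m.succAbove i : ℕ) : ℤ) ≤ r := by
        have := (m.succAbove i).isLt
        omega
      exact mul_le_mul_of_nonneg_right h7 (by positivity)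
    omega

end Vale.Agent.P202.CharP.Gen2
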