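import Vale.Agent.P202.CharP.Gen2.DefsG
import Vale.Agent.P202.CharP.MonBasic
import Vale.Agent.P202.CharP.WinLen

/-!
P202-G3-M2: the windows of the box model have finite length.
-/

namespace Vale.Agent.P202.CharP.Gen2

open Submodule TensorProduct Gen

variable {κ : Type*} [Field κ] {r : ℕ}

namespace BoxFin

theorem up_box (a : Fin r → ℤ) (Q : ℕ) (B : ℤ) (k : ℕ) : Up (SWB a Q B k) := by
  intro I g L h
  rcases h with h | ⟨h1, h2, h3⟩
  · exact Or.inl (up_SG a I g L h)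
  · refine Or.inr ⟨up_SF I g L h1, ?_, fun i => ?_⟩
    · change (1 - (k : ℤ)) * Q ≤ g.2 + (ex L).2
      have := mb_ex_snd L
      change (1 - (k : ℤ)) * Q ≤ g.2 at h2
      omega
    · change g.1 i + (ex L).1 i ≤ B + (g.2 + (ex L).2)
      have e1 := mb_ex_snd L
      have e2 := mb_ex_fst_le L i
      have := h3 i
      change g.1 i ≤ B + g.2 at this
      omega

/-- the difference of two consecutive levels is finite. -/
theorem finite_diff (a : Fin r → ℤ) (Q : ℕ) (B : ℤ) (k : ℕ) (p : ℤ) :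
    (grd (SWB a Q B (k + 1)) p \ grd (SWB a Q B k) p).Finite := by
  classical
  set lo : Gx r := (fun i => min 0 (a i + (1 - ((k + 1 : ℕ) : ℤ)) * Q), (1 - ((k + 1 : ℕ) : ℤ)) * Q)
  set hi : Gx r := (fun _ => B + (1 - (k : ℤ)) * Q, (1 - (k : ℤ)) * Q)
  refine Set.Finite.subset (Set.Finite.prod (Set.finite_univ (α := Finset (Fin r)))
    (Set.finite_Icc lo hi)) ?_
  rintro ⟨I, g⟩ ⟨⟨h1, hp⟩, h2⟩
  have h2' : (I, g) ∉ SWB a Q B k := fun h => h2 ⟨h, hp⟩
  have hG : (I, g) ∉ SG a := fun h => h2' (Or.inl h)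
  rcases h1 with h1 | ⟨hF, hj, hB⟩
  · exact absurd h1 hG
  change ((1 : ℤ) - ((k + 1 : ℕ) : ℤ)) * Q ≤ g.2 at hj
  change ∀ i, g.1 i ≤ B + g.2 at hB
  have hj2 : g.2 < (1 - (k : ℤ)) * Q := by
    by_contra hc
    exact h2' (Or.inr ⟨hF, not_lt.1 hc, hB⟩)
  refine ⟨trivial, ⟨⟨fun i => ?_, hj⟩, ⟨fun i => ?_, hj2.le⟩⟩⟩
  · change min 0 (a i + (1 - ((k + 1 : ℕ) : ℤ)) * Q) ≤ g.1 i
    by_cases hi : i ∈ I
    · have : ¬ g.1 i ≤ a i + g.2 := fun h => hG ⟨hF, i, hi, h⟩
      refine (min_le_right _ _).trans ?_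
      omega
    · exact (min_le_left _ _).trans (hF i hi)
  · change g.1 i ≤ B + (1 - (k : ℤ)) * Q
    have := hB i
    omega

/-- a quotient of monomial submodules with finitely many monomials has finite length. -/
theorem rl_ne_top_of_finite {E E' : Set (Finset (Fin r) × Gx r)} (hE : Up E) (hE' : Up E')
    (hfin : (E' \ E).Finite) : rl (Mon κ E) (Mon κ E') ≠ ⊤ := by
  classical
  have : Fintype ↥(E' \ E) := hfin.fintype
  let N := Mon κ E'
  let K := Mon κ E
  let φ : ↥N →ₗ[κ] (↥(E' \ E) → κ) :=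
    { toFun := fun f x => cf ((f : Lam κ r) x.1.1) x.1.2
      map_add' := fun f f' => by
        funext x
        exact cf_add _ _ _
      map_smul' := fun c f => by
        funext x
        exact WinAux.cf_smul c _ _ }
  have hφ : LinearMap.ker φ ≤ (K.submoduleOf N).restrictScalars κ := by
    intro f hf
    change (f : Lam κ r) ∈ K
    rw [mem_Mon hE]
    intro I g hg
    by_contra hc
    have hN : (I, g) ∈ E' := (mem_Mon hE' _).1 f.2 I g hg
    have := congrFun (LinearMap.mem_ker.1 hf) ⟨(I, g), hN, hc⟩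
    exact hg this
  have h1 : Module.Finite κ (↥N ⧸ LinearMap.ker φ) :=
    Module.Finite.of_injective (φ.quotKerEquivRange.toLinearMap) φ.quotKerEquivRange.injective
  have h2 : Module.Finite κ (↥N ⧸ K.submoduleOf N) := by
    let ψ : ↥N ⧸ LinearMap.ker φ →ₗ[κ] (↥N ⧸ (K.submoduleOf N).restrictScalars κ) :=
      Submodule.factor hφ
    have hψ : Function.Surjective ψ := Submodule.factor_surjective hφ
    have : Module.Finite κ (↥N ⧸ (K.submoduleOf N).restrictScalars κ) :=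
      Module.Finite.of_surjective ψ hψ
    exact this
  have h3 : IsNoetherian κ (↥N ⧸ K.submoduleOf N) := inferInstance
  have h4 : IsArtinian κ (↥N ⧸ K.submoduleOf N) := inferInstance
  have h5 : IsNoetherian (PP κ r) (↥N ⧸ K.submoduleOf N) := isNoetherian_of_tower κ h3
  have h6 : IsArtinian (PP κ r) (↥N ⧸ K.submoduleOf N) := isArtinian_of_tower κ h4
  change Module.length (PP κ r) (↥N ⧸ K.submoduleOf N) ≠ ⊤
  rw [Module.length_ne_top_iff]
  exact isFiniteLength_iff_isNoetherian_isArtinian.2 ⟨h5, h6⟩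

end BoxFin

/-- TASK G3-M2: the windows of the box model are finite dimensional. -/
theorem rl_SWB (a : Fin r → ℤ) (Q : ℕ) (B : ℤ) (k : ℕ) (p : ℤ) :
    rl (MF κ (SWB a Q B k) p) (MF κ (SWB a Q B (k + 1)) p) ≠ ⊤ :=
  BoxFin.rl_ne_top_of_finite (up_grd (BoxFin.up_box a Q B k) p)
    (up_grd (BoxFin.up_box a Q B (k + 1)) p) (BoxFin.finite_diff a Q B k p)

end Vale.Agent.P202.CharP.Gen2
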