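import Vale.Agent.P202.CharP.Gen2.DefsC
import Vale.Agent.P202.CharP.Gen.LesG
import Vale.Agent.P202.CharP.Gen.TruncG
import Vale.Agent.P202.CharP.TotRows

/-!
P202-G3-C5: the truncated window, column by column.
-/

namespace Vale.Agent.P202.CharP.Gen2

open Submodule TensorProduct Gen

section Stupid

variable {P : Type*} [CommRing P] {V : Type*} [AddCommGroup V] [Module P V]

/-- stupid filtration: `Y` in degrees `≥ q`, `X` below. -/
def tcY (Y X : ℤ → Submodule P V) (q p : ℤ) : Submodule P V := if q ≤ p then Y p else X p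

theorem tcY_ge {Y X : ℤ → Submodule P V} {q p : ℤ} (h : q ≤ p) : tcY Y X q p = Y p := if_pos h

theorem tcY_lt {Y X : ℤ → Submodule P V} {q p : ℤ} (h : p < q) : tcY Y X q p = X p :=
  if_neg (by omega)

theorem tcY_le {Y X : ℤ → Submodule P V} (hXY : ∀ p, X p ≤ Y p) (q p : ℤ) :
    X p ≤ tcY Y X q p := by
  by_cases h : q ≤ p
  · rw [tcY_ge h]; exact hXY p
  · rw [tcY_lt (by omega)]

theorem tcY_anti {Y X : ℤ → Submodule P V} (hXY : ∀ p, X p ≤ Y p) (q p : ℤ) :
    tcY Y X (q + 1) p ≤ tcY Y X q p := by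
  by_cases h : q + 1 ≤ p
  · rw [tcY_ge h, tcY_ge (by omega)]
  · rw [tcY_lt (by omega)]; exact tcY_le hXY q p

theorem tcY_succ {Y X : ℤ → Submodule P V} {q p : ℤ} (h : p ≠ q) :
    tcY Y X (q + 1) p = tcY Y X q p := by
  by_cases h' : q ≤ p
  · rw [tcY_ge h', tcY_ge (by omega)]
  · rw [tcY_lt (by omega), tcY_lt (by omega)]

theorem tcY_cstab {d : V →ₗ[P] V} {Y X : ℤ → Submodule P V} (hX : CStab d X) (hY : CStab d Y)
    (hXY : ∀ p, X p ≤ Y p) (q : ℤ) : CStab d (tcY Y X q) := by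
  intro p x hx
  by_cases h : q ≤ p
  · rw [tcY_ge h] at hx
    rw [tcY_ge (by omega)]
    exact hY p x hx
  · rw [tcY_lt (by omega)] at hx
    exact tcY_le hXY q _ (hX p x hx)

end Stupid

variable {P : Type*} [CommRing P] {V : Type*} [AddCommGroup V] [Module P V]
  (S : Type*) [CommRing S] [Algebra P S] {ι : Type*} [Fintype ι]

/-- stability of the truncated family (no hypothesis on the base ring). -/
theorem tc_stab (deg : ι → ℤ) (Q : Matrix ι ι S)
    (hQ : IsCx deg Q) (j : ℤ) (d : V →ₗ[P] V)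
    (Y X : ℤ → Submodule P V) (hX : CStab d X) (hY : CStab d Y) :
    Stab (tot deg Q (d.baseChange S)) (TG S deg Q j Y X) := by
  intro δ f hf
  have hdY := bcf_cstab S d hY
  have hdX := bcf_cstab S d hX
  rw [mem_tg] at hf ⊢
  obtain ⟨h1, h2, h3⟩ := hf
  have e : tot deg Q (d.baseChange S) f = act Q (S ⊗[P] V) f +
      (fun b => ((deg b).negOnePow : ℤ) • (d.baseChange S) (f b)) := by
    ext a; rfl
  refine ⟨fun a => ?_, fun a ha => ?_, fun a ha => ?_⟩
  · rw [tot_eq]
    have e1 : deg a - (δ - 1) = deg a - δ + 1 := by ring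
    rw [e1]
    refine Submodule.add_mem _ ?_ (zsmul_mem (hdY _ _ (h1 a)) _)
    refine act_mem_of_deg S deg Q hQ f a _ fun b hb => ?_
    have := h1 b
    rw [hb] at this
    have e2 : deg a + 1 - δ = deg a - δ + 1 := by ring
    rwa [e2] at this
  · rw [tot_eq]
    have e1 : deg a - (δ - 1) = deg a - δ + 1 := by ring
    rw [e1]
    exact Submodule.add_mem _ (h3 a ha) (zsmul_mem (hdX _ _ (h2 a ha)) _)
  · rw [e, map_add, act_act S deg Q hQ, zero_add, act_sign S deg Q hQ]
    have e1 : deg a - (δ - 1) + 1 = deg a - δ + 1 + 1 := by ring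
    rw [e1]
    exact Submodule.neg_mem _ (zsmul_mem (hdX _ _ (h3 a ha)) _)

theorem tc_lift_le (deg : ι → ℤ) (Q : Matrix ι ι S)
    (hQ : IsCx deg Q) (j : ℤ)
    (Y X : ℤ → Submodule P V) (hXY : ∀ p, X p ≤ Y p) (δ : ℤ) :
    lift deg (bcf S X) δ ≤ TG S deg Q j Y X δ := by
  intro f hf
  rw [mem_lift] at hf
  rw [mem_tg]
  refine ⟨fun a => bcf_mono S hXY _ (hf a), fun a _ => hf a, fun a _ => ?_⟩
  refine act_mem_of_deg S deg Q hQ f a _ fun b hb => ?_
  have := hf b
  rw [hb] at this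
  have e2 : deg a + 1 - δ = deg a - δ + 1 := by ring
  rwa [e2] at this

theorem tc_tg_self (deg : ι → ℤ) (Q : Matrix ι ι S) (hQ : IsCx deg Q) (j : ℤ)
    (X : ℤ → Submodule P V) : TG S deg Q j X X = lift deg (bcf S X) := by
  funext δ
  exact le_antisymm inf_le_left (tc_lift_le S deg Q hQ j X X (fun _ => le_rfl) δ)

/-- the pieces of the truncated window. -/
noncomputable def tcU (deg : ι → ℤ) (Q : Matrix ι ι S) (j : ℤ) (Y X : ℤ → Submodule P V)
    (q : ℤ) : ℤ → Submodule S (ι → S ⊗[P] V) := TG S deg Q j (tcY Y X q) X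

theorem tcU_stab (deg : ι → ℤ) (Q : Matrix ι ι S)
    (hQ : IsCx deg Q) (j : ℤ) (d : V →ₗ[P] V)
    (Y X : ℤ → Submodule P V) (hX : CStab d X) (hY : CStab d Y) (hXY : ∀ p, X p ≤ Y p) (q : ℤ) :
    Stab (tot deg Q (d.baseChange S)) (tcU S deg Q j Y X q) :=
  tc_stab S deg Q hQ j d _ _ hX (tcY_cstab hX hY hXY q)

theorem tcU_anti (deg : ι → ℤ) (Q : Matrix ι ι S) (j : ℤ)
    (Y X : ℤ → Submodule P V) (hXY : ∀ p, X p ≤ Y p) (q δ : ℤ) :
    tcU S deg Q j Y X (q + 1) δ ≤ tcU S deg Q j Y X q δ := by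
  intro f hf
  rw [tcU, mem_tg] at hf ⊢
  exact ⟨fun a => bcf_mono S (tcY_anti hXY q) _ (hf.1 a), hf.2⟩

/-- an element of `U_q` whose components in the critical degree are in `X` is in `U_(q+1)`. -/
theorem tcU_succ_of (deg : ι → ℤ) (Q : Matrix ι ι S) (j : ℤ)
    (Y X : ℤ → Submodule P V) (q e : ℤ) (f : ι → S ⊗[P] V) (hf : f ∈ tcU S deg Q j Y X q e)
    (h : ∀ a, deg a = e + q → f a ∈ bcf S X q) : f ∈ tcU S deg Q j Y X (q + 1) e := by
  rw [tcU, mem_tg] at hf ⊢
  refine ⟨fun a => ?_, hf.2⟩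
  by_cases ha : deg a = e + q
  · have e1 : deg a - e = q := by omega
    rw [e1, bcf, tcY_lt (by omega)]
    exact h a ha
  · have := hf.1 a
    rw [bcf] at this ⊢
    rwa [tcY_succ (by omega)]

/-- conversely. -/
theorem tcU_succ_mem (deg : ι → ℤ) (Q : Matrix ι ι S) (j : ℤ)
    (Y X : ℤ → Submodule P V) (q e : ℤ) (f : ι → S ⊗[P] V)
    (hf : f ∈ tcU S deg Q j Y X (q + 1) e) (a : ι) (ha : deg a = e + q) : f a ∈ bcf S X q := by
  rw [tcU, mem_tg] at hf
  have := hf.1 a
  have e1 : deg a - e = q := by omega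
  rw [e1, bcf, tcY_lt (by omega)] at this
  exact this

/-- below the truncation nothing happens. -/
theorem tcU_low (deg : ι → ℤ) (Q : Matrix ι ι S) (j : ℤ)
    (Y X : ℤ → Submodule P V) (q e : ℤ) (he : e + q ≤ j) :
    tcU S deg Q j Y X q e ≤ tcU S deg Q j Y X (q + 1) e := by
  intro f hf
  refine tcU_succ_of S deg Q j Y X q e f hf fun a ha => ?_
  rw [tcU, mem_tg] at hf
  have := hf.2.1 a (by omega)
  have e1 : deg a - e = q := by omega
  rwa [e1] at this

/-- concentrated elements. -/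
theorem tcU_of_conc (deg : ι → ℤ) (Q : Matrix ι ι S) (hQ : IsCx deg Q) (j : ℤ)
    (Y X : ℤ → Submodule P V) (q e : ℤ) (he : j + 1 ≤ e + q) (g : ι → S ⊗[P] V)
    (hg : g ∈ lift deg (conc (bcf S Y q)) (e + q))
    (h : ∀ a, deg a = e + q - 1 → deg a ≤ j → act Q (S ⊗[P] V) g a ∈ bcf S X q) :
    g ∈ tcU S deg Q j Y X q e := by
  rw [TR.mem_lift_conc] at hg
  rw [tcU, mem_tg]
  refine ⟨fun a => ?_, fun a ha => ?_, fun a ha => ?_⟩
  · by_cases h1 : deg a = e + q
    · have e1 : deg a - e = q := by omega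
      rw [e1, bcf, tcY_ge le_rfl]
      exact (hg a).1 h1
    · rw [(hg a).2 h1]
      exact zero_mem _
  · rw [(hg a).2 (by omega)]
    exact zero_mem _
  · by_cases h1 : deg a = e + q - 1
    · have e1 : deg a - e + 1 = q := by omega
      rw [e1]
      exact h a h1 ha
    · refine act_mem_of_deg S deg Q hQ g a _ fun b hb => ?_
      rw [(hg b).2 (by omega)]
      exact zero_mem _

/-- splitting off the concentrated part. -/
theorem tcU_split (deg : ι → ℤ) (Q : Matrix ι ι S) (hQ : IsCx deg Q) (j : ℤ)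
    (Y X : ℤ → Submodule P V) (q e : ℤ) (f : ι → S ⊗[P] V)
    (hf : f ∈ tcU S deg Q j Y X q e) :
    ∃ g ∈ lift deg (conc (bcf S Y q)) (e + q), g ∈ tcU S deg Q j Y X q e ∧
      f - g ∈ tcU S deg Q j Y X (q + 1) e := by
  have hf' := hf
  rw [tcU, mem_tg] at hf
  obtain ⟨h1, h2, h3⟩ := hf
  set g : ι → S ⊗[P] V := fun a => if deg a = e + q then f a else 0 with hg
  have hg1 : ∀ a, deg a = e + q → g a = f a := fun a h => if_pos h
  have hg2 : ∀ a, deg a ≠ e + q → g a = 0 := fun a h => if_neg h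
  have hgU : g ∈ tcU S deg Q j Y X q e := by
    rw [tcU, mem_tg]
    refine ⟨fun a => ?_, fun a ha => ?_, fun a ha => ?_⟩
    · by_cases h : deg a = e + q
      · rw [hg1 a h]; exact h1 a
      · rw [hg2 a h]; exact zero_mem _
    · by_cases h : deg a = e + q
      · rw [hg1 a h]; exact h2 a ha
      · rw [hg2 a h]; exact zero_mem _
    · by_cases h : deg a + 1 = e + q
      · have : act Q (S ⊗[P] V) g a = act Q (S ⊗[P] V) f a := by
          rw [act_apply, act_apply]
          refine Finset.sum_congr rfl fun b _ => ?_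
          by_cases hb : Q a b = 0
          · rw [hb, zero_smul, zero_smul]
          · rw [hg1 b (by rw [hQ.deg_eq a b hb, h])]
        rw [this]
        exact h3 a ha
      · refine act_mem_of_deg S deg Q hQ g a _ fun b hb => ?_
        rw [hg2 b (by omega)]
        exact zero_mem _
  refine ⟨g, ?_, hgU, ?_⟩
  · rw [TR.mem_lift_conc]
    intro a
    refine ⟨fun h => ?_, fun h => hg2 a h⟩
    rw [hg1 a h]
    have := h1 a
    have e1 : deg a - e = q := by omega
    rwa [e1, bcf, tcY_ge le_rfl] at this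
  · refine tcU_succ_of S deg Q j Y X q e _ (sub_mem hf' hgU) fun a ha => ?_
    rw [Pi.sub_apply, hg1 a ha, sub_self]
    exact zero_mem _

theorem tc_hh_low (deg : ι → ℤ) (Q : Matrix ι ι S) (D : (ι → S ⊗[P] V) →ₗ[S] (ι → S ⊗[P] V))
    (j : ℤ) (Y X : ℤ → Submodule P V) (q δ : ℤ) (he : δ + q ≤ j) :
    hh D (tcU S deg Q j Y X q) (tcU S deg Q j Y X (q + 1)) δ = 0 := by
  rw [hh, rl_eq_zero_iff]
  exact (inf_le_left.trans (tcU_low S deg Q j Y X q δ he)).trans le_sup_right

open TR in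
theorem tc_hh_high (deg : ι → ℤ) (Q : Matrix ι ι S) (hQ : IsCx deg Q) (j : ℤ) (d : V →ₗ[P] V)
    (Y X : ℤ → Submodule P V) (hX : CStab d X) (hY : CStab d Y)
    (hXY : ∀ p, X p ≤ Y p) (q δ : ℤ) (he : j + 1 ≤ δ + q) :
    hh (tot deg Q (d.baseChange S)) (tcU S deg Q j Y X q) (tcU S deg Q j Y X (q + 1)) δ =
      khs deg Q ((Y q).baseChange S) ((X q).baseChange S) (δ + q) := by
  classical
  set M := S ⊗[P] V with hM
  set D := tot deg Q (d.baseChange S) with hD
  set U := tcU S deg Q j Y X q with hU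
  set U' := tcU S deg Q j Y X (q + 1) with hU'
  have sU : Stab D U := tcU_stab S deg Q hQ j d Y X hX hY hXY q
  have sU' : Stab D U' := tcU_stab S deg Q hQ j d Y X hX hY hXY (q + 1)
  have hle : ∀ e, U' e ≤ U e := fun e => tcU_anti S deg Q j Y X hXY q e
  set Z := bcf S Y q with hZ
  set C := bcf S X q with hC
  -- the zero-differential and its properties
  have hQsupp : ∀ (i : ℤ) (g : ι → M) (W : Submodule S M), g ∈ lift deg (conc W) i →
      ∀ a, deg a ≠ i - 1 → tot deg Q (0 : M →ₗ[S] M) g a = 0 := by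
    intro i g W hg a ha
    rw [TR.mem_lift_conc] at hg
    rw [TR.tot_zero_apply]
    refine Finset.sum_eq_zero fun b _ => ?_
    by_cases hb : Q a b = 0
    · rw [hb, zero_smul]
    · have := hQ.deg_eq a b hb
      rw [(hg b).2 (by omega), smul_zero]
  have hact : ∀ g : ι → M, tot deg Q (0 : M →ₗ[S] M) g = act Q M g := by
    intro g
    ext a
    rw [TR.tot_zero_apply, act_apply]
  -- elements concentrated in the right degree with values in `C`
  have hconcC : ∀ (e : ℤ) (g : ι → M), g ∈ lift deg (conc C) (e + q) → g ∈ U' e := by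
    intro e g hg
    refine tc_lift_le S deg Q hQ j _ X (fun p => tcY_le hXY _ p) e ?_
    rw [TR.mem_lift_conc] at hg
    rw [mem_lift]
    intro a
    by_cases h : deg a = e + q
    · have e1 : deg a - e = q := by omega
      rw [e1]
      exact (hg a).1 h
    · rw [(hg a).2 h]
      exact zero_mem _
  have hsupp : ∀ (e : ℤ) (g : ι → M), g ∈ U' e →
      (∀ a, deg a ≠ e + q → g a = 0) → g ∈ lift deg (conc C) (e + q) := by
    intro e g hg hs
    rw [TR.mem_lift_conc]
    exact fun a => ⟨fun h => tcU_succ_mem S deg Q j Y X q e g hg a h, hs a⟩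
  -- the difference of the two differentials on concentrated elements
  have hdiff : ∀ (e : ℤ) (g : ι → M), g ∈ lift deg (conc Z) (e + q) →
      D g - tot deg Q (0 : M →ₗ[S] M) g ∈ U (e - 1) →
      D g - tot deg Q (0 : M →ₗ[S] M) g ∈ U' (e - 1) := by
    intro e g hg hgU
    refine tcU_succ_of S deg Q j Y X q (e - 1) _ hgU fun a ha => ?_
    rw [TR.mem_lift_conc] at hg
    rw [Pi.sub_apply, TR.tot_zero_apply, hD, tr_tot_apply, add_sub_cancel_left,
      (hg a).2 (by omega), map_zero, smul_zero]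
    exact zero_mem _
  set L := U' δ with hL
  set zz0 := zz (tot deg Q (0 : M →ₗ[S] M)) (lift deg (conc Z)) (lift deg (conc C)) (δ + q)
    with hzz0
  set bb0 := bb (tot deg Q (0 : M →ₗ[S] M)) (lift deg (conc Z)) (lift deg (conc C)) (δ + q)
    with hbb0
  have hz0U : ∀ g ∈ zz0, g ∈ U δ := by
    intro g hg
    obtain ⟨hg1, hg2⟩ := mem_zz.1 hg
    refine tcU_of_conc S deg Q hQ j Y X q δ he g hg1 fun a ha _ => ?_
    rw [TR.mem_lift_conc] at hg2
    have := (hg2 a).1 ha
    rwa [hact] at this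
  have hz0D : ∀ g ∈ zz0, D g ∈ U' (δ - 1) := by
    intro g hg
    obtain ⟨hg1, hg2⟩ := mem_zz.1 hg
    refine tcU_succ_of S deg Q j Y X q (δ - 1) _ (sU _ _ (hz0U g hg)) fun a ha => ?_
    have h3 := (TR.mem_lift_conc.1 hg2 a).1 (by omega)
    have h4 : D g a = tot deg Q (0 : M →ₗ[S] M) g a := by
      rw [hD, tr_tot_apply, TR.tot_zero_apply, (TR.mem_lift_conc.1 hg1 a).2 (by omega), map_zero,
        smul_zero, add_zero]
    rw [h4]
    exact h3
  have hwU : ∀ g ∈ lift deg (conc Z) (δ + q + 1), g ∈ U (δ + 1) := by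
    intro g hg
    rw [show δ + q + 1 = δ + 1 + q by ring] at hg
    exact tcU_of_conc S deg Q hQ j Y X q (δ + 1) (by omega) g hg fun a ha ha' => by omega
  have hwD : ∀ g ∈ lift deg (conc Z) (δ + q + 1),
      D g - tot deg Q (0 : M →ₗ[S] M) g ∈ L := by
    intro g hg
    have hg' := hg
    rw [show δ + q + 1 = δ + 1 + q by ring] at hg'
    have h1 : D g ∈ U δ := by
      have := sU _ _ (hwU g hg)
      rwa [add_sub_cancel_right] at this
    have h2 : tot deg Q (0 : M →ₗ[S] M) g ∈ U δ := by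
      refine tcU_of_conc S deg Q hQ j Y X q δ he _ ?_ fun a _ _ => ?_
      · rw [TR.mem_lift_conc]
        intro a
        refine ⟨fun _ => ?_, fun h => hQsupp _ g Z hg a (by omega)⟩
        rw [TR.tot_zero_apply]
        refine sum_mem fun b _ => Submodule.smul_mem _ _ ?_
        by_cases hb : deg b = δ + q + 1
        · exact (TR.mem_lift_conc.1 hg b).1 hb
        · rw [(TR.mem_lift_conc.1 hg b).2 hb]
          exact zero_mem _
      · rw [hact, act_act S deg Q hQ]
        exact zero_mem _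
    have := hdiff (δ + 1) g hg' (by
      rw [add_sub_cancel_right]
      exact sub_mem h1 h2)
    rwa [add_sub_cancel_right] at this
  have ezz : zz D U U' δ = L ⊔ zz0 := by
    apply le_antisymm
    · intro f hf
      obtain ⟨hf1, hf2⟩ := mem_zz.1 hf
      obtain ⟨g, hg1, hg2, hg3⟩ := tcU_split S deg Q hQ j Y X q δ f hf1
      refine Submodule.mem_sup.2 ⟨f - g, hg3, g, ?_, by abel⟩
      refine mem_zz.2 ⟨hg1, ?_⟩
      have h4 : D g ∈ U' (δ - 1) := by
        have h5 := sub_mem hf2 (sU' _ _ hg3)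
        rwa [map_sub, sub_sub_cancel] at h5
      rw [TR.mem_lift_conc]
      intro a
      refine ⟨fun h => ?_, fun h => hQsupp _ g Z hg1 a h⟩
      have h6 := tcU_succ_mem S deg Q j Y X q (δ - 1) _ h4 a (by omega)
      have h7 : D g a = tot deg Q (0 : M →ₗ[S] M) g a := by
        rw [hD, tr_tot_apply, TR.tot_zero_apply, (TR.mem_lift_conc.1 hg1 a).2 (by omega),
          map_zero, smul_zero, add_zero]
      rwa [h7] at h6
    · refine sup_le (fun f hf => ?_) fun g hg => ?_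
      · exact mem_zz.2 ⟨hle _ hf, sU' _ _ hf⟩
      · exact mem_zz.2 ⟨hz0U g hg, hz0D g hg⟩
  have ebb : bb D U U' δ = L ⊔ bb0 := by
    apply le_antisymm
    · intro f hf
      obtain ⟨w, hw, hx⟩ := mem_bb.1 hf
      obtain ⟨g, hg1, hg2, hg3⟩ := tcU_split S deg Q hQ j Y X q (δ + 1) w hw
      rw [show δ + 1 + q = δ + q + 1 by ring] at hg1
      have h3 : D (w - g) ∈ L := by
        have := sU' _ _ hg3
        rwa [add_sub_cancel_right] at this
      have h4 := hwD g hg1
      refine Submodule.mem_sup.2 ⟨f - tot deg Q (0 : M →ₗ[S] M) g, ?_,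
        tot deg Q (0 : M →ₗ[S] M) g, ?_, by abel⟩
      · have h5 := add_mem (add_mem hx h3) h4
        rw [map_sub] at h5
        have e5 : f - D w + (D w - D g) + (D g - tot deg Q (0 : M →ₗ[S] M) g) =
            f - tot deg Q (0 : M →ₗ[S] M) g := by abel
        rwa [e5] at h5
      · exact mem_bb.2 ⟨g, hg1, by simp⟩
    · refine sup_le (fun f hf => ?_) fun f hf => ?_
      · exact mem_bb.2 ⟨0, zero_mem _, by simpa using hf⟩
      · obtain ⟨g, hg, hx⟩ := mem_bb.1 hf
        refine mem_bb.2 ⟨g, hwU g hg, ?_⟩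
        have h5 := sub_mem (hconcC _ _ hx) (hwD g hg)
        have e5 : f - tot deg Q (0 : M →ₗ[S] M) g -
          (D g - tot deg Q (0 : M →ₗ[S] M) g) = f - D g := by abel
        rwa [e5] at h5
  have einf : (L ⊔ bb0) ⊓ zz0 = bb0 ⊓ zz0 := by
    apply le_antisymm
    · rintro x ⟨hx1, hx2⟩
      refine ⟨?_, hx2⟩
      obtain ⟨l, hl, b, hb, rfl⟩ := Submodule.mem_sup.1 hx1
      refine add_mem ?_ hb
      have h3 : l ∈ lift deg (conc C) (δ + q) := by
        refine hsupp _ _ hl fun a ha => ?_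
        have h4 := (TR.mem_lift_conc.1 (mem_zz.1 hx2).1 a).2 ha
        obtain ⟨g, hg, hy⟩ := mem_bb.1 hb
        have h5 := (TR.mem_lift_conc.1 hy a).2 ha
        have h6 := hQsupp _ g Z hg a (by omega)
        rw [Pi.sub_apply, h6, sub_zero] at h5
        rw [Pi.add_apply, h5, add_zero] at h4
        exact h4
      exact mem_bb.2 ⟨0, zero_mem _, by simpa using h3⟩
    · exact inf_le_inf_right _ le_sup_right
  unfold khs
  unfold hh
  rw [ezz, ebb]
  have e7 : L ⊔ bb0 ⊔ (L ⊔ zz0) = L ⊔ bb0 ⊔ zz0 := by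
    rw [← sup_assoc, sup_eq_left.2 (le_sup_left : L ≤ L ⊔ bb0)]
  rw [← rl_sup_right (L ⊔ bb0), e7, rl_sup_right, ← rl_inf_left (L ⊔ bb0), einf, rl_inf_left]
  rfl

/-- homology of one column of the truncated window. -/
theorem tc_hh (deg : ι → ℤ) (Q : Matrix ι ι S) (hQ : IsCx deg Q) (j : ℤ) (d : V →ₗ[P] V)
    (Y X : ℤ → Submodule P V) (hX : CStab d X) (hY : CStab d Y)
    (hXY : ∀ p, X p ≤ Y p) (q δ : ℤ) :
    hh (tot deg Q (d.baseChange S)) (tcU S deg Q j Y X q) (tcU S deg Q j Y X (q + 1)) δ =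
      if j + 1 ≤ δ + q then khs deg Q ((Y q).baseChange S) ((X q).baseChange S) (δ + q)
      else 0 := by
  split_ifs with h
  · exact tc_hh_high S deg Q hQ j d Y X hX hY hXY q δ h
  · exact tc_hh_low S deg Q _ j Y X q δ (by omega)

theorem tcU_zero (deg : ι → ℤ) (Q : Matrix ι ι S) (j : ℤ)
    (Y X : ℤ → Submodule P V) (hXY : ∀ p, X p ≤ Y p) (n : ℕ)
    (hout : ∀ p, (p < 0 ∨ (n : ℤ) ≤ p) → Y p ≤ X p) :
    tcU S deg Q j Y X 0 = TG S deg Q j Y X := by
  have : tcY Y X 0 = Y := by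
    funext p
    by_cases h : 0 ≤ p
    · exact tcY_ge h
    · rw [tcY_lt (by omega)]
      exact le_antisymm (hXY p) (hout p (Or.inl (by omega)))
  rw [tcU, this]

theorem tcU_top (deg : ι → ℤ) (Q : Matrix ι ι S) (hQ : IsCx deg Q) (j : ℤ)
    (Y X : ℤ → Submodule P V) (hXY : ∀ p, X p ≤ Y p) (n : ℕ)
    (hout : ∀ p, (p < 0 ∨ (n : ℤ) ≤ p) → Y p ≤ X p) :
    tcU S deg Q j Y X n = lift deg (bcf S X) := by
  have : tcY Y X n = X := by
    funext p
    by_cases h : (n : ℤ) ≤ p
    · rw [tcY_ge h]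
      exact le_antisymm (hout p (Or.inr h)) (hXY p)
    · exact tcY_lt (by omega)
  rw [tcU, this, tc_tg_self S deg Q hQ]

theorem tcU_mono (deg : ι → ℤ) (Q : Matrix ι ι S) (j : ℤ)
    (Y X : ℤ → Submodule P V) (hXY : ∀ p, X p ≤ Y p) (m : ℕ) (δ : ℤ) :
    tcU S deg Q j Y X m δ ≤ tcU S deg Q j Y X 0 δ := by
  induction m with
  | zero => exact le_rfl
  | succ m ih =>
    refine le_trans ?_ ih
    push_cast
    exact tcU_anti S deg Q j Y X hXY m δ

theorem tc_hh_self {𝕋 : Type*} [AddCommGroup 𝕋] [Module S 𝕋] (D : 𝕋 →ₗ[S] 𝕋)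
    (X : ℤ → Submodule S 𝕋) (δ : ℤ) : hh D X X δ = 0 := by
  rw [hh, rl_eq_zero_iff]
  exact inf_le_left.trans le_sup_right

theorem tc_hh_le_sum (deg : ι → ℤ) (Q : Matrix ι ι S) (hQ : IsCx deg Q) (d : V →ₗ[P] V)
    (hd : ∀ x, d (d x) = 0) (Y X : ℤ → Submodule P V) (hX : CStab d X) (hY : CStab d Y)
    (hXY : ∀ p, X p ≤ Y p) (j : ℤ) (m : ℕ) (δ : ℤ) :
    hh (tot deg Q (d.baseChange S)) (tcU S deg Q j Y X 0) (tcU S deg Q j Y X m) δ ≤
      ∑ p ∈ Finset.range m, if j + 1 ≤ δ + p then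
        khs deg Q ((Y p).baseChange S) ((X p).baseChange S) (δ + p) else 0 := by
  have hd' : ∀ x, (d.baseChange S) ((d.baseChange S) x) = 0 := by
    intro x
    have h1 : d ∘ₗ d = 0 := LinearMap.ext hd
    have h2 := congrArg (fun f => (LinearMap.baseChange S f) x) h1
    simpa [LinearMap.baseChange_comp] using h2
  have hD := TR.tot_tot' deg Q hQ (d.baseChange S) hd'
  induction m with
  | zero => simp [tc_hh_self]
  | succ m ih =>
    rw [Finset.sum_range_succ, ← tc_hh S deg Q hQ j d Y X hX hY hXY m δ]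
    refine (hh_le_add _ hD (tcU S deg Q j Y X ((m + 1 : ℕ) : ℤ)) (tcU S deg Q j Y X m)
      (tcU S deg Q j Y X 0) ?_ ?_ ?_ ?_ ?_ δ).trans (add_le_add ih ?_)
    · exact tcU_stab S deg Q hQ j d Y X hX hY hXY _
    · exact tcU_stab S deg Q hQ j d Y X hX hY hXY _
    · exact tcU_stab S deg Q hQ j d Y X hX hY hXY _
    · intro e
      push_cast
      exact tcU_anti S deg Q j Y X hXY m e
    · intro e
      exact tcU_mono S deg Q j Y X hXY m e
    · push_cast
      exact le_rfl

theorem tc_khs_zero {M : Type*} [AddCommGroup M] [Module S M] (deg : ι → ℤ) (Q : Matrix ι ι S)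
    (Y X : Submodule S M) (i : ℤ) (h : ∀ a, deg a ≠ i) : khs deg Q Y X i = 0 := by
  rw [khs, hh, rl_eq_zero_iff]
  refine le_trans ?_ le_sup_right
  intro f hf
  have h1 := TR.mem_lift_conc.1 hf.1
  rw [TR.mem_lift_conc]
  exact fun a => ⟨fun ha => absurd ha (h a), fun _ => (h1 a).2 (h a)⟩

variable [Module.Flat P S]

/-- TASK G3-C5: the truncated window, column by column. -/
theorem tg_col (deg : ι → ℤ) (Q : Matrix ι ι S) (hQ : IsCx deg Q) (d : V →ₗ[P] V)
    (hd : ∀ x, d (d x) = 0) (Y X : ℤ → Submodule P V) (hX : CStab d X) (hY : CStab d Y)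
    (hXY : ∀ p, X p ≤ Y p) (n : ℕ) (hout : ∀ p, (p < 0 ∨ (n : ℤ) ≤ p) → Y p ≤ X p)
    (j δ : ℤ) :
    hh (tot deg Q (d.baseChange S)) (TG S deg Q j Y X) (lift deg (bcf S X)) δ ≤
      ∑ p ∈ Finset.range n, if j + 1 ≤ δ + p then
        khs deg Q ((Y p).baseChange S) ((X p).baseChange S) (δ + p) else 0 := by
  rw [← tcU_zero S deg Q j Y X hXY n hout, ← tcU_top S deg Q hQ j Y X hXY n hout]
  exact tc_hh_le_sum S deg Q hQ d hd Y X hX hY hXY j n δ

omit [Module.Flat P S] in
theorem tc_xi (deg : ι → ℤ) (Q : Matrix ι ι S) (n c₀ : ℕ)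
    (hdeg : ∀ a, 0 ≤ deg a ∧ deg a ≤ c₀) (Y X : ℤ → Submodule P V)
    (j : ℤ) (hj : -1 ≤ j) (q : ℕ) (hq : q < n) :
    xi (n + c₀) (fun δ => if j + 1 ≤ δ + q then
      khs deg Q ((Y q).baseChange S) ((X q).baseChange S) (δ + q) else 0) =
      (-1 : ℤ) ^ q * ∑ i ∈ Finset.Icc (j + 1) c₀, (i.negOnePow : ℤ) *
        ((khs deg Q ((Y q).baseChange S) ((X q).baseChange S) i).toNat : ℤ) := by
  rw [xi, Finset.mul_sum]
  have h0 : ∀ i : ℤ, (c₀ : ℤ) < i →
      khs deg Q ((Y q).baseChange S) ((X q).baseChange S) i = 0 := by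
    intro i hi
    refine tc_khs_zero S deg Q _ _ i fun a ha => ?_
    have := hdeg a
    omega
  symm
  refine Finset.sum_of_injOn (fun i => i - q) ?_ ?_ ?_ ?_
  · intro a _ b _ hab
    simpa using hab
  · intro i hi
    simp only [Finset.coe_Icc, Set.mem_Icc] at hi ⊢
    push_cast
    omega
  · intro δ hδ hδ'
    split_ifs with h
    · by_cases h1 : δ + q ≤ c₀
      · exact absurd ⟨δ + q, by simp; omega, by simp⟩ hδ'
      · rw [h0 _ (by omega)]
        simp
    · simp
  · intro i hi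
    rw [Finset.mem_Icc] at hi
    simp only [sub_add_cancel]
    rw [if_pos hi.1, Int.negOnePow_sub]
    have : ((q : ℤ).negOnePow : ℤ) = (-1 : ℤ) ^ q := by
      rw [Int.negOnePow_def]
      simp
    rw [← this]
    push_cast
    ring

/-- TASK G3-C5: Euler characteristic of the truncated window, column by column. -/
theorem tg_xi3 (deg : ι → ℤ) (Q : Matrix ι ι S) (hQ : IsCx deg Q) (c₀ : ℕ)
    (hdeg : ∀ a, 0 ≤ deg a ∧ deg a ≤ c₀) (d : V →ₗ[P] V)
    (hd : ∀ x, d (d x) = 0) (Y X : ℤ → Submodule P V) (hX : CStab d X) (hY : CStab d Y)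
    (hXY : ∀ p, X p ≤ Y p) (n : ℕ) (hout : ∀ p, (p < 0 ∨ (n : ℤ) ≤ p) → Y p ≤ X p)
    (hfin : ∀ p i, khs deg Q ((Y p).baseChange S) ((X p).baseChange S) i ≠ ⊤)
    (j : ℤ) (hj : -1 ≤ j) :
    xi (n + c₀) (hh (tot deg Q (d.baseChange S)) (TG S deg Q j Y X) (lift deg (bcf S X))) =
      ∑ p ∈ Finset.range n, (-1 : ℤ) ^ p * ∑ i ∈ Finset.Icc (j + 1) c₀, (i.negOnePow : ℤ) *
        ((khs deg Q ((Y p).baseChange S) ((X p).baseChange S) i).toNat : ℤ) := by
  have hd' : ∀ x, (d.baseChange S) ((d.baseChange S) x) = 0 := by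
    intro x
    have h1 : d ∘ₗ d = 0 := LinearMap.ext hd
    have h2 := congrArg (fun f => (LinearMap.baseChange S f) x) h1
    simpa [LinearMap.baseChange_comp] using h2
  have hD := TR.tot_tot' deg Q hQ (d.baseChange S) hd'
  have hk0 : ∀ (p i : ℤ), (i < 0 ∨ (c₀ : ℤ) < i) →
      khs deg Q ((Y p).baseChange S) ((X p).baseChange S) i = 0 := by
    intro p i hi
    refine tc_khs_zero S deg Q _ _ i fun a ha => ?_
    have := hdeg a
    omega
  have key : ∀ m : ℕ, m ≤ n →
      xi (n + c₀) (hh (tot deg Q (d.baseChange S)) (tcU S deg Q j Y X 0)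
        (tcU S deg Q j Y X m)) =
      ∑ p ∈ Finset.range m, (-1 : ℤ) ^ p * ∑ i ∈ Finset.Icc (j + 1) c₀, (i.negOnePow : ℤ) *
        ((khs deg Q ((Y p).baseChange S) ((X p).baseChange S) i).toNat : ℤ) := by
    intro m
    induction m with
    | zero =>
      intro _
      simp [xi, tc_hh_self]
    | succ m ih =>
      intro hm
      have hcol := tc_hh S deg Q hQ j d Y X hX hY hXY (m : ℤ)
      rw [Finset.sum_range_succ, ← ih (by omega),
        ← tc_xi S deg Q n c₀ hdeg Y X j hj m (by omega)]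
      have e1 : (fun δ : ℤ => if j + 1 ≤ δ + m then
          khs deg Q ((Y m).baseChange S) ((X m).baseChange S) (δ + m) else 0) =
          hh (tot deg Q (d.baseChange S)) (tcU S deg Q j Y X m)
            (tcU S deg Q j Y X ((m + 1 : ℕ) : ℤ)) := by
        funext δ
        push_cast
        exact (hcol δ).symm
      rw [e1]
      refine xi_add (n + c₀) _ hD (tcU S deg Q j Y X ((m + 1 : ℕ) : ℤ)) (tcU S deg Q j Y X m)
        (tcU S deg Q j Y X 0) ?_ ?_ ?_ ?_ ?_ ?_ ?_ ?_
      · exact tcU_stab S deg Q hQ j d Y X hX hY hXY _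
      · exact tcU_stab S deg Q hQ j d Y X hX hY hXY _
      · exact tcU_stab S deg Q hQ j d Y X hX hY hXY _
      · intro e
        push_cast
        exact tcU_anti S deg Q j Y X hXY m e
      · intro e
        exact tcU_mono S deg Q j Y X hXY m e
      · intro δ
        refine ne_top_of_le_ne_top ?_ (tc_hh_le_sum S deg Q hQ d hd Y X hX hY hXY j m δ)
        refine ne_of_lt (ENat.sum_lt_top.2 fun p _ => ?_)
        split_ifs
        · exact lt_top_iff_ne_top.2 (hfin _ _)
        · exact ENat.natCast_lt_top 0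
      · intro δ
        rw [← congrFun e1 δ]
        split_ifs
        · exact hfin _ _
        · exact ENat.natCast_ne_top 0
      · intro δ hδ
        push_cast at hδ
        constructor
        · have h1 := tc_hh_le_sum S deg Q hQ d hd Y X hX hY hXY j m δ
          have h2 : (∑ p ∈ Finset.range m, if j + 1 ≤ δ + p then
              khs deg Q ((Y p).baseChange S) ((X p).baseChange S) (δ + p) else 0) =
              (0 : ℕ∞) := by
            refine Finset.sum_eq_zero fun p hp => ?_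
            rw [Finset.mem_range] at hp
            split_ifs
            · exact hk0 _ _ (by omega)
            · rfl
          rw [h2] at h1
          exact le_antisymm h1 bot_le
        · rw [← congrFun e1 δ]
          split_ifs
          · exact hk0 _ _ (by omega)
          · rfl
  have := key n le_rfl
  rwa [tcU_zero S deg Q j Y X hXY n hout, tcU_top S deg Q hQ j Y X hXY n hout] at this

end Vale.Agent.P202.CharP.Gen2
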