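import Vale.Agent.P202.CharP.Gen2.Conn

/-!
P202-G3-C2: the connecting maps of the windows are small, with the normalization factor c on the
left side.
-/

namespace Vale.Agent.P202.CharP.Gen2

open Submodule TensorProduct Gen TR

/-- arithmetic -/
lemma conn_arith_c {zx zy yx ci co a b : ℕ∞}
    (h1 : zx = a + b) (h2 : zy = b + co) (h3 : yx = ci + a) (f1 : zx ≠ ⊤) (f2 : zy ≠ ⊤)
    (f3 : yx ≠ ⊤) (c ε : ℕ)
    (h : (c : ℤ) * ((zy.toNat : ℤ) + (yx.toNat : ℤ) - (zx.toNat : ℤ)) ≤ ((3 * ε : ℕ) : ℤ)) :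
    (c : ℕ∞) * ci ≤ ((3 * ε : ℕ) : ℕ∞) := by
  have ha : a ≠ ⊤ := by
    rintro rfl
    rw [top_add] at h1
    exact f1 h1
  have hb : b ≠ ⊤ := by
    rintro rfl
    rw [add_top] at h1
    exact f1 h1
  have hci : ci ≠ ⊤ := by
    rintro rfl
    rw [top_add] at h3
    exact f3 h3
  have hco : co ≠ ⊤ := by
    rintro rfl
    rw [add_top] at h2
    exact f2 h2
  lift a to ℕ using ha
  lift b to ℕ using hb
  lift ci to ℕ using hci
  lift co to ℕ using hco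
  subst h1 h2 h3
  rw [ENat.toNat_add (ENat.natCast_ne_top _) (ENat.natCast_ne_top _),
    ENat.toNat_add (ENat.natCast_ne_top _) (ENat.natCast_ne_top _),
    ENat.toNat_add (ENat.natCast_ne_top _) (ENat.natCast_ne_top _)] at h
  simp only [ENat.toNat_natCast] at h
  push_cast at h
  have h5 : (c : ℤ) * ((ci : ℤ) + co) ≤ 3 * ε := by
    have : (b : ℤ) + co + (ci + a) - (a + b) = ci + co := by ring
    rw [this] at h
    exact h
  have h6 : (c : ℤ) * (ci : ℤ) ≤ 3 * ε := by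
    have h7 : (0 : ℤ) ≤ (c : ℤ) * (co : ℤ) := by positivity
    nlinarith
  have h10 : c * ci ≤ 3 * ε := by exact_mod_cast h6
  exact_mod_cast h10

variable {P : Type*} [CommRing P] {V : Type*} [AddCommGroup V] [Module P V]
  (S : Type*) [CommRing S] [Algebra P S] [Module.Flat P S] {ι : Type*} [Fintype ι]

omit [Module.Flat P S] in
/-- TASK G3-C2: the connecting maps are small, with the normalization factor. -/
theorem conn_le_c (deg : ι → ℤ) (Q : Matrix ι ι S) (hQ : IsCx deg Q) (c lam : ℕ) (_hc : 1 ≤ c)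
    (t : ℤ → ℕ) (ε : ℕ) (X₀ Y₀ X Y Z : Submodule P V) (h1 : X₀ ≤ X) (h2 : X ≤ Y) (h3 : Y ≤ Z)
    (h4 : Z ≤ Y₀) (E : Est S deg Q c lam t ε X₀ Y₀) (i : ℤ) :
    (c : ℕ∞) * rl (bb (tot deg Q (0 : (S ⊗[P] V) →ₗ[S] (S ⊗[P] V)))
        (lift deg (conc (Y.baseChange S))) (lift deg (conc (X.baseChange S))) (i - 1))
      ((zz (tot deg Q (0 : (S ⊗[P] V) →ₗ[S] (S ⊗[P] V))) (lift deg (conc (Z.baseChange S)))
        (lift deg (conc (Y.baseChange S))) i).map (tot deg Q (0 : (S ⊗[P] V) →ₗ[S] (S ⊗[P] V))) ⊔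
      bb (tot deg Q (0 : (S ⊗[P] V) →ₗ[S] (S ⊗[P] V))) (lift deg (conc (Y.baseChange S)))
        (lift deg (conc (X.baseChange S))) (i - 1)) ≤ ((3 * ε : ℕ) : ℕ∞) := by
  have m1 : X.baseChange S ≤ Y.baseChange S := Submodule.baseChange_mono S h2
  have m2 : Y.baseChange S ≤ Z.baseChange S := Submodule.baseChange_mono S h3
  obtain ⟨k1, k2, k3⟩ := hh_les (tot deg Q (0 : (S ⊗[P] V) →ₗ[S] (S ⊗[P] V)))
    (tot_tot' deg Q hQ 0 (fun x => by simp)) (lift deg (conc (X.baseChange S)))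
    (lift deg (conc (Y.baseChange S))) (lift deg (conc (Z.baseChange S)))
    (lift_stab' deg Q hQ 0 _ (conn_cstab _)) (lift_stab' deg Q hQ 0 _ (conn_cstab _))
    (lift_stab' deg Q hQ 0 _ (conn_cstab _)) (conn_lift_mono deg (conn_conc_mono m1))
    (conn_lift_mono deg (conn_conc_mono m2)) (i - 1)
  rw [sub_add_cancel] at k3
  obtain ⟨E0, E1⟩ := E
  obtain ⟨f1, g1⟩ := E1 X Z h1 (h2.trans h3) h4 (i - 1)
  obtain ⟨f2, g2⟩ := E1 Y Z (h1.trans h2) h3 h4 (i - 1)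
  obtain ⟨f3, g3⟩ := E1 X Y h1 h2 (h3.trans h4) (i - 1)
  have r1 : rl X Z = rl X Y + rl Y Z := rl_add h2 h3
  have r2 : rl X Z ≠ ⊤ := by
    have a1 : rl X Z ≤ rl X₀ Y₀ := (rl_anti_left h1).trans (rl_mono_right h4)
    exact ne_top_of_le_ne_top E0 a1
  have r3 : rl X Y ≠ ⊤ := ne_top_of_le_ne_top r2 (by rw [r1]; exact le_self_add)
  have r4 : rl Y Z ≠ ⊤ := ne_top_of_le_ne_top r2 (by rw [r1]; exact le_add_self)
  have r5 : ((rl X Z).toNat : ℤ) = (rl X Y).toNat + (rl Y Z).toNat := by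
    rw [r1, ENat.toNat_add r3 r4]
    push_cast
    rfl
  refine conn_arith_c k1 k2 k3 f1 f2 f3 c ε ?_
  change (c : ℤ) * (((khs deg Q (Z.baseChange S) (Y.baseChange S) (i - 1)).toNat : ℤ) +
    ((khs deg Q (Y.baseChange S) (X.baseChange S) (i - 1)).toNat : ℤ) -
    ((khs deg Q (Z.baseChange S) (X.baseChange S) (i - 1)).toNat : ℤ)) ≤ ((3 * ε : ℕ) : ℤ)
  rw [abs_le] at g1 g2 g3
  rw [r5] at g1
  push_cast
  nlinarith [g1.1, g2.2, g3.2]

end Vale.Agent.P202.CharP.Gen2
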