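import Vale.Agent.P202.CharP.Gen2.TgUp
import Vale.Agent.P202.CharP.Gen2.ConnC

/-!
P202-G3-C4: above the diagonal the quotient by the truncated window is small, with the
normalization factor.
-/

set_option linter.all false

namespace Vale.Agent.P202.CharP.Gen2

open Submodule TensorProduct Gen

variable {P : Type*} [CommRing P] {V : Type*} [AddCommGroup V] [Module P V]
  (S : Type*) [CommRing S] [Algebra P S] [Module.Flat P S] {ι : Type*} [Fintype ι]

/-- TASK G3-C4: above the diagonal the quotient by the truncated window is small. -/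
theorem tg_up3_c (deg : ι → ℤ) (Q : Matrix ι ι S) (hQ : IsCx deg Q) (d : V →ₗ[P] V)
    (hd : ∀ x, d (d x) = 0) (Y X : ℤ → Submodule P V) (hX : CStab d X) (hY : CStab d Y)
    (hXY : ∀ p, X p ≤ Y p) (c lam : ℕ) (hc : 1 ≤ c) (t : ℤ → ℕ) (ε : ℕ)
    (E : ∀ p, Est S deg Q c lam t ε (X p) (Y p)) (P₀ : ℤ) (ex : ∀ p, p ≠ P₀ → Ex d Y X p)
    (j δ : ℤ) (hδ : j < δ + P₀) :
    (c : ℕ∞) * hh (tot deg Q (d.baseChange S)) (lift deg (bcf S Y)) (TG S deg Q j Y X) δ ≤
      ((3 * ε : ℕ) : ℕ∞) := by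
  refine (mul_le_mul_right (tgup_rl S deg Q hQ d hd Y X hX hY hXY j δ
    fun i hi => ex _ (by omega)) _).trans ?_
  have h1 : cb d Y X (j - δ + 1) ≤ Y (j - δ + 1) := by
    refine sup_le ?_ (hXY _)
    rintro _ ⟨y, hy, rfl⟩
    have := hY _ y hy
    rwa [sub_add_cancel] at this
  have h := conn_le_c S deg Q hQ c lam hc t ε (X (j - δ + 1)) (Y (j - δ + 1)) (X (j - δ + 1))
    (cb d Y X (j - δ + 1)) (Y (j - δ + 1)) le_rfl le_sup_right h1 le_rfl (E _) (j + 1)
  rwa [add_sub_cancel_right] at h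

end Vale.Agent.P202.CharP.Gen2
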