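import Vale.Agent.P202.CharP.Gen2.TgLowC
import Vale.Agent.P202.CharP.Gen2.TgUpC
import Vale.Agent.P202.CharP.Gen2.TgCol
import Vale.Agent.P202.CharP.Gen.CoreG

set_option linter.all false

/-!
P202-G3-C6: the core theorem.
-/

namespace Vale.Agent.P202.CharP.Gen2

open Submodule TensorProduct Gen

section Core3Aux

variable {P : Type*} [CommRing P] {V : Type*} [AddCommGroup V] [Module P V]
  (S : Type*) [CommRing S] [Algebra P S] {ι : Type*} [Fintype ι]

/-- the truncated family through the décalage family. -/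
lemma core3_tg_eq (deg : ι → ℤ) (Q : Matrix ι ι S) (hQ : IsCx deg Q) (hdeg : ∀ a, 0 ≤ deg a)
    (d : V →ₗ[P] V) (Y X : ℤ → Submodule P V) (hX : CStab d X) (hY : CStab d Y)
    (hXY : ∀ p, X p ≤ Y p) (j : ℕ) :
    ∃ G : ℤ → Submodule S (ι → S ⊗[P] V), Stab (tot deg Q (d.baseChange S)) G ∧
      ∀ δ, G δ ⊓ lift deg (bcf S Y) δ ⊔ lift deg (bcf S X) δ = TG S deg Q j Y X δ := by
  obtain ⟨W, hW⟩ : ∃ W : ℕ → ℤ → Submodule P V, W = fun k => if k ≤ j then X else Y := ⟨_, rfl⟩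
  have hWj : W j = X := by rw [hW]; simp
  have hWj1 : W (j + 1) = Y := by rw [hW]; simp
  have hst : ∀ k, CStab d (W k) := by
    intro k
    rw [hW]
    dsimp only
    split_ifs
    · exact hX
    · exact hY
  have mono : ∀ k p, W k p ≤ W (k + 1) p := by
    intro k p
    rw [hW]
    dsimp only
    split_ifs with h1 h2 h2
    · exact le_rfl
    · exact hXY p
    · omega
    · exact le_rfl
  refine ⟨GG S deg Q W, gg_stab S deg Q hQ hdeg d W hst, fun δ => ?_⟩
  have h := gg_tg S deg Q hQ hdeg W mono j δ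
  rw [hWj, hWj1] at h
  exact h

/-- a window in large degrees. -/
lemma core3_toNat_le {c lam : ℕ} {ε l : ℕ} {k : ℕ∞} (hk : k ≠ ⊤)
    (h : |(c : ℤ) * (k.toNat : ℤ) - (lam : ℤ) * (l : ℤ) * ((0 : ℕ) : ℤ)| ≤ (ε : ℤ)) :
    (c : ℕ∞) * k ≤ (ε : ℕ∞) := by
  have h1 : (c : ℤ) * (k.toNat : ℤ) ≤ ε := by
    have := (abs_le.mp h).2
    simpa using this
  have h5 : c * k.toNat ≤ ε := by exact_mod_cast h1
  rw [← ENat.natCast_toNat hk]
  exact_mod_cast h5

/-- division by the factor on the left. -/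
lemma core3_div {c m : ℕ} (hc : 1 ≤ c) {k : ℕ∞} (h : (c : ℕ∞) * k ≤ (m : ℕ∞)) :
    k ≤ ((m / c : ℕ) : ℕ∞) := by
  have hk : k ≠ ⊤ := by
    rintro rfl
    rw [ENat.mul_top (by exact_mod_cast (by omega : c ≠ 0))] at h
    exact absurd h (by simp)
  rw [← ENat.natCast_toNat hk] at h ⊢
  have h1 : c * k.toNat ≤ m := by exact_mod_cast h
  have h2 : k.toNat ≤ m / c := (Nat.le_div_iff_mul_le (by omega)).mpr (by rw [mul_comm]; exact h1)
  exact_mod_cast h2

/-- restriction of the range of a two-sided Euler characteristic. -/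
lemma core3_xi_range (m k : ℕ) (f : ℤ → ℕ∞) (hmk : m ≤ k)
    (h : ∀ δ, (δ < -(m : ℤ) ∨ (m : ℤ) < δ) → f δ = 0) : xi k f = xi m f := by
  rw [xi, xi]
  symm
  refine Finset.sum_subset ?_ ?_
  · intro x hx
    rw [Finset.mem_Icc] at hx ⊢
    omega
  · intro x hx hx'
    rw [Finset.mem_Icc] at hx hx'
    rw [h x (by omega)]
    simp

/-- comparison of the Euler characteristic of a window with its main term. -/
lemma core3_est (n c₀ j : ℕ) (K : ℤ → ℤ → ℕ∞) (c lam : ℕ) (l : ℤ → ℕ) (t : ℤ → ℕ) (ε : ℕ)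
    (E : ∀ p i : ℤ, |(c : ℤ) * ((K p i).toNat : ℤ) - (lam : ℤ) * (l p : ℤ) * (t i : ℤ)| ≤
      (ε : ℤ)) :
    (c : ℤ) * (∑ p ∈ Finset.range n, (-1 : ℤ) ^ p * ∑ i ∈ Finset.Icc ((j : ℤ) + 1) c₀,
        (i.negOnePow : ℤ) * ((K p i).toNat : ℤ)) ≤
      (lam : ℤ) * (∑ p ∈ Finset.range n, (-1 : ℤ) ^ p * (l p : ℤ)) *
        (∑ i ∈ Finset.Icc ((j : ℤ) + 1) c₀, (i.negOnePow : ℤ) * (t i : ℤ)) +
      n * (c₀ + 1) * ε := by
  have hu : ∀ i : ℤ, |((i.negOnePow : ℤˣ) : ℤ)| = 1 := by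
    intro i
    rcases Int.units_eq_one_or i.negOnePow with h | h <;> rw [h] <;> simp
  have e1 : (c : ℤ) * (∑ p ∈ Finset.range n, (-1 : ℤ) ^ p * ∑ i ∈ Finset.Icc ((j : ℤ) + 1) c₀,
        (i.negOnePow : ℤ) * ((K p i).toNat : ℤ)) -
      (lam : ℤ) * (∑ p ∈ Finset.range n, (-1 : ℤ) ^ p * (l p : ℤ)) *
        (∑ i ∈ Finset.Icc ((j : ℤ) + 1) c₀, (i.negOnePow : ℤ) * (t i : ℤ)) =
      ∑ p ∈ Finset.range n, ∑ i ∈ Finset.Icc ((j : ℤ) + 1) c₀, (-1 : ℤ) ^ p *
        ((i.negOnePow : ℤ) * ((c : ℤ) * ((K p i).toNat : ℤ) -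
          (lam : ℤ) * (l p : ℤ) * (t i : ℤ))) := by
    rw [Finset.mul_sum, mul_assoc, Finset.sum_mul_sum, Finset.mul_sum, ← Finset.sum_sub_distrib]
    refine Finset.sum_congr rfl fun p _ => ?_
    rw [Finset.mul_sum, Finset.mul_sum, Finset.mul_sum, ← Finset.sum_sub_distrib]
    refine Finset.sum_congr rfl fun i _ => ?_
    ring
  have e2 : ∑ p ∈ Finset.range n, ∑ i ∈ Finset.Icc ((j : ℤ) + 1) c₀, (-1 : ℤ) ^ p *
        ((i.negOnePow : ℤ) * ((c : ℤ) * ((K p i).toNat : ℤ) -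
          (lam : ℤ) * (l p : ℤ) * (t i : ℤ))) ≤
      ∑ _p ∈ Finset.range n, ∑ _i ∈ Finset.Icc ((j : ℤ) + 1) (c₀ : ℤ), (ε : ℤ) := by
    refine Finset.sum_le_sum fun p _ => Finset.sum_le_sum fun i _ => ?_
    refine (le_abs_self _).trans ?_
    rw [abs_mul, abs_mul, hu i, abs_pow, abs_neg, abs_one, one_pow, one_mul, one_mul]
    exact E p i
  have e3 : ∑ _p ∈ Finset.range n, ∑ _i ∈ Finset.Icc ((j : ℤ) + 1) (c₀ : ℤ), (ε : ℤ) ≤
      n * (c₀ + 1) * ε := by
    rw [Finset.sum_const, Finset.sum_const, Int.card_Icc, Finset.card_range, nsmul_eq_mul,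
      nsmul_eq_mul, ← mul_assoc]
    have h1 : ((((c₀ : ℤ) + 1 - ((j : ℤ) + 1)).toNat : ℕ) : ℤ) ≤ (c₀ : ℤ) + 1 := by omega
    have h2 : (0 : ℤ) ≤ (n : ℤ) := Int.natCast_nonneg _
    have h3 : (0 : ℤ) ≤ (ε : ℤ) := Int.natCast_nonneg _
    exact mul_le_mul_of_nonneg_right (mul_le_mul_of_nonneg_left h1 h2) h3
  linarith

end Core3Aux

variable {P : Type*} [CommRing P] {V : Type*} [AddCommGroup V] [Module P V]
  (S : Type*) [CommRing S] [Algebra P S] [Module.Flat P S] {ι : Type*} [Fintype ι]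

/-- TASK G3-C6: the core theorem. -/
theorem core3_c (deg : ι → ℤ) (Q : Matrix ι ι S) (hQ : IsCx deg Q) (n c₀ : ℕ) (hn : 1 ≤ n)
    (hnc : n ≤ c₀) (hdeg : ∀ a, 0 ≤ deg a ∧ deg a ≤ c₀) (d : V →ₗ[P] V)
    (hd : ∀ x, d (d x) = 0) (N : ℕ)
    (W : ℕ → ℤ → Submodule P V) (hW : ∀ j, CStab d (W j)) (mono : ∀ j p, W j p ≤ W (j + 1) p)
    (Winf : ℤ → Submodule P V) (hWinf : CStab d Winf) (monoinf : ∀ p, Winf p ≤ W 0 p)
    (hout : ∀ j p, (p < 0 ∨ (n : ℤ) ≤ p) → W j p ≤ Winf p)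
    (P₀ : ℕ → ℤ) (hP1 : ∀ j : ℕ, j < n → (j : ℤ) - 1 ≤ P₀ j ∧ P₀ j ≤ j)
    (hP2 : ∀ j : ℕ, n ≤ j → P₀ j = n - 1)
    (ex : ∀ j, j < n + N → ∀ p, p ≠ P₀ j → Ex d (W (j + 1)) (W j) p)
    (c lam : ℕ) (hc : 1 ≤ c) (t : ℤ → ℕ) (ht : ∀ i, (n : ℤ) < i → t i = 0)
    (r : ℤ → ℤ) (hr : ∀ i, (t i : ℤ) = r i + r (i + 1)) (hr' : ∀ i, (n : ℤ) < i → r i = 0)
    (ε : ℕ) (E : ∀ j, j < n + N → ∀ p, Est S deg Q c lam t ε (W j p) (W (j + 1) p))
    (low : ∀ δ, δ < 0 → hh (tot deg Q (d.baseChange S)) (lift deg (bcf S (W 0)))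
      (lift deg (bcf S Winf)) δ = 0)
    (fin : ∀ δ, hh (tot deg Q (d.baseChange S)) (lift deg (bcf S (W 0)))
      (lift deg (bcf S Winf)) δ ≠ ⊤)
    (van : ∀ δ, 1 ≤ δ → zz (tot deg Q (d.baseChange S)) (lift deg (bcf S (W n)))
      (lift deg (bcf S Winf)) δ ≤ bb (tot deg Q (d.baseChange S)) (lift deg (bcf S (W (n + N))))
      (lift deg (bcf S Winf)) δ) :
    ∑ j ∈ Finset.range n, (-1 : ℤ) ^ j * (lam : ℤ) *
        (∑ p ∈ Finset.range n, (-1 : ℤ) ^ p * ((rl (W j p) (W (j + 1) p)).toNat : ℤ)) *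
          r (j + 1) -
        ((n + c₀ + 1) * (n + N) * (n + 3) + n * n * (c₀ + 1)) * ε ≤
      c * ∑ i ∈ Finset.range (c₀ + 1), (-1 : ℤ) ^ i *
        ((hh (tot deg Q (d.baseChange S)) (lift deg (bcf S (W 0)))
          (lift deg (bcf S Winf)) (i : ℤ)).toNat : ℤ) := by
  classical
  obtain ⟨c', rfl⟩ : ∃ c', c₀ = n + c' := ⟨c₀ - n, by omega⟩
  have hdS := cg_dd S d hd
  have hD : ∀ x, (tot deg Q (d.baseChange S)) ((tot deg Q (d.baseChange S)) x) = 0 :=
    fun f => tot_tot deg Q hQ (d.baseChange S) hdS f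
  have Lst : ∀ j, Stab (tot deg Q (d.baseChange S)) (lift deg (bcf S (W j))) := fun j =>
    lift_stab deg Q hQ (d.baseChange S) _ (cg_cstab S d _ (hW j))
  have X0st : Stab (tot deg Q (d.baseChange S)) (lift deg (bcf S Winf)) :=
    lift_stab deg Q hQ (d.baseChange S) _ (cg_cstab S d _ hWinf)
  have Wm : ∀ i j, i ≤ j → ∀ p, W i p ≤ W j p := by
    intro i j hij p
    induction j, hij using Nat.le_induction with
    | base => exact le_rfl
    | succ j _ ih => exact ih.trans (mono j p)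
  obtain ⟨W', hW'⟩ : ∃ W' : ℕ → ℤ → Submodule P V, W' = fun k => W (min k n) := ⟨_, rfl⟩
  have mono' : ∀ k p, W' k p ≤ W' (k + 1) p := by
    intro k p
    rw [hW']
    exact Wm _ _ (by omega) p
  have W'eq : ∀ k, k ≤ n → W' k = W k := by
    intro k hk
    rw [hW']
    dsimp only
    rw [min_eq_left hk]
  have Gst : Stab (tot deg Q (d.baseChange S)) (GG S deg Q W') :=
    gg_stab S deg Q hQ (fun a => (hdeg a).1) d W' (fun k => by rw [hW']; exact hW _)
  have Lmono : ∀ j δ, lift deg (bcf S (W j)) δ ≤ lift deg (bcf S (W (j + 1))) δ := fun j δ =>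
    lift_mono deg (fun p => Submodule.baseChange_mono S (mono j p)) δ
  have X0L : ∀ δ, lift deg (bcf S Winf) δ ≤ lift deg (bcf S (W 0)) δ := fun δ =>
    lift_mono deg (fun p => Submodule.baseChange_mono S (monoinf p)) δ
  have L0G : ∀ δ, lift deg (bcf S (W 0)) δ ≤ GG S deg Q W' δ := by
    intro δ
    have := lift_le_gg S deg Q hQ W' mono' δ
    rwa [W'eq 0 (by omega)] at this
  have GLn : ∀ δ, GG S deg Q W' δ ≤ lift deg (bcf S (W n)) δ := by
    intro δ
    have h1 := gg_le_lift S deg Q (n + c') hdeg W' mono' δ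
    have h2 : W' (n + c') = W n := by
      rw [hW']
      dsimp only
      rw [min_eq_right (by omega)]
    rwa [h2] at h1
  have GTG : ∀ j : ℕ, j < n → ∀ δ, (GG S deg Q W' δ ⊓ lift deg (bcf S (W (j + 1))) δ) ⊔
      lift deg (bcf S (W j)) δ = TG S deg Q j (W (j + 1)) (W j) δ := by
    intro j hj δ
    have := gg_tg S deg Q hQ (fun a => (hdeg a).1) W' mono' j δ
    rwa [W'eq j (by omega), W'eq (j + 1) (by omega)] at this
  have hout1 : ∀ j p, (p < 0 ∨ (n : ℤ) ≤ p) → W (j + 1) p ≤ W j p := fun j p hp =>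
    (hout (j + 1) p hp).trans ((monoinf p).trans (Wm 0 j (by omega) p))
  have hout2 : ∀ j δ, (δ ≤ -(n : ℤ) ∨ (n : ℤ) + c' < δ) →
      lift deg (bcf S (W j)) δ ≤ lift deg (bcf S Winf) δ := by
    intro j δ hδ f hf
    rw [mem_lift] at hf ⊢
    intro a
    have h1 := hdeg a
    push_cast at h1
    exact Submodule.baseChange_mono S (hout j _ (by omega)) (hf a)
  obtain ⟨U, hU⟩ : ∃ U : ℕ → ℤ → Submodule S (ι → S ⊗[P] V), U = fun j δ =>
      (GG S deg Q W' δ ⊓ lift deg (bcf S (W (j + 1))) δ) ⊔ lift deg (bcf S (W j)) δ := ⟨_, rfl⟩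
  have hUT : ∀ j : ℕ, j < n → U j = TG S deg Q j (W (j + 1)) (W j) := by
    intro j hj
    rw [hU]
    funext δ
    exact GTG j hj δ
  have hexp : ∀ j, j < n + N → ∀ p i, khs deg Q ((W (j + 1) p).baseChange S)
      ((W j p).baseChange S) i ≠ ⊤ := fun j hj p i =>
    ((E j hj p).2 (W j p) (W (j + 1) p) le_rfl (mono j p) le_rfl i).1
  have hEst : ∀ j, j < n + N → ∀ p i, |(c : ℤ) * ((khs deg Q ((W (j + 1) p).baseChange S)
      ((W j p).baseChange S) i).toNat : ℤ) -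
      (lam : ℤ) * ((rl (W j p) (W (j + 1) p)).toNat : ℤ) * (t i : ℤ)| ≤ (ε : ℤ) :=
    fun j hj p i => ((E j hj p).2 (W j p) (W (j + 1) p) le_rfl (mono j p) le_rfl i).2
  have h3 : ((3 * ε : ℕ) : ℕ∞) ≤ (((n + 3) * ε : ℕ) : ℕ∞) := by
    exact_mod_cast Nat.mul_le_mul_right ε (by omega)
  have main := cg_abs S (tot deg Q (d.baseChange S)) hD n c' N
    (fun j => lift deg (bcf S (W j))) (lift deg (bcf S Winf)) (GG S deg Q W')
    U Lst X0st Gst Lmono X0L L0G GLn (fun j δ => by rw [hU])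
    (fun j δ hδ => hout2 j δ hδ) ((n + 3) * ε / c)
    (fun j hj δ => by
      rw [hUT j hj]
      refine ne_top_of_le_ne_top ?_ (tg_col S deg Q hQ d hd _ _ (hW j) (hW (j + 1)) (mono j) n
        (hout1 j) j δ)
      refine (WithTop.sum_ne_top).mpr fun p _ => ?_
      split_ifs
      · exact hexp j (by omega) _ _
      · exact ENat.zero_ne_top)
    (fun j hj δ hδ => by
      rw [hUT j hj]
      refine core3_div hc ?_
      refine (tg_low3_c S deg Q hQ d hd _ _ (hW j) (hW (j + 1)) (mono j) c lam hc t ε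
        (E j (by omega)) (P₀ j) (ex j (by omega)) j δ ?_).trans h3
      have := hP1 j hj
      omega)
    (fun j hj δ hδ => by
      rw [hUT j hj]
      refine core3_div hc ?_
      refine (tg_up3_c S deg Q hQ d hd _ _ (hW j) (hW (j + 1)) (mono j) c lam hc t ε
        (E j (by omega)) (P₀ j) (ex j (by omega)) j δ ?_).trans h3
      have := hP1 j hj
      omega)
    (fun j hj1 hj2 δ hδ => by
      obtain ⟨G, hG, hGT⟩ := core3_tg_eq S deg Q hQ (fun a => (hdeg a).1) d (W (j + 1)) (W j)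
        (hW j) (hW (j + 1)) (mono j) n
      have hTst : Stab (tot deg Q (d.baseChange S)) (TG S deg Q n (W (j + 1)) (W j)) := by
        intro δ x hx
        rw [← hGT δ] at hx
        rw [← hGT (δ - 1)]
        obtain ⟨y, hy, z, hz, rfl⟩ := Submodule.mem_sup.mp hx
        rw [map_add]
        exact Submodule.add_mem_sup ⟨hG δ y hy.1, Lst (j + 1) δ y hy.2⟩ (Lst j δ z hz)
      have hXT : ∀ δ, lift deg (bcf S (W j)) δ ≤ TG S deg Q n (W (j + 1)) (W j) δ := by
        intro δ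
        rw [← hGT δ]
        exact le_sup_right
      have hTY : ∀ δ, TG S deg Q n (W (j + 1)) (W j) δ ≤ lift deg (bcf S (W (j + 1))) δ := by
        intro δ
        rw [← hGT δ]
        exact sup_le inf_le_right (Lmono j δ)
      refine core3_div hc ?_
      refine (mul_le_mul_right (hh_le_add _ hD _ _ _ (Lst j) hTst (Lst (j + 1)) hXT hTY δ)
        (c : ℕ∞)).trans ?_
      have e1 := tg_up3_c S deg Q hQ d hd _ _ (hW j) (hW (j + 1)) (mono j) c lam hc t ε
        (E j hj2) (P₀ j) (ex j hj2) n δ (by rw [hP2 j hj1]; omega)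
      have e2 := tg_col S deg Q hQ d hd _ _ (hW j) (hW (j + 1)) (mono j) n
        (hout1 j) n δ
      have e3 : (c : ℕ∞) * (∑ p ∈ Finset.range n, if (n : ℤ) + 1 ≤ δ + p then
          khs deg Q ((W (j + 1) p).baseChange S) ((W j p).baseChange S) (δ + p) else 0) ≤
          ((n * ε : ℕ) : ℕ∞) := by
        have e4 : ∀ p ∈ Finset.range n, (c : ℕ∞) * (if (n : ℤ) + 1 ≤ δ + p then
          khs deg Q ((W (j + 1) p).baseChange S) ((W j p).baseChange S) (δ + p) else 0) ≤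
            (ε : ℕ∞) := by
          intro p _
          split_ifs with hq
          · have e5 := hEst j hj2 p (δ + p)
            rw [ht (δ + p) (by omega)] at e5
            exact core3_toNat_le (hexp j hj2 _ _) e5
          · rw [mul_zero]
            exact zero_le
        rw [Finset.mul_sum]
        refine (Finset.sum_le_sum e4).trans ?_
        rw [Finset.sum_const, Finset.card_range, nsmul_eq_mul]
        exact_mod_cast le_rfl
      rw [mul_add]
      refine (add_le_add e1 ((mul_le_mul_right e2 (c : ℕ∞)).trans e3)).trans ?_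
      rw [← Nat.cast_add]
      exact_mod_cast (by ring_nf; exact le_rfl : 3 * ε + n * ε ≤ (n + 3) * ε))
    (fun j => - xi (n + c') (hh (tot deg Q (d.baseChange S)) (U j) (lift deg (bcf S (W j)))))
    (fun j _ => by ring)
    low fin van
  have hxi : xi (n + c') (hh (tot deg Q (d.baseChange S)) (lift deg (bcf S (W 0)))
      (lift deg (bcf S Winf))) = ∑ i ∈ Finset.range (n + c' + 1), (-1 : ℤ) ^ i *
        ((hh (tot deg Q (d.baseChange S)) (lift deg (bcf S (W 0)))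
          (lift deg (bcf S Winf)) (i : ℤ)).toNat : ℤ) := by
    rw [xi]
    symm
    refine Finset.sum_of_injOn (fun i : ℕ => (i : ℤ)) ?_ ?_ ?_ ?_
    · intro i _ j _ hij
      simpa using hij
    · intro i hi
      simp only [Finset.coe_range, Set.mem_Iio] at hi
      simp only [Finset.coe_Icc, Set.mem_Icc]
      push_cast
      omega
    · intro δ hδ hδ'
      have : δ < 0 := by
        by_contra hc
        apply hδ'
        rw [Finset.mem_Icc] at hδ
        refine ⟨δ.toNat, ?_, ?_⟩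
        · simp only [Finset.coe_range, Set.mem_Iio]
          push_cast at hδ
          omega
        · simp only
          omega
      rw [low δ this]
      simp
    · intro i _
      rw [cg_nop]
  have hwin : ∀ j, j < n → (c : ℤ) * xi (n + c') (hh (tot deg Q (d.baseChange S)) (U j)
      (lift deg (bcf S (W j)))) ≤
      -((-1 : ℤ) ^ j * (lam : ℤ) * (∑ p ∈ Finset.range n, (-1 : ℤ) ^ p *
        ((rl (W j p) (W (j + 1) p)).toNat : ℤ)) * r (j + 1)) +
        n * ((n + c' : ℕ) + 1) * ε := by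
    intro j hj
    have x1 : xi (n + (n + c')) (hh (tot deg Q (d.baseChange S)) (U j)
        (lift deg (bcf S (W j)))) = xi (n + c') (hh (tot deg Q (d.baseChange S)) (U j)
        (lift deg (bcf S (W j)))) := by
      apply core3_xi_range
      · omega
      · intro δ hδ
        push_cast at hδ
        apply cg_hh_out
        have h1 : lift deg (bcf S (W (j + 1))) δ ≤ lift deg (bcf S (W j)) δ := by
          intro f hf
          rw [mem_lift] at hf ⊢
          intro a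
          have h1 := hdeg a
          push_cast at h1
          exact Submodule.baseChange_mono S (hout1 j _ (by omega)) (hf a)
        rw [hU]
        exact sup_le (inf_le_right.trans h1) le_rfl
    rw [← x1, hUT j hj, tg_xi3 S deg Q hQ (n + c') hdeg d hd _ _ (hW j) (hW (j + 1)) (mono j) n
      (hout1 j) (hexp j (by omega)) j (by omega)]
    refine (core3_est n (n + c') j (fun p i => khs deg Q ((W (j + 1) p).baseChange S)
      ((W j p).baseChange S) i) c lam (fun p => (rl (W j p) (W (j + 1) p)).toNat) t ε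
      (hEst j (by omega))).trans ?_
    rw [cg_tele (n + c') (fun i => (t i : ℤ)) r hr (fun i hi => hr' i (by push_cast at hi; omega))
      j (by omega)]
    apply le_of_eq
    ring
  have hsum : (c : ℤ) * ∑ j ∈ Finset.range n, - xi (n + c') (hh (tot deg Q (d.baseChange S)) (U j)
      (lift deg (bcf S (W j)))) ≥
      ∑ j ∈ Finset.range n, (-1 : ℤ) ^ j * (lam : ℤ) *
        (∑ p ∈ Finset.range n, (-1 : ℤ) ^ p * ((rl (W j p) (W (j + 1) p)).toNat : ℤ)) *
          r (j + 1) - n * (n * ((n + c' : ℕ) + 1) * ε) := by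
    rw [Finset.mul_sum, ge_iff_le, sub_le_iff_le_add]
    have h1 : (n : ℤ) * (n * ((n + c' : ℕ) + 1) * ε) =
        ∑ _j ∈ Finset.range n, (n : ℤ) * ((n + c' : ℕ) + 1) * ε := by
      rw [Finset.sum_const, Finset.card_range, nsmul_eq_mul]
    rw [h1, ← Finset.sum_add_distrib]
    refine Finset.sum_le_sum fun j hj => ?_
    have := hwin j (Finset.mem_range.mp hj)
    linarith
  rw [← hxi]
  have hc0 : (0 : ℤ) ≤ (c : ℤ) := Int.natCast_nonneg _
  have h4 := mul_le_mul_of_nonneg_left main hc0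
  rw [mul_sub] at h4
  have h5 : (c : ℤ) * ((2 * n + c') * (((n + N) * ((n + 3) * ε / c) : ℕ) : ℤ)) ≤
      (n + (n + c' : ℕ) + 1) * (n + N) * (n + 3) * ε := by
    have h6 : c * ((n + N) * ((n + 3) * ε / c)) ≤ (n + N) * ((n + 3) * ε) := by
      rw [mul_left_comm]
      exact Nat.mul_le_mul_left _ (Nat.mul_div_le _ _)
    have h6' : (c : ℤ) * (((n + N) * ((n + 3) * ε / c) : ℕ) : ℤ) ≤ (n + N) * ((n + 3) * ε) := by
      exact_mod_cast h6
    have h8 : (0 : ℤ) ≤ (n + N) * ((n + 3) * ε) := by positivity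
    have h9 : (c : ℤ) * ((2 * n + c') * (((n + N) * ((n + 3) * ε / c) : ℕ) : ℤ)) ≤
        (2 * n + c') * ((n + N) * ((n + 3) * ε)) := by
      rw [mul_left_comm]
      exact mul_le_mul_of_nonneg_left h6' (by positivity)
    refine h9.trans ?_
    push_cast
    nlinarith
  have h7 : (((n + c' : ℕ) : ℤ)) = (n : ℤ) + c' := by push_cast; ring
  nlinarith [h4, h5, hsum]

end Vale.Agent.P202.CharP.Gen2
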