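import Vale.Agent.P202.CharP.BijX

/-!
P202-G3, task G3-M6: bijectivity of the powers of `X_p` on the column `p`, level by level.
-/

namespace Vale.Agent.P202.CharP.Gen2

open Submodule TensorProduct

namespace BijPow

open BijX

variable {κ : Type*} [Field κ] {r : ℕ}

/-- the part of `f` in the `τ`-degrees `< t`. -/
noncomputable def trc (t : ℤ) (f : Lau κ r) : Lau κ r :=
  ∑ g ∈ (AddMonoidAlgebra.coeff f).support.filter (fun g => g.2 < t), mono g (cf f g)

lemma cf_trc (t : ℤ) (f : Lau κ r) (g : Gx r) :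
    cf (trc t f) g = if g.2 < t then cf f g else 0 := by
  classical
  rw [trc, cf_sum]
  simp only [cf_mono]
  rw [Finset.sum_ite_eq']
  by_cases h : g.2 < t
  · rw [if_pos h]
    by_cases h0 : cf f g = 0
    · rw [h0]
      split_ifs <;> rfl
    · rw [if_pos]
      rw [Finset.mem_filter, Finsupp.mem_support_iff]
      exact ⟨h0, h⟩
  · rw [if_neg h, if_neg]
    rw [Finset.mem_filter]
    exact fun h' => h h'.2

lemma lau_ext {f f' : Lau κ r} (h : ∀ g, cf f g = cf f' g) : f = f' := by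
  apply AddMonoidAlgebra.coeff_injective
  ext g
  exact h g

lemma xl_trc (l : Fin (r + 1)) (t : ℤ) (f : Lau κ r) :
    xl κ l * trc t f = trc (t + 1) (xl κ l * f) := by
  refine lau_ext fun g => ?_
  rw [cf_xl_mul, cf_trc, cf_xl_mul]
  have h1 : ∀ L : Finset (Fin r), (g - ex L).2 = g.2 - 1 := fun L => rfl
  simp only [cf_trc, h1]
  by_cases h : g.2 < t + 1
  · rw [if_pos h]
    refine Finset.sum_congr rfl fun L _ => if_pos (by omega)
  · rw [if_neg h]
    refine Finset.sum_eq_zero fun L _ => if_neg (by omega)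

/-- truncation on the ambient module. -/
noncomputable def tr (t : ℤ) (f : Lam κ r) : Lam κ r := fun I => trc t (f I)

lemma X_tr (l : Fin (r + 1)) (t : ℤ) (f : Lam κ r) :
    (MvPolynomial.X l : PP κ r) • tr t f = tr (t + 1) ((MvPolynomial.X l : PP κ r) • f) := by
  funext I
  rw [Pi.smul_apply, X_smul, tr, tr, xl_trc, Pi.smul_apply, X_smul]

lemma pow_tr (l : Fin (r + 1)) (t : ℤ) (f : Lam κ r) (M : ℕ) :
    (MvPolynomial.X l : PP κ r) ^ M • tr t f =
      tr (t + M) ((MvPolynomial.X l : PP κ r) ^ M • f) := by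
  induction M with
  | zero => simp
  | succ M ih =>
    rw [pow_succ', mul_smul, mul_smul, ih, X_tr]
    congr 1
    push_cast
    ring

lemma tr_mem {E : Set (Finset (Fin r) × Gx r)} (hE : Up E) {p : ℤ} {f : Lam κ r} (t : ℤ)
    (h : f ∈ MF κ E p) : tr t f ∈ MF κ E p := by
  rw [mem_MF hE] at h ⊢
  intro I g hg
  refine h I g ?_
  rw [tr, cf_trc] at hg
  split_ifs at hg
  · exact hg
  · exact absurd rfl hg

lemma pow_inj (a : Fin r → ℤ) (p : Fin (r + 1)) (M : ℕ) :
    ∀ v ∈ MF κ (SF r) (p : ℕ), (MvPolynomial.X p : PP κ r) ^ M • v ∈ MF κ (SG a) (p : ℕ) →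
      v ∈ MF κ (SG a) (p : ℕ) := by
  induction M with
  | zero =>
    intro v _ h
    simpa using h
  | succ M ih =>
    intro v hv h
    rw [pow_succ', mul_smul] at h
    exact ih v hv ((bij_X a p).1 _ (Submodule.smul_mem _ _ hv) h)

lemma pow_surj (a : Fin r → ℤ) (p : Fin (r + 1)) (M : ℕ) :
    ∀ v ∈ MF κ (SF r) (p : ℕ), ∃ v' ∈ MF κ (SF r) (p : ℕ),
      v - (MvPolynomial.X p : PP κ r) ^ M • v' ∈ MF κ (SG a) (p : ℕ) := by
  induction M with
  | zero =>
    intro v hv
    exact ⟨v, hv, by simp⟩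
  | succ M ih =>
    intro v hv
    obtain ⟨v₁, h1, h2⟩ := (bij_X a p).2 v hv
    obtain ⟨v₂, h3, h4⟩ := ih v₁ h1
    refine ⟨v₂, h3, ?_⟩
    have h5 := Submodule.add_mem _ h2 (Submodule.smul_mem _ (MvPolynomial.X p : PP κ r) h4)
    rw [smul_sub, ← mul_smul, ← pow_succ'] at h5
    convert h5 using 1
    abel

end BijPow

variable {κ : Type*} [Field κ] {r : ℕ}

open BijX BijPow in
/-- TASK G3-M6: bijectivity of the powers of `X_p` on the column `p`, level by level. -/
theorem bij_pow_X (a : Fin r → ℤ) (Q : ℕ) (M c : ℕ) (hM : M ≤ c * Q) (p : Fin (r + 1)) (k : ℕ) :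
    (∀ v ∈ MF κ (SF r) (p : ℕ), (MvPolynomial.X p : PP κ r) ^ M • v ∈ MF κ (SG a) (p : ℕ) →
      v ∈ MF κ (SG a) (p : ℕ)) ∧
    (∀ v ∈ MF κ (SW a Q k) (p : ℕ), ∃ v' ∈ MF κ (SW a Q (k + c)) (p : ℕ),
      v - (MvPolynomial.X p : PP κ r) ^ M • v' ∈ MF κ (SG a) (p : ℕ)) := by
  refine ⟨pow_inj a p M, fun v hv => ?_⟩
  have hvF : v ∈ MF κ (SF r) (p : ℕ) := by
    rw [mem_MF (up_SW' a Q k)] at hv
    rw [mem_MF up_SF']
    intro I g hg
    obtain ⟨h1, h2⟩ := hv I g hg
    refine ⟨?_, h2⟩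
    rcases h1 with h1 | h1
    · exact h1.1
    · exact h1.1
  obtain ⟨w, hw, hvw⟩ := pow_surj a p M v hvF
  set t : ℤ := (1 - (k : ℤ)) * Q - M with ht
  have hlow : tr t w ∈ MF κ (SG a) (p : ℕ) := by
    refine pow_inj a p M _ (tr_mem up_SF' t hw) ?_
    rw [pow_tr]
    have h1 := tr_mem (up_SG' a) (t + M) hvw
    rw [mem_MF (up_SG' a)] at h1 ⊢
    rw [mem_MF (up_SW' a Q k)] at hv
    intro I g hg
    rw [tr, cf_trc] at hg
    split_ifs at hg with h2
    · by_cases h3 : cf (v I) g = 0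
      · refine h1 I g ?_
        rw [tr, cf_trc, if_pos h2, Pi.sub_apply, cf_sub, h3, zero_sub, neg_ne_zero]
        exact hg
      · obtain ⟨h4, h5⟩ := hv I g h3
        refine ⟨?_, h5⟩
        rcases h4 with h4 | h4
        · exact h4
        · exfalso
          have := h4.2
          simp only at this
          omega
    · exact absurd rfl hg
  refine ⟨w - tr t w, ?_, ?_⟩
  · rw [mem_MF (up_SW' a Q (k + c))]
    intro I g hg
    rw [Pi.sub_apply, cf_sub, tr, cf_trc] at hg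
    split_ifs at hg with h1
    · exact absurd (sub_self _) hg
    · rw [sub_zero] at hg
      rw [mem_MF up_SF'] at hw
      obtain ⟨h2, h3⟩ := hw I g hg
      refine ⟨Or.inr ⟨h2, ?_⟩, h3⟩
      have h4 : (M : ℤ) ≤ c * Q := by exact_mod_cast hM
      push_cast
      show (1 - ((k : ℤ) + c)) * Q ≤ g.2
      nlinarith
  · have h6 := Submodule.add_mem _ hvw
      (Submodule.smul_mem _ ((MvPolynomial.X p : PP κ r) ^ M) hlow)
    convert h6 using 1
    rw [smul_sub]
    abel

end Vale.Agent.P202.CharP.Gen2
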