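import Vale.Agent.P202.CharP.Gen2.GacycEl
import Vale.Agent.P202.CharP.Gen2.BoxEx
import Vale.Agent.P202.CharP.Gen2.BijPow
import Vale.Agent.P202.CharP.Gen2.BoxBasic
import Vale.Agent.P202.CharP.BaseCh
import Vale.Agent.P202.CharP.TotRows
import Vale.Agent.P202.CharP.TotBasic

/-!
P202-G3-N6: vanishing of the inclusion of levels in the box model.
-/

namespace Vale.Agent.P202.CharP.Gen2

open Submodule TensorProduct Gen

namespace VanBoxAux

section Abs

variable {S : Type*} [CommRing S]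

/-- null-homotopies for the elements of the ideal `(y)`. -/
theorem homotopy {n : ℕ} (y : Fin n → S) (c : S) (hc : c ∈ Ideal.span (Set.range y)) :
    ∃ h : Matrix (KIdx n) (KIdx n) S,
    (∀ a b, h a b ≠ 0 → kdeg n a = kdeg n b + 1) ∧ kos n y * h + h * kos n y = c • 1 := by
  obtain ⟨c', hc'⟩ := (Ideal.mem_span_range_iff_exists_fun).mp hc
  choose h h1 h2 using kos_homotopy n y
  refine ⟨∑ l, c' l • h l, ?_, ?_⟩
  · intro a b hab
    by_contra hne
    apply hab
    rw [Matrix.sum_apply]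
    refine Finset.sum_eq_zero fun l _ => ?_
    rw [Matrix.smul_apply]
    by_cases h0 : h l a b = 0
    · rw [h0, smul_zero]
    · exact absurd (h1 l a b h0) hne
  · rw [Finset.mul_sum, Finset.sum_mul, ← Finset.sum_add_distrib, ← hc', Finset.sum_smul]
    refine Finset.sum_congr rfl fun l _ => ?_
    rw [Matrix.mul_smul, Matrix.smul_mul, ← smul_add, h2, smul_smul]

variable {ι : Type*} [Fintype ι] [DecidableEq ι] {M : Type*} [AddCommGroup M] [Module S M]

/-- one column: the lowest column of a relative cycle is a boundary modulo higher columns, after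
raising the level. -/
theorem col_step (deg : ι → ℤ) (K h : Matrix ι ι S) (hK : ∀ a b, K a b ≠ 0 → deg b = deg a + 1)
    (hh : ∀ a b, h a b ≠ 0 → deg a = deg b + 1) (ξ : S) (hξ : K * h + h * K = ξ • 1)
    (d : M →ₗ[S] M) (W W' X : ℤ → Submodule S M) (ρ ρ' : M →ₗ[S] M) (p δ : ℤ)
    (h1 : ∀ q, q < p → ∀ v ∈ W q, ρ v = v)
    (h2 : ∀ q, p < q → ∀ v ∈ W q, ρ' v = 0) (h3 : ∀ v ∈ W' (p + 1), ρ' v = 0)
    (hd : ∀ v ∈ W' p, d v ∈ W' (p + 1))
    (surj : ∀ v ∈ W p, ∃ v' ∈ W' p, v - ξ • v' ∈ X p)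
    (inj : ∀ v ∈ W' p, ξ • v ∈ X p → v ∈ X p)
    (x : ι → M) (hx : x ∈ lift deg W δ) (hρ : ∀ a, ρ (x a) = 0)
    (hD : tot deg K d x ∈ lift deg X (δ - 1)) :
    ∃ w ∈ lift deg W' (δ + 1), ∃ g ∈ lift deg X δ, ∀ a, ρ' ((x - tot deg K d w - g) a) = 0 := by
  rw [mem_lift] at hx hD
  have hx0 : ∀ b, deg b - δ < p → x b = 0 := fun b hb => by
    rw [← h1 _ hb _ (hx b), hρ]
  have hex : ∀ b, ∃ v', v' ∈ W' p ∧ (deg b - δ = p → x b - ξ • v' ∈ X p) ∧
      (deg b - δ ≠ p → v' = 0) := by
    intro b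
    by_cases hb : deg b - δ = p
    · obtain ⟨v', hv', hv⟩ := surj (x b) (hb ▸ hx b)
      exact ⟨v', hv', fun _ => hv, fun h => absurd hb h⟩
    · exact ⟨0, zero_mem _, fun h => absurd h hb, fun _ => rfl⟩
  choose x' hx'1 hx'2 hx'3 using hex
  have key : act K M x' ∈ lift deg X (δ - 1) := by
    rw [mem_lift]
    intro a
    by_cases ha : deg a - (δ - 1) = p
    · rw [ha]
      have hb : ∀ b, K a b ≠ 0 → deg b - δ = p := fun b hb => by
        have := hK a b hb
        omega
      refine inj _ (by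
        rw [act_apply]
        exact sum_mem fun b _ => Submodule.smul_mem _ _ (hx'1 b)) ?_
      have e1 : ξ • act K M x' a = tot deg K d x a - ∑ b, K a b • (x b - ξ • x' b) := by
        rw [tot_apply, hx0 a (by omega), map_zero, smul_zero, add_zero, act_apply,
          Finset.smul_sum, ← Finset.sum_sub_distrib]
        refine Finset.sum_congr rfl fun b _ => ?_
        rw [← smul_sub, sub_sub_cancel, smul_comm]
      rw [e1]
      refine sub_mem (ha ▸ hD a) (sum_mem fun b _ => ?_)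
      by_cases hKb : K a b = 0
      · rw [hKb, zero_smul]
        exact zero_mem _
      · exact Submodule.smul_mem _ _ (hx'2 b (hb b hKb))
    · have : act K M x' a = 0 := by
        rw [act_apply]
        refine Finset.sum_eq_zero fun b _ => ?_
        by_cases hKb : K a b = 0
        · rw [hKb, zero_smul]
        · rw [hx'3 b (by have := hK a b hKb; omega), smul_zero]
      rw [this]
      exact zero_mem _
  have hw0 : ∀ a, deg a - (δ + 1) ≠ p → act h M x' a = 0 := by
    intro a ha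
    rw [act_apply]
    refine Finset.sum_eq_zero fun b _ => ?_
    by_cases hb : h a b = 0
    · rw [hb, zero_smul]
    · rw [hx'3 b (by have := hh a b hb; omega), smul_zero]
  have hwp : ∀ a, act h M x' a ∈ W' p := fun a => act_mem h hx'1 a
  refine ⟨act h M x', ?_, (fun a => if deg a - δ = p then x a - ξ • x' a else 0) +
    act h M (act K M x'), ?_, ?_⟩
  · rw [mem_lift]
    intro a
    by_cases ha : deg a - (δ + 1) = p
    · rw [ha]
      exact hwp a
    · rw [hw0 a ha]
      exact zero_mem _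
  · refine add_mem ?_ ?_
    · rw [mem_lift]
      intro a
      by_cases ha : deg a - δ = p
      · simp only [if_pos ha]
        rw [ha]
        exact hx'2 a ha
      · simp only [if_neg ha]
        exact zero_mem _
    · rw [mem_lift] at key ⊢
      intro a
      rw [act_apply]
      refine sum_mem fun b _ => ?_
      by_cases hb : h a b = 0
      · rw [hb, zero_smul]
        exact zero_mem _
      · refine Submodule.smul_mem _ _ ?_
        have := key b
        rwa [show deg b - (δ - 1) = deg a - δ by have := hh a b hb; omega] at this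
  · intro a
    have e1 : act K M (act h M x') = ξ • x' - act h M (act K M x') := by
      rw [← act_mul, ← act_mul, eq_sub_iff_add_eq, ← act_add, hξ, act_smul, act_one]
    have e2 : (x - tot deg K d (act h M x') -
        ((fun a => if deg a - δ = p then x a - ξ • x' a else 0) + act h M (act K M x'))) a =
        (x a - ξ • x' a - (if deg a - δ = p then x a - ξ • x' a else 0)) -
          ((deg a).negOnePow : ℤ) • d (act h M x' a) := by
      rw [Pi.sub_apply, Pi.sub_apply, Pi.add_apply, tot_eq, e1, Pi.sub_apply, Pi.smul_apply]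
      abel
    rw [e2, map_sub, map_zsmul]
    have e3 : ρ' (d (act h M x' a)) = 0 := by
      by_cases ha : deg a - (δ + 1) = p
      · exact h3 _ (hd _ (hwp a))
      · rw [hw0 a ha, map_zero, map_zero]
    rw [e3, smul_zero, sub_zero]
    by_cases ha : deg a - δ = p
    · rw [if_pos ha, sub_self, map_zero]
    · rw [if_neg ha, sub_zero, hx'3 a ha, smul_zero, sub_zero]
      rcases lt_or_gt_of_ne ha with h' | h'
      · rw [hx0 a h', map_zero]
      · exact h2 _ h' _ (hx a)

end Abs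

section BC

variable {A : Type*} [CommRing A] {V : Type*} [AddCommGroup V] [Module A V]
  (S : Type*) [CommRing S] [Algebra A S]

theorem bc_congr (φ ψ : V →ₗ[A] V) (X : Submodule A V) (h : ∀ x ∈ X, φ x = ψ x) :
    ∀ y ∈ X.baseChange S, φ.baseChange S y = ψ.baseChange S y := by
  have h1 : X.baseChange S ≤ LinearMap.eqLocus (φ.baseChange S) (ψ.baseChange S) := by
    rw [Submodule.baseChange_eq_span S X, span_le]
    rintro _ ⟨x, hx, rfl⟩
    change φ.baseChange S (1 ⊗ₜ[A] x) = ψ.baseChange S (1 ⊗ₜ[A] x)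
    rw [LinearMap.baseChange_tmul, LinearMap.baseChange_tmul, h x hx]
  exact fun y hy => h1 hy

theorem bc_lsmul (a : A) (y : S ⊗[A] V) :
    (LinearMap.lsmul A V a).baseChange S y = algebraMap A S a • y := by
  induction y using TensorProduct.induction_on with
  | zero => rw [map_zero, smul_zero]
  | tmul s v =>
    rw [LinearMap.baseChange_tmul, LinearMap.lsmul_apply, TensorProduct.tmul_smul,
      TensorProduct.smul_tmul', TensorProduct.smul_tmul', Algebra.smul_def, smul_eq_mul]
  | add y z hy hz => rw [map_add, hy, hz, smul_add]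

end BC

section Col

variable (κ : Type*) [Field κ] (r : ℕ)

/-- projection onto the columns `< p`. -/
noncomputable def plt (p : ℕ) : Lam κ r →ₗ[PP κ r] Lam κ r where
  toFun f I := if I.card < p then f I else 0
  map_add' f g := by
    funext I
    by_cases h : I.card < p <;> simp [h]
  map_smul' c f := by
    funext I
    by_cases h : I.card < p <;> simp [h]

variable {κ r}

theorem plt_apply (p : ℕ) (f : Lam κ r) (I : Finset (Fin r)) :
    plt κ r p f I = if I.card < p then f I else 0 := rfl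

theorem plt_zero (f : Lam κ r) : plt κ r 0 f = (0 : Lam κ r →ₗ[PP κ r] Lam κ r) f := by
  funext I
  rw [plt_apply, if_neg (by omega)]
  rfl

theorem plt_top (f : Lam κ r) : plt κ r (r + 1) f = (LinearMap.id : Lam κ r →ₗ[PP κ r] Lam κ r) f := by
  funext I
  have h : I.card ≤ r := by
    have := Finset.card_le_univ I
    rwa [Fintype.card_fin] at this
  rw [plt_apply, if_pos (by omega)]
  rfl

theorem MF_col {E : Set (Finset (Fin r) × Gx r)} (hE : Up E) {q : ℤ} {f : Lam κ r}
    (hf : f ∈ MF κ E q) (I : Finset (Fin r)) (hI : (I.card : ℤ) ≠ q) : f I = 0 := by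
  rw [MF, mem_Mon (up_grd hE _)] at hf
  apply mb_lau_ext
  intro g
  rw [cf_zero]
  by_contra hg
  exact hI (hf I g hg).2

theorem plt_lt {E : Set (Finset (Fin r) × Gx r)} (hE : Up E) {q : ℤ} {p : ℕ} (hq : q < p)
    (f : Lam κ r) (hf : f ∈ MF κ E q) :
    plt κ r p f = (LinearMap.id : Lam κ r →ₗ[PP κ r] Lam κ r) f := by
  funext I
  rw [plt_apply]
  split_ifs with h
  · rfl
  · rw [LinearMap.id_apply, MF_col hE hf I (by omega)]

theorem plt_ge {E : Set (Finset (Fin r) × Gx r)} (hE : Up E) {q : ℤ} {p : ℕ} (hq : (p : ℤ) ≤ q)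
    (f : Lam κ r) (hf : f ∈ MF κ E q) :
    plt κ r p f = (0 : Lam κ r →ₗ[PP κ r] Lam κ r) f := by
  funext I
  rw [plt_apply]
  split_ifs with h
  · rw [MF_col hE hf I (by omega)]
    rfl
  · rfl

theorem plt_dC (p : ℕ) (f : Lam κ r) (hf : plt κ r p f = 0) : plt κ r p (dC κ r f) = 0 := by
  funext I
  rw [plt_apply]
  split_ifs with h
  · rw [mb_dC_apply]
    refine Finset.sum_eq_zero fun i hi => ?_
    have h1 := congrFun hf (I.erase i)
    rw [plt_apply, if_pos (by
      have := Finset.card_erase_add_one hi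
      omega)] at h1
    rw [h1]
    exact smul_zero _
  · rfl

end Col

end VanBoxAux

open VanBoxAux

section

universe v w

variable {κ : Type w} [Field κ] {r : ℕ} {S : Type v} [CommRing S] [IsNoetherianRing S]
  [Algebra (PP κ r) S] [Module.Flat (PP κ r) S]

omit [Module.Flat (PP κ r) S] [IsNoetherianRing S] in
theorem VanBoxAux.dd_bc (y : S ⊗[PP κ r] Lam κ r) :
    (dC κ r).baseChange S ((dC κ r).baseChange S y) = 0 := by
  have : (dC κ r).baseChange S ∘ₗ (dC κ r).baseChange S = 0 := by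
    rw [← LinearMap.baseChange_comp]
    have h0 : dC κ r ∘ₗ dC κ r = 0 := LinearMap.ext fun v => dC_dC v
    rw [h0, LinearMap.baseChange_zero]
  exact LinearMap.congr_fun this y

omit [Module.Flat (PP κ r) S] [IsNoetherianRing S] in
theorem VanBoxAux.DB_DB {n : ℕ} (L : Fin n → S) (x : KIdx n → S ⊗[PP κ r] Lam κ r) :
    DB κ r S L (DB κ r S L x) = 0 :=
  tot_tot (kdeg n) (kos n L) (kos_isCx n L) _ VanBoxAux.dd_bc x

theorem VanBoxAux.cstab_SW (a : Fin r → ℤ) (Q k' : ℕ) : CStab (dC κ r) (MF κ (SW a Q k')) := by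
  refine cstab_MF (up_SW a Q k') ?_
  rintro I g i (⟨h1, j, hj, h2⟩ | ⟨h1, h2⟩) hi
  · exact Or.inl ⟨fun l hl => h1 l fun h => hl (Finset.mem_insert_of_mem h), j,
      Finset.mem_insert_of_mem hj, h2⟩
  · exact Or.inr ⟨fun l hl => h1 l fun h => hl (Finset.mem_insert_of_mem h), h2⟩

omit [IsNoetherianRing S] in
theorem VanBoxAux.cstab_bcf (Y : ℤ → Submodule (PP κ r) (Lam κ r)) (hY : CStab (dC κ r) Y) :
    CStab ((dC κ r).baseChange S) (bcf S Y) := by
  intro p x hx
  have h1 : (Y p).baseChange S ≤ ((Y (p + 1)).baseChange S).comap ((dC κ r).baseChange S) := by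
    rw [← baseChange_comap]
    exact baseChange_mono S fun v hv => hY p v hv
  exact h1 hx

omit [IsNoetherianRing S] in
theorem VanBoxAux.van_box1 (a : Fin r → ℤ) (Q : ℕ) (hQ : 1 ≤ Q) (M k : ℕ) {n : ℕ} (L : Fin n → S)
    (hM : ∀ l : Fin (r + 1), (algebraMap (PP κ r) S (MvPolynomial.X l)) ^ M ∈
      Ideal.span (Set.range L)) (δ : ℤ) :
    zz (DB κ r S L) (lift (kdeg n) (bcf S (MF κ (SW a Q k)))) (WI κ a S n) δ ≤
      bb (DB κ r S L) (lift (kdeg n) (bcf S (MF κ (SW a Q (k + (r + 1) * M))))) (WI κ a S n) δ := by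
  have hSGSW : ∀ k' p, MF κ (SG a) p ≤ MF κ (SW a Q k') p := by
    intro k' p f hf
    rw [MF, mem_Mon (up_grd (up_SG a) _)] at hf
    rw [MF, mem_Mon (up_grd (up_SW a Q k') _)]
    exact fun I g hg => ⟨Or.inl (hf I g hg).1, (hf I g hg).2⟩
  have hSWSF : ∀ k' p, MF κ (SW a Q k') p ≤ MF κ (SF r) p := by
    intro k' p f hf
    rw [MF, mem_Mon (up_grd (up_SW a Q k') _)] at hf
    rw [MF, mem_Mon (up_grd up_SF _)]
    intro I g hg
    obtain ⟨h1, h2⟩ := hf I g hg
    refine ⟨?_, h2⟩
    rcases h1 with h1 | h1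
    · exact h1.1
    · exact h1.1
  have hmono : ∀ k₁ k₂, k₁ ≤ k₂ → ∀ p, MF κ (SW a Q k₁) p ≤ MF κ (SW a Q k₂) p := by
    intro k₁ k₂ h12 p f hf
    rw [MF, mem_Mon (up_grd (up_SW a Q _) _)] at hf ⊢
    intro I g hg
    obtain ⟨h1, h2⟩ := hf I g hg
    refine ⟨?_, h2⟩
    rcases h1 with h1 | ⟨h1, h3⟩
    · exact Or.inl h1
    · refine Or.inr ⟨h1, le_trans ?_ h3⟩
      refine mul_le_mul_of_nonneg_right ?_ (by positivity)
      have : (k₁ : ℤ) ≤ k₂ := by exact_mod_cast h12
      linarith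
  have hcsSG : CStab (dC κ r) (MF κ (SG a)) := by
    refine cstab_MF (up_SG a) ?_
    rintro I g i ⟨h1, j, hj, h2⟩ hi
    refine ⟨fun l hl => h1 l fun h => hl (Finset.mem_insert_of_mem h), j,
      Finset.mem_insert_of_mem hj, h2⟩
  have hcsSW : ∀ k', CStab (dC κ r) (MF κ (SW a Q k')) := VanBoxAux.cstab_SW a Q
  have hcbc : ∀ (Y : ℤ → Submodule (PP κ r) (Lam κ r)), CStab (dC κ r) Y →
      CStab ((dC κ r).baseChange S) (bcf S Y) := VanBoxAux.cstab_bcf
  have hDD : ∀ x, DB κ r S L (DB κ r S L x) = 0 := VanBoxAux.DB_DB L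
  let U : ℕ → ℤ → Submodule S (KIdx n → S ⊗[PP κ r] Lam κ r) := fun c =>
    lift (kdeg n) (bcf S (MF κ (SW a Q (k + c * M))))
  let Fil : ℕ → Submodule S (KIdx n → S ⊗[PP κ r] Lam κ r) := fun p =>
    Submodule.pi Set.univ fun _ => LinearMap.ker ((plt κ r p).baseChange S)
  have hFil : ∀ p x, x ∈ Fil p ↔ ∀ b, (plt κ r p).baseChange S (x b) = 0 := by
    intro p x
    simp [Fil, Submodule.mem_pi]
  have hmain := gacyc_el (DB κ r S L) hDD (WI κ a S n)
    (lift_stab (kdeg n) (kos n L) (kos_isCx n L) _ _ (hcbc _ hcsSG)) U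
    (fun c => lift_stab (kdeg n) (kos n L) (kos_isCx n L) _ _ (hcbc _ (hcsSW _)))
    (fun c δ => lift_mono (kdeg n) (fun p => baseChange_mono S
      (hmono _ _ (by nlinarith) p)) δ)
    (fun δ => lift_mono (kdeg n) (fun p => baseChange_mono S (hSGSW _ p)) δ)
    (r + 1) Fil ?_ ?_ ?_ ?_ δ
  · have e0 : U 0 = lift (kdeg n) (bcf S (MF κ (SW a Q k))) := by
      simp only [U]
      rw [zero_mul, add_zero]
    rw [e0] at hmain
    exact hmain
  · rw [eq_top_iff]
    intro x _
    rw [hFil]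
    intro b
    have := bc_congr S (plt κ r 0) 0 ⊤ (fun v _ => plt_zero v) (x b)
      (by rw [Submodule.baseChange_top]; trivial)
    rw [this, LinearMap.baseChange_zero, LinearMap.zero_apply]
  · intro c δ x hx
    have h1 := (hFil _ _).1 hx.2
    have : x = 0 := by
      funext b
      have h2 := bc_congr S (plt κ r (r + 1)) LinearMap.id ⊤ (fun v _ => plt_top v) (x b)
        (by rw [Submodule.baseChange_top]; trivial)
      rw [h1 b, LinearMap.baseChange_id, LinearMap.id_apply] at h2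
      exact h2.symm
    rw [this]
    exact zero_mem _
  · intro p x hx
    rw [hFil] at hx ⊢
    intro b
    rw [DB, tot_apply, map_add, map_sum, map_zsmul]
    have h1 : ∀ y : S ⊗[PP κ r] Lam κ r, (plt κ r p).baseChange S y = 0 →
        (plt κ r p).baseChange S ((dC κ r).baseChange S y) = 0 := by
      intro y hy
      have h2 : LinearMap.ker ((plt κ r p).baseChange S) ≤
          (LinearMap.ker ((plt κ r p).baseChange S)).comap ((dC κ r).baseChange S) := by
        rw [ker_baseChange, ← baseChange_comap]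
        exact baseChange_mono S fun v hv => plt_dC p v hv
      exact h2 hy
    rw [h1 _ (hx b), smul_zero, add_zero]
    refine Finset.sum_eq_zero fun b' _ => ?_
    rw [map_smul, hx, smul_zero]
  · intro p hp c δ x hxU hxF hDx
    obtain ⟨h, hh1, hh2⟩ := homotopy L _ (hM ⟨p, hp⟩)
    have hk : k + (c + 1) * M = k + c * M + M := by ring
    have hbij := fun k' => bij_pow_X (κ := κ) a Q M M (by nlinarith) ⟨p, hp⟩ k'
    have hξ : ∀ y : S ⊗[PP κ r] Lam κ r,
        (LinearMap.lsmul (PP κ r) (Lam κ r) ((MvPolynomial.X ⟨p, hp⟩ : PP κ r) ^ M)).baseChange S y =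
          (algebraMap (PP κ r) S (MvPolynomial.X ⟨p, hp⟩)) ^ M • y := by
      intro y
      rw [bc_lsmul, map_pow]
    have hsurj : ∀ v ∈ bcf S (MF κ (SW a Q (k + c * M))) p,
        ∃ v' ∈ bcf S (MF κ (SW a Q (k + (c + 1) * M))) p,
        v - (algebraMap (PP κ r) S (MvPolynomial.X ⟨p, hp⟩)) ^ M • v' ∈ bcf S (MF κ (SG a)) p := by
      intro v hv
      have h1 : MF κ (SW a Q (k + c * M)) p ≤
          (MF κ (SW a Q (k + (c + 1) * M)) p).map
            (LinearMap.lsmul (PP κ r) (Lam κ r) ((MvPolynomial.X ⟨p, hp⟩ : PP κ r) ^ M)) ⊔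
            MF κ (SG a) p := by
        intro u hu
        obtain ⟨u', hu', hu''⟩ := (hbij (k + c * M)).2 u hu
        rw [hk]
        exact Submodule.mem_sup.2 ⟨_, Submodule.mem_map_of_mem hu', _, hu'', by
          rw [LinearMap.lsmul_apply]; abel⟩
      have h2 := baseChange_mono S h1 hv
      rw [baseChange_sup', baseChange_map] at h2
      obtain ⟨_, ⟨v', hv', rfl⟩, g, hg, e⟩ := Submodule.mem_sup.1 h2
      refine ⟨v', hv', ?_⟩
      rw [hξ] at e
      rw [← e, add_sub_cancel_left]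
      exact hg
    have hinj : ∀ v ∈ bcf S (MF κ (SW a Q (k + (c + 1) * M))) p,
        (algebraMap (PP κ r) S (MvPolynomial.X ⟨p, hp⟩)) ^ M • v ∈ bcf S (MF κ (SG a)) p →
        v ∈ bcf S (MF κ (SG a)) p := by
      intro v hv hv'
      have h1 : MF κ (SF r) p ⊓ (MF κ (SG a) p).comap
          (LinearMap.lsmul (PP κ r) (Lam κ r) ((MvPolynomial.X ⟨p, hp⟩ : PP κ r) ^ M)) ≤
            MF κ (SG a) p := by
        intro u hu
        exact (hbij 0).1 u hu.1 hu.2
      have h2 := baseChange_mono S h1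
      rw [baseChange_inf, baseChange_comap] at h2
      refine h2 ⟨baseChange_mono S (hSWSF _ p) hv, ?_⟩
      rw [SetLike.mem_coe, Submodule.mem_comap, hξ]
      exact hv'
    obtain ⟨w, hw, g, hg, hwg⟩ := col_step (kdeg n) (kos n L) h (kos_isCx n L).deg_eq hh1 _ hh2
      ((dC κ r).baseChange S) (bcf S (MF κ (SW a Q (k + c * M))))
      (bcf S (MF κ (SW a Q (k + (c + 1) * M)))) (bcf S (MF κ (SG a)))
      ((plt κ r p).baseChange S) ((plt κ r (p + 1)).baseChange S) p δ
      (fun q hq v hv => by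
        have := bc_congr S (plt κ r p) LinearMap.id _ (fun u hu => plt_lt (up_SW a Q _) hq u hu) v hv
        rw [this, LinearMap.baseChange_id, LinearMap.id_apply])
      (fun q hq v hv => by
        have := bc_congr S (plt κ r (p + 1)) 0 _
          (fun u hu => plt_ge (up_SW a Q _) (by push_cast; omega) u hu) v hv
        rw [this, LinearMap.baseChange_zero, LinearMap.zero_apply])
      (fun v hv => by
        have := bc_congr S (plt κ r (p + 1)) 0 _
          (fun u hu => plt_ge (up_SW a Q _) (by push_cast; omega) u hu) v hv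
        rw [this, LinearMap.baseChange_zero, LinearMap.zero_apply])
      (fun v hv => hcbc _ (hcsSW _) _ _ hv) hsurj hinj x hxU ((hFil _ _).1 hxF) hDx
    refine ⟨w, hw, Submodule.mem_sup.2 ⟨x - DB κ r S L w - g, ?_, g, hg, by abel⟩⟩
    rw [hFil]
    exact hwg

omit [IsNoetherianRing S] in
/-- TASK G3-N6: vanishing of the inclusion of levels. -/
theorem van_box (m : Fin (r + 1)) (Q : ℕ) (hQ : 1 ≤ Q) (B : ℤ) (M k : ℕ)
    (hB : ((k + (r + 1) * M : ℕ) : ℤ) * Q ≤ B) (hB' : (r : ℤ) * Q ≤ B) {n : ℕ} (L : Fin n → S)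
    (hM : ∀ l : Fin (r + 1), (algebraMap (PP κ r) S (MvPolynomial.X l)) ^ M ∈
      Ideal.span (Set.range L)) (δ : ℤ) :
    zz (DB κ r S L) (WB κ (am m Q) Q B S n k) (WI κ (am m Q) S n) δ ≤
      bb (DB κ r S L) (WB κ (am m Q) Q B S n (k + (r + 1) * M)) (WI κ (am m Q) S n) δ := by
  have hstabB : ∀ k', Stab (DB κ r S L) (WB κ (am m Q) Q B S n k') := fun k' =>
    lift_stab (kdeg n) (kos n L) (kos_isCx n L) _ _
      (VanBoxAux.cstab_bcf _ (cstab_SWB (am m Q) Q B k'))
  have hmono : ∀ c p, MF κ (SWB (am m Q) Q B k) p ≤ MF κ (SWB (am m Q) Q B (k + c)) p := by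
    intro c p
    induction c with
    | zero => exact le_rfl
    | succ c ih => exact ih.trans (SWB_mono (am m Q) Q B (k + c) p)
  intro z hz
  obtain ⟨hz1, hz2⟩ := hz
  have h1 := VanBoxAux.van_box1 (am m Q) Q hQ M k L hM δ
    (show z ∈ zz (DB κ r S L) (lift (kdeg n) (bcf S (MF κ (SW (am m Q) Q k))))
      (WI κ (am m Q) S n) δ from
      ⟨lift_mono (kdeg n) (fun p => baseChange_mono S (SWB_le_SW (am m Q) Q B k p)) δ hz1,
        hz2⟩)
  obtain ⟨b, hb, hx0⟩ := TR.mem_bb.1 h1
  have hDb : DB κ r S L b ∈ WB κ (am m Q) Q B S n (k + (r + 1) * M) (δ + 1 - 1) := by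
    rw [add_sub_cancel_right]
    have e : DB κ r S L b = z - (z - DB κ r S L b) := by abel
    rw [e]
    refine sub_mem (lift_mono (kdeg n) (fun p => baseChange_mono S (hmono _ p)) δ hz1)
      (lift_mono (kdeg n) (fun p => baseChange_mono S (SG_le_SWB (am m Q) Q B _ p)) δ hx0)
  have hex := hh_lift_eq_zero (kdeg n) (kos n L) (kos_isCx n L) ((dC κ r).baseChange S)
    VanBoxAux.dd_bc (bcf S (MF κ (SWB (am m Q) Q B (k + (r + 1) * M))))
    (bcf S (MF κ (SW (am m Q) Q (k + (r + 1) * M))))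
    (VanBoxAux.cstab_bcf _ (cstab_SWB (am m Q) Q B _))
    (VanBoxAux.cstab_bcf _ (VanBoxAux.cstab_SW (am m Q) Q _))
    (fun p => baseChange_mono S (SWB_le_SW (am m Q) Q B _ p)) (δ + 1)
    (fun a => by
      have h2 := ex_SW_SWB (κ := κ) m Q hQ B (k + (r + 1) * M) hB hB' (kdeg n a - (δ + 1))
      unfold Ex at h2 ⊢
      rw [cz_bcf, cb_bcf]
      exact baseChange_mono S h2)
  obtain ⟨b', -, hb''⟩ := hh_eq_zero_iff.1 hex b hb hDb
  refine TR.mem_bb.2 ⟨b - DB κ r S L b', hb'', ?_⟩
  rw [map_sub, VanBoxAux.DB_DB, sub_zero]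
  exact hx0

end

end Vale.Agent.P202.CharP.Gen2
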