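import Vale.Agent.P202.CharP.Gen2.PsiNorm
import Vale.Agent.P202.CharP.Gen2.VanBox
import Vale.Agent.P202.CharP.Gen2.Core3
import Vale.Agent.P202.CharP.Gen2.BoxBasic
import Vale.Agent.P202.CharP.Gen2.BoxFin
import Vale.Agent.P202.CharP.Gen2.BoxEx
import Vale.Agent.P202.CharP.Gen2.BoxEuler
import Vale.Agent.P202.CharP.MonBasic
import Vale.Agent.P202.CharP.TotBasic

/-!
P202-G3-R1: the model inequality.
-/

set_option linter.all false

namespace Vale.Agent.P202.CharP.Gen2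

open Submodule TensorProduct Gen

universe v w

namespace ModelIneq


/-- splitting of a sum over `range (r + 1)`. -/
lemma split_sum {r : ℕ} (m : Fin (r + 1)) (f : ℕ → ℤ) :
    ∑ j ∈ Finset.range (r + 1), f j =
      f 0 + ∑ j ∈ Finset.Icc 1 (m : ℕ), f j + ∑ j ∈ Finset.Icc ((m : ℕ) + 1) r, f j := by
  have h1 : Finset.Icc 1 (m : ℕ) = Finset.Ico 1 ((m : ℕ) + 1) := by
    ext x; simp only [Finset.mem_Icc, Finset.mem_Ico]; omega
  have h2 : Finset.Icc ((m : ℕ) + 1) r = Finset.Ico ((m : ℕ) + 1) (r + 1) := by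
    ext x; simp only [Finset.mem_Icc, Finset.mem_Ico]; omega
  have hm : (m : ℕ) + 1 ≤ r + 1 := m.isLt
  rw [h1, h2, Finset.range_eq_Ico,
    ← Finset.sum_Ico_consecutive f (Nat.zero_le ((m : ℕ) + 1)) hm,
    Finset.sum_eq_sum_Ico_succ_bot (Nat.succ_pos (m : ℕ)) f]

variable {κ : Type w} [Field κ] {r : ℕ}

lemma cstab_SG (a : Fin r → ℤ) : CStab (dC κ r) (MF κ (SG a)) := by
  refine cstab_MF (up_SG a) ?_
  rintro I g i ⟨h1, i', hi', h2⟩ hi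
  refine ⟨?_, i', Finset.mem_insert_of_mem hi', h2⟩
  intro j hj
  exact h1 j fun h' => hj (Finset.mem_insert_of_mem h')

/-- the signs. -/
lemma sign_le {m j : ℕ} (h : j ≤ m) : (-1 : ℤ) ^ j * ((pdeg m j).negOnePow : ℤ) = 1 := by
  unfold pdeg
  rw [if_pos h, Int.negOnePow_def]
  simp only [zpow_natCast]
  push_cast
  rw [← mul_pow]
  norm_num

lemma sign_gt {m j : ℕ} (h : m < j) : (-1 : ℤ) ^ j * ((pdeg m j).negOnePow : ℤ) = -1 := by
  unfold pdeg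
  rw [if_neg (not_le.2 h)]
  obtain ⟨i, rfl⟩ : ∃ i, j = i + 1 := ⟨j - 1, by omega⟩
  have e : ((i + 1 : ℕ) : ℤ) - 1 = (i : ℤ) := by push_cast; ring
  rw [e, Int.negOnePow_def]
  simp only [zpow_natCast]
  push_cast
  rw [pow_succ]
  have : (-1 : ℤ) ^ i * (-1) ^ i = 1 := by rw [← mul_pow]; norm_num
  linear_combination (-1 : ℤ) * this

/-- a bound for the lengths of the windows. -/
noncomputable def Dm (κ : Type w) [Field κ] {r : ℕ} (a : Fin r → ℤ) (Q : ℕ) (B : ℤ) (K : ℕ) : ℕ :=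
  ∑ j ∈ Finset.range K, ∑ p ∈ Finset.range (r + 1),
    (rl (MF κ (SWB a Q B j) (p : ℤ)) (MF κ (SWB a Q B (j + 1)) (p : ℤ))).toNat

lemma le_Dm (a : Fin r → ℤ) (Q : ℕ) (B : ℤ) (K j : ℕ) (hj : j < K) (p : ℤ) :
    (rl (MF κ (SWB a Q B j) p) (MF κ (SWB a Q B (j + 1)) p)).toNat ≤ Dm κ a Q B K := by
  by_cases hp : p < 0 ∨ ((r + 1 : ℕ) : ℤ) ≤ p
  · rw [MF_out _ p hp, MF_out _ p hp]
    simp
  · push Not at hp
    obtain ⟨p', rfl⟩ : ∃ p' : ℕ, p = p' := ⟨p.toNat, by omega⟩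
    have hp' : p' < r + 1 := by omega
    unfold Dm
    calc (rl (MF κ (SWB a Q B j) (p' : ℤ)) (MF κ (SWB a Q B (j + 1)) (p' : ℤ))).toNat
        ≤ ∑ p ∈ Finset.range (r + 1),
          (rl (MF κ (SWB a Q B j) (p : ℤ)) (MF κ (SWB a Q B (j + 1)) (p : ℤ))).toNat :=
          Finset.single_le_sum (f := fun p : ℕ =>
            (rl (MF κ (SWB a Q B j) (p : ℤ)) (MF κ (SWB a Q B (j + 1)) (p : ℤ))).toNat)
            (fun _ _ => Nat.zero_le _) (Finset.mem_range.2 hp')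
      _ ≤ _ := Finset.single_le_sum (f := fun j : ℕ => ∑ p ∈ Finset.range (r + 1),
          (rl (MF κ (SWB a Q B j) (p : ℤ)) (MF κ (SWB a Q B (j + 1)) (p : ℤ))).toNat)
          (fun _ _ => Nat.zero_le _) (Finset.mem_range.2 hj)

end ModelIneq

open ModelIneq

/-- TASK G3-R1: the model inequality, with an error independent of `c`. -/
theorem model_ineq_c {κ : Type w} [Field κ] {r : ℕ} (m : Fin (r + 1)) (Q : ℕ) (hQ : 1 ≤ Q)
    (M n' : ℕ) (hn' : r + 1 ≤ n') : ∃ C : ℕ, ∀ (S : Type v) [CommRing S] [IsNoetherianRing S]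
    [Algebra (PP κ r) S] [Module.Flat (PP κ r) S] (L : Fin n' → S)
    (_ : Module.length S (S ⧸ Ideal.span (Set.range L)) ≠ ⊤)
    (_ : ∀ l : Fin (r + 1), (algebraMap (PP κ r) S (MvPolynomial.X l)) ^ M ∈
      Ideal.span (Set.range L))
    (c lam η : ℕ) (_ : 1 ≤ c) (t : ℤ → ℕ) (_ : ∀ i, ((r + 1 : ℕ) : ℤ) < i → t i = 0)
    (rr : ℤ → ℤ) (_ : ∀ i, (t i : ℤ) = rr i + rr (i + 1))
    (_ : ∀ i, ((r + 1 : ℕ) : ℤ) < i → rr i = 0) (_ : rr 1 = t 0)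
    (_ : EstAll κ r Q S (kdeg n') (kos n' L) c lam t η),
    (lam : ℤ) * ((wc m Q 0 : ℤ) * t 0 + ∑ j ∈ Finset.Icc 1 (m : ℕ), (wc m Q j : ℤ) * rr (j + 1) -
        ∑ j ∈ Finset.Icc ((m : ℕ) + 1) r, (wc m Q j : ℤ) * rr (j + 1)) -
          (C : ℤ) * (η : ℤ) ≤
      (c : ℤ) * ((r.factorial : ℤ) * kchi L S) := by
  set M' : ℕ := max M 1 with hM'
  set N : ℕ := (r + 1) * M' with hN
  set B : ℤ := (((r + 1) + N + r + 1 : ℕ) : ℤ) * Q with hB
  have hQ0 : (0 : ℤ) ≤ Q := by positivity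
  have hBk : ∀ k : ℕ, k ≤ (r + 1) + N + r + 1 → (k : ℤ) * Q ≤ B := fun k hk => by
    rw [hB]
    exact mul_le_mul_of_nonneg_right (by exact_mod_cast hk) hQ0
  have hB0 : 0 ≤ B := by rw [hB]; positivity
  have hBr : (r : ℤ) * Q ≤ B := hBk r (by omega)
  set D : ℕ := Dm κ (am m Q) Q B ((r + 1) + N) with hD
  refine ⟨(((r + 1) + n' + 1) * ((r + 1) + N) * ((r + 1) + 3) +
    (r + 1) * (r + 1) * (n' + 1)) * D, ?_⟩
  intro S _ _ _ _ L hL hLM c lam η hc t ht rr hrr hrr' hrr1 hE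
  have hLM' : ∀ l : Fin (r + 1), (algebraMap (PP κ r) S (MvPolynomial.X l)) ^ M' ∈
      Ideal.span (Set.range L) := fun l => by
    obtain ⟨e, he⟩ := Nat.exists_eq_add_of_le (le_max_left M 1)
    rw [hM', he, pow_add]
    exact Ideal.mul_mem_right _ _ (hLM l)
  obtain ⟨low, fin, bot⟩ := bottom_box (κ := κ) m Q hQ B hBr hB0 L hL
  have van := fun δ => van_box (κ := κ) m Q hQ B M' (r + 1) (hBk _ (by omega)) hBr L hLM' δ
  have key := core3_c S (kdeg n') (kos n' L) (kos_isCx n' L) (r + 1) n' (by omega) hn'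
    (kdeg_range n') (dC κ r) dC_dC N (fun j => MF κ (SWB (am m Q) Q B j))
    (fun j => cstab_SWB _ _ _ _) (fun j p => SWB_mono _ _ _ _ _) (MF κ (SG (am m Q)))
    (cstab_SG _) (fun p => SG_le_SWB _ _ _ _ _)
    (fun j p hp => by rw [MF_out _ p hp]; exact bot_le)
    (fun j => pos r m j)
    (fun j hj => by
      unfold pos pdeg
      rw [if_pos hj]
      split_ifs <;> omega)
    (fun j hj => by
      unfold pos
      rw [if_neg (not_lt.2 hj)]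
      push_cast
      ring)
    (fun j hj p hp => ex_SWB m Q hQ B j p hp)
    c lam hc t ht rr hrr hrr' (D * η)
    (fun j hj p => by
      refine ⟨rl_SWB _ _ _ _ _, ?_⟩
      intro X Y hX hXY hY i
      have h1 : rl X Y ≤ rl (MF κ (SWB (am m Q) Q B j) p) (MF κ (SWB (am m Q) Q B (j + 1)) p) :=
        (rl_anti_left hX).trans (rl_mono_right hY)
      have h2 : rl X Y ≠ ⊤ := fun h => rl_SWB (κ := κ) (am m Q) Q B j p (top_le_iff.1 (h ▸ h1))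
      have h3 : (mX κ r) ^ Q • Y ≤ X :=
        (Submodule.smul_mono le_rfl hY).trans ((push_SWB _ _ _ _ _).trans hX)
      obtain ⟨h4, h5⟩ := hE X Y hXY h3 h2 i
      refine ⟨h4, h5.trans ?_⟩
      have h6 : (rl X Y).toNat ≤ D :=
        (ENat.toNat_le_toNat h1 (rl_SWB _ _ _ _ _)).trans (le_Dm _ _ _ _ _ hj _)
      push_cast
      exact mul_le_mul_of_nonneg_right (by exact_mod_cast h6) (by positivity))
    low fin (fun δ _ => van δ)
  have bot' : ∑ i ∈ Finset.range (n' + 1), (-1 : ℤ) ^ i *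
      ((hh (tot (kdeg n') (kos n' L) ((dC κ r).baseChange S))
        (lift (kdeg n') (bcf S (MF κ (SWB (am m Q) Q B 0))))
        (lift (kdeg n') (bcf S (MF κ (SG (am m Q))))) (i : ℤ)).toNat : ℤ) =
      (r.factorial : ℤ) * kchi L S := bot
  rw [bot'] at key
  have eul : ∀ j ∈ Finset.range (r + 1), (-1 : ℤ) ^ j * (lam : ℤ) *
      (∑ p ∈ Finset.range (r + 1), (-1 : ℤ) ^ p *
        ((rl (MF κ (SWB (am m Q) Q B j) (p : ℤ))
          (MF κ (SWB (am m Q) Q B (j + 1)) (p : ℤ))).toNat : ℤ)) * rr (j + 1) =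
      (lam : ℤ) * (((-1 : ℤ) ^ j * ((pdeg m j).negOnePow : ℤ)) * ((wc m Q j : ℤ) * rr (j + 1))) := by
    intro j hj
    have hj' := Finset.mem_range.1 hj
    rw [euler_SWB m Q hQ B j (hBk _ (by omega)) hBr hj']
    ring
  rw [Finset.sum_congr rfl eul, ← Finset.mul_sum, split_sum m, sign_le (Nat.zero_le _)] at key
  have s1 : ∑ j ∈ Finset.Icc 1 (m : ℕ),
      ((-1 : ℤ) ^ j * ((pdeg m j).negOnePow : ℤ)) * ((wc m Q j : ℤ) * rr (j + 1)) =
      ∑ j ∈ Finset.Icc 1 (m : ℕ), (wc m Q j : ℤ) * rr (j + 1) :=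
    Finset.sum_congr rfl fun j hj => by
      rw [sign_le (Finset.mem_Icc.1 hj).2, one_mul]
  have s2 : ∑ j ∈ Finset.Icc ((m : ℕ) + 1) r,
      ((-1 : ℤ) ^ j * ((pdeg m j).negOnePow : ℤ)) * ((wc m Q j : ℤ) * rr (j + 1)) =
      - ∑ j ∈ Finset.Icc ((m : ℕ) + 1) r, (wc m Q j : ℤ) * rr (j + 1) := by
    rw [← Finset.sum_neg_distrib]
    refine Finset.sum_congr rfl fun j hj => ?_
    have := (Finset.mem_Icc.1 hj).1
    rw [sign_gt (by omega)]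
    ring
  rw [s1, s2] at key
  have e0 : rr (((0 : ℕ) : ℤ) + 1) = t 0 := by
    rw [← hrr1]
    norm_num
  rw [e0, one_mul] at key
  have hCη : ((((r + 1 : ℕ) : ℤ) + n' + 1) * (((r + 1 : ℕ) : ℤ) + N) *
      (((r + 1 : ℕ) : ℤ) + 3) + ((r + 1 : ℕ) : ℤ) * ((r + 1 : ℕ) : ℤ) * (n' + 1)) *
        ((D * η : ℕ) : ℤ) =
      (((((r + 1) + n' + 1) * ((r + 1) + N) * ((r + 1) + 3) +
        (r + 1) * (r + 1) * (n' + 1)) * D : ℕ) : ℤ) * (η : ℤ) := by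
    push_cast
    ring
  linarith [key, hCη]

/-- TASK G3-R1: the model inequality. -/
theorem model_ineq {κ : Type w} [Field κ] {r : ℕ} (m : Fin (r + 1)) (Q : ℕ) (hQ : 1 ≤ Q)
    (M n' : ℕ) (hn' : r + 1 ≤ n') : ∃ C : ℕ, ∀ (S : Type v) [CommRing S] [IsNoetherianRing S]
    [Algebra (PP κ r) S] [Module.Flat (PP κ r) S] (L : Fin n' → S)
    (_ : Module.length S (S ⧸ Ideal.span (Set.range L)) ≠ ⊤)
    (_ : ∀ l : Fin (r + 1), (algebraMap (PP κ r) S (MvPolynomial.X l)) ^ M ∈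
      Ideal.span (Set.range L))
    (c lam η : ℕ) (_ : 1 ≤ c) (t : ℤ → ℕ) (_ : ∀ i, ((r + 1 : ℕ) : ℤ) < i → t i = 0)
    (rr : ℤ → ℤ) (_ : ∀ i, (t i : ℤ) = rr i + rr (i + 1))
    (_ : ∀ i, ((r + 1 : ℕ) : ℤ) < i → rr i = 0) (_ : rr 1 = t 0)
    (_ : EstAll κ r Q S (kdeg n') (kos n' L) c lam t η),
    (lam : ℤ) * ((wc m Q 0 : ℤ) * t 0 + ∑ j ∈ Finset.Icc 1 (m : ℕ), (wc m Q j : ℤ) * rr (j + 1) -
        ∑ j ∈ Finset.Icc ((m : ℕ) + 1) r, (wc m Q j : ℤ) * rr (j + 1)) -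
          (C : ℤ) * ((c : ℤ) * η) ≤
      (c : ℤ) * ((r.factorial : ℤ) * kchi L S) := by
  obtain ⟨C, hC⟩ := model_ineq_c (κ := κ) m Q hQ M n' hn'
  refine ⟨C, ?_⟩
  intro S _ _ _ _ L hL hLM c lam η hc t ht rr hrr hrr' hrr1 hE
  refine le_trans ?_ (hC S L hL hLM c lam η hc t ht rr hrr hrr' hrr1 hE)
  have hc1 : (1 : ℤ) ≤ c := by exact_mod_cast hc
  have h0 : (0 : ℤ) ≤ (C : ℤ) * (η : ℤ) := by positivity
  have h1 := mul_le_mul_of_nonneg_right hc1 h0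
  have h2 : (C : ℤ) * (η : ℤ) ≤ (C : ℤ) * ((c : ℤ) * η) := by linarith
  linarith

end Vale.Agent.P202.CharP.Gen2
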