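import Vale.Agent.P202.CharP.Gen.Defs

/-!
P202-G3, definitions for the homological core.
-/

namespace Vale.Agent.P202.CharP.Gen2

open Submodule TensorProduct

/-- the homology of `Q ⊗ (Y / X)` is, up to the error `ε`, that of a module of multiplicity
`lam` times the length of `Y / X` with Betti numbers `t`; `c` is a normalization of the length. -/
def Est {P : Type*} [CommRing P] {V : Type*} [AddCommGroup V] [Module P V]
    (S : Type*) [CommRing S] [Algebra P S] {ι : Type*} [Fintype ι] (deg : ι → ℤ)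
    (Q : Matrix ι ι S) (c lam : ℕ) (t : ℤ → ℕ) (ε : ℕ) (X₀ Y₀ : Submodule P V) : Prop :=
  rl X₀ Y₀ ≠ ⊤ ∧ ∀ X Y : Submodule P V, X₀ ≤ X → X ≤ Y → Y ≤ Y₀ → ∀ i : ℤ,
    khs deg Q (Y.baseChange S) (X.baseChange S) i ≠ ⊤ ∧
    |(c : ℤ) * ((khs deg Q (Y.baseChange S) (X.baseChange S) i).toNat : ℤ) -
      (lam : ℤ) * ((rl X Y).toNat : ℤ) * (t i : ℤ)| ≤ (ε : ℤ)

end Vale.Agent.P202.CharP.Gen2
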