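import Vale.Agent.P202.CharP.Gen2.DefsC

/-!
P202-G3, definitions for the estimate of Koszul homology: product Koszul matrix, the Koszul
complex over the small ring.
-/

namespace Vale.Agent.P202.CharP.Gen2

open Submodule TensorProduct IsLocalRing Gen

/-- degree on `KIdx n × KIdx n`. -/
def pdegP (n : ℕ) (x : KIdx n × KIdx n) : ℤ := kdeg n x.1 + kdeg n x.2

/-- the product of the Koszul matrices of `y` (outer) and `u` (inner). -/
def pm (n : ℕ) {S : Type*} [CommRing S] (y u : Fin n → S) :
    Matrix (KIdx n × KIdx n) (KIdx n × KIdx n) S := fun x x' =>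
  (if x.2 = x'.2 then kos n y x.1 x'.1 else 0) +
    (if x.1 = x'.1 then (((kdeg n x.1).negOnePow : ℤ) : S) * kos n u x.2 x'.2 else 0)

section

variable (A : Type*) {P Om : Type*} [CommRing A] [CommRing P] [CommRing Om] [Algebra A Om]
  [Algebra P Om] [SMulCommClass P A Om] {V : Type*} [AddCommGroup V] [Module P V]

/-- the Koszul differential of `u` on `Ω ⊗ V`, seen as an `A`-linear map. -/
noncomputable def DA (V : Type*) [AddCommGroup V] [Module P V] {n : ℕ} (u : Fin n → Om) :
    (KIdx n → Om ⊗[P] V) →ₗ[A] (KIdx n → Om ⊗[P] V) :=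
  (act (kos n u) (Om ⊗[P] V)).restrictScalars A

/-- the Koszul complex of `Ω ⊗ Y`, degree `p` is the Koszul degree `-p`. -/
noncomputable def KA (Om : Type*) [CommRing Om] [Algebra A Om] [Algebra P Om]
    [SMulCommClass P A Om] (n : ℕ) (Y : Submodule P V) (p : ℤ) :
    Submodule A (KIdx n → Om ⊗[P] V) :=
  (lift (kdeg n) (conc (Y.baseChange Om)) (-p)).restrictScalars A

/-- length over `A` of the Koszul homology of `Ω ⊗ (Y / X)` in degree `b`. -/
noncomputable def hA {n : ℕ} (u : Fin n → Om) (Y X : Submodule P V) (b : ℤ) : ℕ∞ :=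
  hc (DA A V u) (KA A Om n Y) (KA A Om n X) (-b)

end

/-- concatenation of two lists of elements, first `y`, then `u`. -/
def cat {S : Type*} {m : ℕ} (u : Fin m → S) : ∀ k : ℕ, (Fin k → S) → (Fin (m + k) → S)
  | 0, _ => u
  | k + 1, y => Fin.cons (y 0) (cat u k fun i => y i.succ)

/-- the Koszul complex of `Y`, degree `p` is the Koszul degree `-p`. -/
def KF {S : Type*} [CommRing S] {M : Type*} [AddCommGroup M] [Module S M] (n : ℕ)
    (Y : Submodule S M) (p : ℤ) : Submodule S (KIdx n → M) := lift (kdeg n) (conc Y) (-p)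

section

variable (r : ℕ) {A' : Type*} [CommRing A']

/-- the elements `z_l - X_l`. -/
noncomputable def uz (z : Fin (r + 1) → A') (l : Fin (r + 1)) :
    MvPolynomial (Fin (r + 1)) A' := MvPolynomial.C (z l) - MvPolynomial.X l

end

end Vale.Agent.P202.CharP.Gen2
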