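import Vale.Agent.P202.CharP.Gen2.DefsL
import Vale.Agent.P202.CharP.Gen2.DefsG

/-!
P202-G3, the rings `Ω = A'[X_0, .., X_r]` and `Σ = (S ⊗ A')[X_0, .., X_r]`.
-/

namespace Vale.Agent.P202.CharP.Gen2

open Submodule TensorProduct IsLocalRing Gen

universe u

/-- the ring `A'[X_0, .., X_r]`, an algebra over `F_p[X_0, .., X_r]`. -/
def OmR (p r : ℕ) (A' : Type u) [CommRing A'] : Type u :=
  (fun _ : ℕ => MvPolynomial (Fin (r + 1)) A') p

/-- the ring `(S ⊗ A')[X_0, .., X_r]`. -/
def SgR (p r : ℕ) (A S A' : Type u) [CommRing A] [CommRing S] [CommRing A'] [Algebra A S]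
    [Algebra A A'] : Type u := (fun _ : ℕ => MvPolynomial (Fin (r + 1)) (S ⊗[A] A')) p

section

variable (p r : ℕ) [Fact p.Prime] (A S A' : Type u) [CommRing A] [CommRing S] [CommRing A']
  [Algebra A S] [Algebra A A']

noncomputable instance : CommRing (OmR p r A') :=
  inferInstanceAs (CommRing (MvPolynomial (Fin (r + 1)) A'))

noncomputable instance : CommRing (SgR p r A S A') :=
  inferInstanceAs (CommRing (MvPolynomial (Fin (r + 1)) (S ⊗[A] A')))

noncomputable instance : Algebra A' (OmR p r A') :=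
  inferInstanceAs (Algebra A' (MvPolynomial (Fin (r + 1)) A'))

noncomputable instance : Algebra A (OmR p r A') :=
  inferInstanceAs (Algebra A (MvPolynomial (Fin (r + 1)) A'))

noncomputable instance : Algebra A (SgR p r A S A') :=
  inferInstanceAs (Algebra A (MvPolynomial (Fin (r + 1)) (S ⊗[A] A')))

noncomputable instance : Algebra S (SgR p r A S A') :=
  inferInstanceAs (Algebra S (MvPolynomial (Fin (r + 1)) (S ⊗[A] A')))

/-- the map `F_p[X] → A'[X]`. -/
noncomputable def toOm [CharP A' p] : PP (ZMod p) r →+* OmR p r A' :=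
  MvPolynomial.map (ZMod.castHom (dvd_refl p) A')

/-- the map `A'[X] → (S ⊗ A')[X]`. -/
noncomputable def toSg : OmR p r A' →+* SgR p r A S A' :=
  MvPolynomial.map (Algebra.TensorProduct.includeRight : A' →ₐ[A] S ⊗[A] A').toRingHom

noncomputable instance [CharP A' p] : Algebra (PP (ZMod p) r) (OmR p r A') :=
  (toOm p r A').toAlgebra

noncomputable instance : Algebra (OmR p r A') (SgR p r A S A') := (toSg p r A S A').toAlgebra

noncomputable instance [CharP A' p] : Algebra (PP (ZMod p) r) (SgR p r A S A') :=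
  ((toSg p r A S A').comp (toOm p r A')).toAlgebra

/-- constants. -/
noncomputable def cOm : A' →+* OmR p r A' := MvPolynomial.C

/-- constants. -/
noncomputable def cSg : (S ⊗[A] A') →+* SgR p r A S A' := MvPolynomial.C

/-- variables. -/
noncomputable def xOm (l : Fin (r + 1)) : OmR p r A' :=
  (MvPolynomial.X l : MvPolynomial (Fin (r + 1)) A')

variable {A'} in
/-- the elements `z_l - X_l`. -/
noncomputable def vz (z : Fin (r + 1) → A') (l : Fin (r + 1)) : OmR p r A' :=
  cOm p r A' (z l) - xOm p r A' l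

variable {S A'} in
/-- the list `(y, z - X)` in `Σ`. -/
noncomputable def LL (y : Fin (r + 1) → S) (z : Fin (r + 1) → A') :
    Fin ((r + 1) + (r + 1)) → SgR p r A S A' :=
  cat (fun l => algebraMap (OmR p r A') (SgR p r A S A') (vz p r z l)) (r + 1)
    fun l => algebraMap S (SgR p r A S A') (y l)

end

end Vale.Agent.P202.CharP.Gen2
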