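import Vale.Agent.P202.CharP.Gen2.DefsC

/-!
P202-G3-C1: acyclicity up to a shift of the level, column by column, elementwise.
-/

namespace Vale.Agent.P202.CharP.Gen2

open Submodule TensorProduct Gen

section GA

variable {S : Type*} [CommRing S] {𝕋 : Type*} [AddCommGroup 𝕋] [Module S 𝕋]

/-- TASK G3-C1: acyclicity up to a shift of the level, column by column, relative to a bottom
family `X`, elementwise. -/
theorem gacyc_el (D : 𝕋 →ₗ[S] 𝕋) (hD : ∀ x, D (D x) = 0)
    (X : ℤ → Submodule S 𝕋) (hX : Stab D X) (U : ℕ → ℤ → Submodule S 𝕋)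
    (hU : ∀ k, Stab D (U k)) (mono : ∀ k δ, U k δ ≤ U (k + 1) δ) (hXU : ∀ δ, X δ ≤ U 0 δ)
    (r1 : ℕ) (Fil : ℕ → Submodule S 𝕋) (h0 : Fil 0 = ⊤) (h1 : ∀ k δ, U k δ ⊓ Fil r1 ≤ X δ)
    (hF : ∀ p, ∀ x ∈ Fil p, D x ∈ Fil p)
    (H : ∀ p, p < r1 → ∀ k δ, ∀ x ∈ U k δ, x ∈ Fil p → D x ∈ X (δ - 1) →
      ∃ w ∈ U (k + 1) (δ + 1), x - D w ∈ Fil (p + 1) ⊔ X δ) (δ : ℤ) :
    zz D (U 0) X δ ≤ bb D (U r1) X δ := by
  clear hF
  have mono0 : ∀ k δ, U 0 δ ≤ U k δ := by
    intro k δ
    induction k with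
    | zero => exact le_rfl
    | succ k ih => exact ih.trans (mono k δ)
  intro z hz
  obtain ⟨hz0, hz1⟩ := Submodule.mem_inf.1 hz
  have hDz : D z ∈ X (δ - 1) := hz1
  have key : ∀ p, p ≤ r1 → ∃ w ∈ U p (δ + 1), ∃ f ∈ U p δ, f ∈ Fil p ∧
      ∃ x ∈ X δ, z - D w = f + x := by
    intro p
    induction p with
    | zero =>
      intro _
      refine ⟨0, Submodule.zero_mem _, z, hz0, ?_, 0, Submodule.zero_mem _, ?_⟩
      · rw [h0]
        exact Submodule.mem_top
      · rw [map_zero, sub_zero, add_zero]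
    | succ p ih =>
      intro hp
      obtain ⟨w, hw, f, hfU, hfF, x, hx, e⟩ := ih (by omega)
      have hDf : D f ∈ X (δ - 1) := by
        have e1 : D f = D z - D x := by
          have e2 := congrArg D e
          rw [map_sub, hD, sub_zero, map_add] at e2
          rw [e2]
          abel
        rw [e1]
        exact Submodule.sub_mem _ hDz (hX δ x hx)
      obtain ⟨v, hv, hfv⟩ := H p (by omega) p δ f hfU hfF hDf
      have hw' : w + v ∈ U (p + 1) (δ + 1) :=
        Submodule.add_mem _ (mono p (δ + 1) hw) hv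
      obtain ⟨f', hf', x', hx', e'⟩ := Submodule.mem_sup.1 hfv
      have hx'' : x' + x ∈ X δ := Submodule.add_mem _ hx' hx
      have e3 : z - D (w + v) = f' + (x' + x) := by
        have e4 : z - D (w + v) = (z - D w) - D v := by
          rw [map_add]
          abel
        have e5 : f' + (x' + x) = (f' + x') + x := by abel
        rw [e4, e, e5, e']
        abel
      refine ⟨w + v, hw', f', ?_, hf', x' + x, hx'', e3⟩
      have e6 : f' = (z - D (w + v)) - (x' + x) := by
        rw [e3]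
        abel
      rw [e6]
      refine Submodule.sub_mem _ (Submodule.sub_mem _ (mono0 _ _ hz0) ?_)
        (mono0 _ _ (hXU _ hx''))
      have h3 := hU (p + 1) (δ + 1) _ hw'
      rwa [add_sub_cancel_right] at h3
  obtain ⟨w, hw, f, hfU, hfF, x, hx, e⟩ := key r1 le_rfl
  have hfX : f ∈ X δ := h1 r1 δ (Submodule.mem_inf.2 ⟨hfU, hfF⟩)
  have e1 : z = D w + (f + x) := by
    rw [← e]
    abel
  rw [e1]
  exact Submodule.add_mem _ (Submodule.mem_sup_left (Submodule.mem_map_of_mem hw))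
    (Submodule.mem_sup_right (Submodule.add_mem _ hfX hx))

end GA

end Vale.Agent.P202.CharP.Gen2
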