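import Vale.Agent.P202.CharP.Gen2.DefsG
import Vale.Agent.P202.CharP.KBasic

/-!
P202-G3, normalization: finiteness, additivity and vanishing of the Koszul Euler characteristic
of `S ⊗ N` for finite modules `N` over the polynomial ring.
-/

namespace Vale.Agent.P202.CharP.Gen2

open Submodule TensorProduct Gen

universe u v w

section Norm

variable {κ : Type w} [Field κ] {r : ℕ} {S : Type v} [CommRing S] [IsNoetherianRing S]
  [Algebra (PP κ r) S]

/-- TASK G3-N1: finiteness. -/
theorem kk_tensor_ne_top {n : ℕ} (L : Fin n → S)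
    (hL : Module.length S (S ⧸ Ideal.span (Set.range L)) ≠ ⊤) (N : Type*) [AddCommGroup N]
    [Module (PP κ r) N] [Module.Finite (PP κ r) N] (i : ℤ) :
    kk L (S ⊗[PP κ r] N) i ≠ ⊤ := by
  have h1 : IsArtinian S (S ⧸ Ideal.span (Set.range L)) :=
    (isFiniteLength_iff_isNoetherian_isArtinian.mp (Module.length_ne_top_iff.mp hL)).2
  have h2 : IsArtinianRing (S ⧸ Ideal.span (Set.range L)) := isArtinian_of_tower S h1
  refine kk_ne_top L _ ?_ i
  refine length_ne_top_of_quot (Ideal.span (Set.range L)) ?_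
  intro a ha v
  obtain ⟨m, rfl⟩ := Submodule.Quotient.mk_surjective _ v
  rw [← Submodule.Quotient.mk_smul, Submodule.Quotient.mk_eq_zero]
  exact Submodule.smul_mem_smul ha trivial

variable [Module.Flat (PP κ r) S]

/-- TASK G3-N1: additivity. -/
theorem kchi_tensor_add {n : ℕ} (L : Fin n → S)
    (hL : Module.length S (S ⧸ Ideal.span (Set.range L)) ≠ ⊤) {N₁ N₂ N₃ : Type*}
    [AddCommGroup N₁] [AddCommGroup N₂] [AddCommGroup N₃] [Module (PP κ r) N₁]
    [Module (PP κ r) N₂] [Module (PP κ r) N₃] [Module.Finite (PP κ r) N₁]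
    [Module.Finite (PP κ r) N₂] [Module.Finite (PP κ r) N₃] (f : N₁ →ₗ[PP κ r] N₂)
    (g : N₂ →ₗ[PP κ r] N₃) (hf : Function.Injective f) (hg : Function.Surjective g)
    (hfg : Function.Exact f g) :
    kchi L (S ⊗[PP κ r] N₂) = kchi L (S ⊗[PP κ r] N₁) + kchi L (S ⊗[PP κ r] N₃) := by
  refine kchi_add L (f.baseChange S) (g.baseChange S) ?_ ?_ ?_
    (fun i => kk_tensor_ne_top L hL N₁ i) (fun i => kk_tensor_ne_top L hL N₂ i)
    (fun i => kk_tensor_ne_top L hL N₃ i)
  · rw [LinearMap.baseChange_eq_ltensor]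
    exact Module.Flat.lTensor_preserves_injective_linearMap f hf
  · rw [LinearMap.baseChange_eq_ltensor]
    exact LinearMap.lTensor_surjective S hg
  · rw [LinearMap.baseChange_eq_ltensor, LinearMap.baseChange_eq_ltensor]
    exact lTensor_exact S hfg hg

namespace PsiAdd

/-- the ideal of `P` of the polynomials all of whose coefficients with respect to the first
variable lie in the prime ideal. -/
noncomputable def JJ (I : Ideal (PP κ r)) : Ideal (PP κ r) :=
  ((I.comap (MvPolynomial.rename (Fin.succ : Fin r → Fin (r + 1))).toRingHom).map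
    (Polynomial.C : MvPolynomial (Fin r) κ →+* Polynomial (MvPolynomial (Fin r) κ))).comap
    (MvPolynomial.finSuccEquiv κ r).toRingHom

theorem mem_JJ {I : Ideal (PP κ r)} {f : PP κ r} : f ∈ JJ I ↔
    ∀ k, MvPolynomial.rename (Fin.succ : Fin r → Fin (r + 1))
      ((MvPolynomial.finSuccEquiv κ r f).coeff k) ∈ I := by
  unfold JJ
  rw [Ideal.mem_comap]
  exact Ideal.mem_map_C_iff

theorem symm_C (a : MvPolynomial (Fin r) κ) :
    (MvPolynomial.finSuccEquiv κ r).symm (Polynomial.C a) =
      MvPolynomial.rename (Fin.succ : Fin r → Fin (r + 1)) a := by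
  rw [AlgEquiv.symm_apply_eq]
  induction a using MvPolynomial.induction_on with
  | C c =>
    rw [MvPolynomial.rename_C, MvPolynomial.finSuccEquiv_apply, MvPolynomial.eval₂Hom_C]
    rfl
  | add p q hp hq => rw [map_add, map_add, map_add, hp, hq]
  | mul_X p i hp =>
    rw [map_mul, map_mul, map_mul, hp, MvPolynomial.rename_X, MvPolynomial.finSuccEquiv_X_succ]

theorem symm_X : (MvPolynomial.finSuccEquiv κ r).symm Polynomial.X =
    (MvPolynomial.X 0 : PP κ r) := by
  rw [AlgEquiv.symm_apply_eq, MvPolynomial.finSuccEquiv_X_zero]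

theorem JJ_le (I : Ideal (PP κ r)) : JJ I ≤ I := by
  intro f hf
  rw [mem_JJ] at hf
  have h : f = ∑ k ∈ (MvPolynomial.finSuccEquiv κ r f).support,
      MvPolynomial.rename (Fin.succ : Fin r → Fin (r + 1))
        ((MvPolynomial.finSuccEquiv κ r f).coeff k) * (MvPolynomial.X 0 : PP κ r) ^ k := by
    apply (MvPolynomial.finSuccEquiv κ r).injective
    rw [map_sum]
    conv_lhs => rw [(MvPolynomial.finSuccEquiv κ r f).as_sum_support_C_mul_X_pow]
    refine Finset.sum_congr rfl fun k _ => ?_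
    rw [map_mul, map_pow, MvPolynomial.finSuccEquiv_X_zero, ← symm_C,
      AlgEquiv.apply_symm_apply]
  rw [h]
  exact Ideal.sum_mem _ fun k _ => Ideal.mul_mem_right _ _ (hf k)

theorem JJ_X {I : Ideal (PP κ r)} {f : PP κ r} (h : (MvPolynomial.X 0 : PP κ r) * f ∈ JJ I) :
    f ∈ JJ I := by
  rw [mem_JJ] at h ⊢
  intro k
  have h1 := h (k + 1)
  rwa [map_mul, MvPolynomial.finSuccEquiv_X_zero, Polynomial.coeff_X_mul] at h1

theorem JJ_decomp {I : Ideal (PP κ r)} (hX : (MvPolynomial.X 0 : PP κ r) ∈ I) {f : PP κ r}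
    (hf : f ∈ I) : ∃ g : PP κ r, f - (MvPolynomial.X 0 : PP κ r) * g ∈ JJ I := by
  refine ⟨(MvPolynomial.finSuccEquiv κ r).symm (MvPolynomial.finSuccEquiv κ r f).divX, ?_⟩
  have h1 : f - (MvPolynomial.X 0 : PP κ r) *
      (MvPolynomial.finSuccEquiv κ r).symm (MvPolynomial.finSuccEquiv κ r f).divX =
      MvPolynomial.rename (Fin.succ : Fin r → Fin (r + 1))
        ((MvPolynomial.finSuccEquiv κ r f).coeff 0) := by
    apply (MvPolynomial.finSuccEquiv κ r).injective
    rw [map_sub, map_mul, AlgEquiv.apply_symm_apply, MvPolynomial.finSuccEquiv_X_zero,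
      ← symm_C, AlgEquiv.apply_symm_apply, sub_eq_iff_eq_add']
    exact (Polynomial.X_mul_divX_add _).symm
  have h2 : MvPolynomial.rename (Fin.succ : Fin r → Fin (r + 1))
      ((MvPolynomial.finSuccEquiv κ r f).coeff 0) ∈ I := by
    rw [← h1]
    exact I.sub_mem hf (I.mul_mem_right _ hX)
  have h3 : ∀ a : MvPolynomial (Fin r) κ, MvPolynomial.finSuccEquiv κ r
      (MvPolynomial.rename (Fin.succ : Fin r → Fin (r + 1)) a) = Polynomial.C a := by
    intro a
    rw [← symm_C, AlgEquiv.apply_symm_apply]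
  rw [mem_JJ]
  intro k
  rw [h1, h3, Polynomial.coeff_C]
  split_ifs
  · exact h2
  · rw [map_zero]
    exact I.zero_mem

/-- vanishing for cyclic modules. -/
theorem kchi_quot {n : ℕ} (L : Fin n → S)
    (hL : Module.length S (S ⧸ Ideal.span (Set.range L)) ≠ ⊤) (I : Ideal (PP κ r))
    (hX : (MvPolynomial.X 0 : PP κ r) ∈ I) : kchi L (S ⊗[PP κ r] (PP κ r ⧸ I)) = 0 := by
  have h := kchi_tensor_add L hL
    (((LinearMap.lsmul (PP κ r) (PP κ r ⧸ JJ I)) (MvPolynomial.X 0 : PP κ r)))
    (Submodule.factor (JJ_le I)) ?_ (Submodule.factor_surjective (JJ_le I)) ?_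
  · linarith
  · rw [injective_iff_map_eq_zero]
    intro x hx
    obtain ⟨f, rfl⟩ := Submodule.Quotient.mk_surjective _ x
    rw [LinearMap.lsmul_apply, ← Submodule.Quotient.mk_smul, Submodule.Quotient.mk_eq_zero] at hx
    rw [Submodule.Quotient.mk_eq_zero]
    exact JJ_X hx
  · intro x
    obtain ⟨f, rfl⟩ := Submodule.Quotient.mk_surjective _ x
    constructor
    · intro hx
      have hf : f ∈ I := by
        rw [← Submodule.Quotient.mk_eq_zero I]
        exact hx
      obtain ⟨g, hg⟩ := JJ_decomp hX hf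
      refine ⟨Submodule.Quotient.mk g, ?_⟩
      rw [LinearMap.lsmul_apply, ← Submodule.Quotient.mk_smul, eq_comm, ← sub_eq_zero,
        ← Submodule.Quotient.mk_sub, Submodule.Quotient.mk_eq_zero]
      exact hg
    · rintro ⟨y, hy⟩
      obtain ⟨g, rfl⟩ := Submodule.Quotient.mk_surjective _ y
      rw [← hy, LinearMap.lsmul_apply, ← Submodule.Quotient.mk_smul]
      change Submodule.Quotient.mk ((MvPolynomial.X 0 : PP κ r) • g) = 0
      rw [Submodule.Quotient.mk_eq_zero]
      exact I.mul_mem_right _ hX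

end PsiAdd

open PsiAdd in
/-- TASK G3-N2: vanishing for modules killed by a power of the variable `X 0`. -/
theorem kchi_tensor_eq_zero {n : ℕ} (L : Fin n → S)
    (hL : Module.length S (S ⧸ Ideal.span (Set.range L)) ≠ ⊤) (N : Type u) [AddCommGroup N]
    [Module (PP κ r) N] [Module.Finite (PP κ r) N] (c : ℕ)
    (hN : ∀ v : N, (MvPolynomial.X 0 : PP κ r) ^ c • v = 0) :
    kchi L (S ⊗[PP κ r] N) = 0 := by
  have hfin : Module.Finite (PP κ r) N := inferInstance
  revert hN
  induction hfin using IsNoetherianRing.induction_on_isQuotientEquivQuotientPrime (PP κ r) with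
  | subsingleton N =>
    intro _
    have h := kchi_tensor_add (κ := κ) (r := r) L hL (N₁ := N) (N₂ := N) (N₃ := N)
      LinearMap.id LinearMap.id
      Function.injective_id Function.surjective_id
      (fun x => ⟨fun _ => ⟨x, rfl⟩, fun _ => Subsingleton.elim _ _⟩)
    linarith
  | quotient N p e =>
    intro hN
    have h1 : (MvPolynomial.X 0 : PP κ r) ^ c ∈ p.1 := by
      have h2 := hN (e.symm (Ideal.Quotient.mk p.1 1))
      have h3 := congrArg e h2
      rw [map_smul, LinearEquiv.apply_symm_apply, map_zero] at h3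
      rw [← Ideal.Quotient.eq_zero_iff_mem, ← h3]
      rw [← Ideal.Quotient.mk_eq_mk, ← Ideal.Quotient.mk_eq_mk, ← Submodule.Quotient.mk_smul,
        smul_eq_mul, mul_one]
    rw [kchi_congr L (e.baseChange (PP κ r) S _ _)]
    exact kchi_quot L hL p.1 (p.2.mem_of_pow_mem _ h1)
  | exact N₁ N₂ N₃ f g hf hg hfg h₁ h₃ =>
    intro hN
    rw [kchi_tensor_add L hL f g hf hg hfg, h₁ ?_, h₃ ?_, add_zero]
    · intro v
      obtain ⟨w, rfl⟩ := hg v
      rw [← map_smul, hN, map_zero]
    · intro v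
      apply hf
      rw [map_smul, hN, map_zero]

end Norm

end Vale.Agent.P202.CharP.Gen2
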