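import Vale.Agent.P202.CharP.NMod

/-!
P202-G3-N3: the Ulrich module is free (dimension count degree by degree).
-/

namespace Vale.Agent.P202.CharP.Gen2

open Submodule TensorProduct

namespace UlFree

open NMod

variable {κ : Type*} [Field κ] {r : ℕ}

lemma cf_X_deg (l : Fin (r + 1)) {f : Lau κ r} {t : ℤ} (hf : ∀ g, cf f g ≠ 0 → g.2 = t) :
    ∀ g, cf ((MvPolynomial.X l : PP κ r) • f) g ≠ 0 → g.2 = t + 1 := by
  intro g hg
  rw [cf_X_smul] at hg
  obtain ⟨L, _, hL⟩ := Finset.exists_ne_zero_of_sum_ne_zero hg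
  have h1 := hf _ hL
  have h2 : (g - ex L).2 = g.2 - 1 := rfl
  rw [h2] at h1
  linarith

lemma cf_monomial_deg (d : Fin (r + 1) →₀ ℕ) : ∀ {f : Lau κ r} {t : ℤ},
    (∀ g, cf f g ≠ 0 → g.2 = t) →
    ∀ g, cf ((MvPolynomial.monomial d (1 : κ) : PP κ r) • f) g ≠ 0 → g.2 = t + d.degree := by
  induction d using Finsupp.induction_linear with
  | zero =>
    intro f t hf g hg
    have h1 : (MvPolynomial.monomial (0 : Fin (r + 1) →₀ ℕ) (1 : κ) : PP κ r) = 1 := rfl
    rw [h1, one_smul] at hg
    simpa using hf g hg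
  | add d₁ d₂ h1 h2 =>
    intro f t hf g hg
    have h3 : (MvPolynomial.monomial (d₁ + d₂) (1 : κ) : PP κ r) =
        MvPolynomial.monomial d₁ 1 * MvPolynomial.monomial d₂ 1 := by
      rw [MvPolynomial.monomial_mul, one_mul]
    rw [h3, mul_smul] at hg
    have h4 := h1 (h2 hf) g hg
    rw [h4, map_add]
    push_cast
    ring
  | single l n =>
    induction n with
    | zero =>
      intro f t hf g hg
      have h1 : (MvPolynomial.monomial (Finsupp.single l 0 : Fin (r + 1) →₀ ℕ) (1 : κ) : PP κ r) =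
          1 := by
        rw [Finsupp.single_zero]
        rfl
      rw [h1, one_smul] at hg
      simpa using hf g hg
    | succ n ih =>
      intro f t hf g hg
      have h3 : (MvPolynomial.monomial (Finsupp.single l (n + 1)) (1 : κ) : PP κ r) =
          MvPolynomial.X l * MvPolynomial.monomial (Finsupp.single l n) 1 := by
        rw [MvPolynomial.X, MvPolynomial.monomial_mul, one_mul, ← Finsupp.single_add, add_comm 1 n]
      rw [h3, mul_smul] at hg
      have h4 := cf_X_deg l (ih hf) g hg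
      rw [h4, Finsupp.degree_single, Finsupp.degree_single]
      push_cast
      ring

lemma cf_smul_eq (q : PP κ r) {f : Lau κ r} {t : ℤ} (hf : ∀ g, cf f g ≠ 0 → g.2 = t) (j : ℕ)
    (g : Gx r) (hg : g.2 = t + j) :
    cf (q • f) g = ∑ d ∈ Finset.finsuppAntidiag (Finset.univ : Finset (Fin (r + 1))) j,
      q.coeff d * cf ((MvPolynomial.monomial d (1 : κ) : PP κ r) • f) g := by
  conv_lhs => rw [q.as_sum]
  rw [Finset.sum_smul, cf_sum]
  have h1 : ∀ d, cf ((MvPolynomial.monomial d (q.coeff d) : PP κ r) • f) g =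
      q.coeff d * cf ((MvPolynomial.monomial d (1 : κ) : PP κ r) • f) g := by
    intro d
    have h2 : (MvPolynomial.monomial d (q.coeff d) : PP κ r) =
        MvPolynomial.C (q.coeff d) * MvPolynomial.monomial d 1 := by
      rw [MvPolynomial.C_mul_monomial, mul_one]
    rw [h2, mul_smul, C_smul, cf_smul]
  refine Finset.sum_congr_of_eq_on_inter (fun d _ hd => ?_) (fun d _ hd => ?_) (fun d _ _ => h1 d)
  · rw [h1]
    by_contra h3
    have h4 := cf_monomial_deg d hf g (right_ne_zero_of_mul h3)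
    refine hd (Finset.mem_finsuppAntidiag.2 ⟨?_, Finset.subset_univ _⟩)
    have h5 : (d.degree : ℤ) = j := by linarith
    rw [Finsupp.degree_eq_sum] at h5
    exact_mod_cast h5
  · rw [MvPolynomial.notMem_support_iff.1 hd, zero_mul]

/-- exponents of the monomials of degree `j` of the Ulrich module -/
abbrev TI (r j : ℕ) : Type := ∀ i : Fin r, Fin (r - i + j)

/-- monomials of degree `j` of the polynomial ring -/
abbrev DI (r j : ℕ) : Type :=
  {d : Fin (r + 1) →₀ ℕ // d ∈ Finset.finsuppAntidiag (Finset.univ : Finset (Fin (r + 1))) j}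

/-- the exponent -/
def gt {r j : ℕ} (u : TI r j) : Gx r := (fun i => ((u i : ℕ) : ℤ), (j : ℤ))

lemma gt_inj {r j : ℕ} {u u' : TI r j} (h : gt u = gt u') : u = u' := by
  funext i
  have h1 := congrFun (congrArg Prod.fst h) i
  have h2 : ((u i : ℕ) : ℤ) = ((u' i : ℕ) : ℤ) := h1
  exact Fin.ext (by exact_mod_cast h2)

lemma card_TI (r j : ℕ) : Fintype.card (TI r j) = r.factorial * (r + j).choose r := by
  rw [← Nat.descFactorial_eq_factorial_mul_choose, Fintype.card_pi]
  simp only [Fintype.card_fin]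
  rw [Fin.prod_univ_eq_prod_range (fun i => r - i + j) r, Nat.descFactorial_eq_prod_range]
  refine Finset.prod_congr rfl fun i hi => ?_
  rw [Finset.mem_range] at hi
  omega

lemma card_DI (r j : ℕ) : Fintype.card (DI r j) = (r + j).choose r := by
  rw [Fintype.card_coe, Finset.card_finsuppAntidiag_nat_eq_choose, Finset.card_univ,
    Fintype.card_fin]
  have h1 : r + 1 + j - 1 = r + j := by omega
  rw [h1]
  exact (Nat.choose_symm_add).symm

/-- matrix of the multiplication in degree `j` -/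
noncomputable def mm (κ : Type*) [Field κ] (r j : ℕ) : Matrix (TI r j) (GI r × DI r j) κ :=
  Matrix.of fun u p => cf ((MvPolynomial.monomial (p.2 : Fin (r + 1) →₀ ℕ) (1 : κ) : PP κ r) •
    gn κ r p.1) (gt u)

lemma gn_deg (s : GI r) : ∀ g, cf (gn κ r s) g ≠ 0 → g.2 = 0 := by
  intro g hg
  rw [gn, cf_mono] at hg
  split_ifs at hg with h
  · rw [← h]
  · exact absurd rfl hg

lemma mm_apply (κ : Type*) [Field κ] (r j : ℕ) (u : TI r j) (p : GI r × DI r j) :
    mm κ r j u p = cf ((MvPolynomial.monomial (p.2 : Fin (r + 1) →₀ ℕ) (1 : κ) : PP κ r) •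
      gn κ r p.1) (gt u) := rfl

lemma mm_mulVec (j : ℕ) (c : GI r → PP κ r) (u : TI r j) :
    (mm κ r j).mulVec (fun p => (c p.1).coeff (p.2 : Fin (r + 1) →₀ ℕ)) u =
      cf (∑ s, c s • gn κ r s) (gt u) := by
  have h0 : (gt u).2 = (0 : ℤ) + j := by
    show (j : ℤ) = 0 + j
    rw [zero_add]
  rw [cf_sum, Matrix.mulVec, dotProduct, Fintype.sum_prod_type]
  refine Finset.sum_congr rfl fun s _ => ?_
  have h2 := cf_smul_eq (c s) (gn_deg s) j (gt u) h0
  refine Eq.trans ?_ h2.symm
  refine Eq.trans ?_ (Finset.sum_coe_sort _ _)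
  refine Finset.sum_congr rfl fun d _ => ?_
  exact mul_comm _ _

lemma mm_surj (κ : Type*) [Field κ] (r j : ℕ) : Function.Surjective (mm κ r j).mulVecLin := by
  classical
  have h1 : ∀ u₀ : TI r j, ∃ x, (mm κ r j).mulVecLin x = Pi.single u₀ 1 := by
    intro u₀
    have h2 := mono_mem_GG (κ := κ) (r := r) j (fun i => (u₀ i : ℕ)) (fun i => by
      have h3 := (u₀ i).isLt
      have h4 := i.isLt
      unfold ul
      omega)
    unfold GG at h2
    rw [Submodule.mem_span_range_iff_exists_fun] at h2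
    obtain ⟨c, hc⟩ := h2
    change _ = mono (gt u₀) 1 at hc
    refine ⟨fun p => (c p.1).coeff (p.2 : Fin (r + 1) →₀ ℕ), ?_⟩
    funext u
    rw [Matrix.mulVecLin_apply, mm_mulVec, hc, cf_mono]
    by_cases h : u = u₀
    · subst h
      rw [if_pos rfl, Pi.single_eq_same]
    · rw [if_neg (fun h' => h (gt_inj (j := j) h').symm), Pi.single_eq_of_ne h]
  choose x hx using h1
  intro y
  refine ⟨∑ u, y u • x u, ?_⟩
  rw [map_sum]
  simp only [map_smul, hx]
  funext u
  rw [Finset.sum_apply]
  simp [Pi.single_apply]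

lemma mm_inj (κ : Type*) [Field κ] (r j : ℕ) : Function.Injective (mm κ r j).mulVecLin := by
  refine (LinearMap.injective_iff_surjective_of_finrank_eq_finrank ?_).2 (mm_surj κ r j)
  rw [Module.finrank_fintype_fun_eq_card, Module.finrank_fintype_fun_eq_card, Fintype.card_prod,
    card_GI, card_TI, card_DI]

/-- the generators of the Ulrich module are linearly independent -/
theorem gn_lin (κ : Type*) [Field κ] (r : ℕ) : LinearIndependent (PP κ r) (gn κ r) := by
  rw [Fintype.linearIndependent_iff]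
  intro c hc s
  ext d
  rw [MvPolynomial.coeff_zero]
  have hd : d ∈ Finset.finsuppAntidiag (Finset.univ : Finset (Fin (r + 1))) d.degree :=
    Finset.mem_finsuppAntidiag.2 ⟨(Finsupp.degree_eq_sum d).symm, Finset.subset_univ _⟩
  have h1 : (mm κ r d.degree).mulVecLin
      (fun p => (c p.1).coeff (p.2 : Fin (r + 1) →₀ ℕ)) = 0 := by
    funext u
    rw [Matrix.mulVecLin_apply, mm_mulVec, hc, cf_zero]
    rfl
  have h2 := mm_inj κ r d.degree (h1.trans (map_zero _).symm)
  exact congrFun h2 (s, ⟨d, hd⟩)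

end UlFree

open NMod in
/-- TASK G3-N3: the Ulrich module is free. -/
theorem NMon_ul_free (κ : Type*) [Field κ] (r : ℕ) :
    Nonempty ((Fin r.factorial → PP κ r) ≃ₗ[PP κ r]
      ↥(NMon κ (SN (fun i : Fin r => (r : ℤ) - 1 - (i : ℕ))))) := by
  classical
  let v : GI r → ↥(NMon κ (SN (ul r))) := fun s => ⟨gn κ r s, gn_mem _⟩
  have hli : LinearIndependent (PP κ r) v := by
    refine LinearIndependent.of_comp (NMon κ (SN (ul r))).subtype ?_
    exact UlFree.gn_lin κ r
  have hsp : ⊤ ≤ Submodule.span (PP κ r) (Set.range v) := by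
    intro f _
    have h1 : (f : Lau κ r) ∈ (Submodule.span (PP κ r) (Set.range v)).map
        (NMon κ (SN (ul r))).subtype := by
      rw [Submodule.map_span, ← Set.range_comp]
      exact NMon_ul_le f.2
    obtain ⟨f', hf', h⟩ := h1
    have : f' = f := Subtype.ext h
    rw [← this]
    exact hf'
  let e : GI r ≃ Fin r.factorial := Fintype.equivFinOfCardEq (card_GI r)
  exact ⟨((Module.Basis.mk hli hsp).reindex e).equivFun.symm⟩

end Vale.Agent.P202.CharP.Gen2
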