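import Vale.Agent.P202.CharP.Gen2.PsiAdd
import Vale.Agent.P202.CharP.Gen2.BoxBasic
import Vale.Agent.P202.CharP.Gen2.BoxEx
import Vale.Agent.P202.CharP.Gen2.UlFree
import Vale.Agent.P202.CharP.NMod
import Vale.Agent.P202.CharP.Core
import Vale.Agent.P202.CharP.RealAux

/-!
P202-G3, normalization: the Koszul Euler characteristic of `S ⊗ N_a` and the bottom of the box
model.
-/

namespace Vale.Agent.P202.CharP.Gen2

open Submodule TensorProduct Gen

universe u v w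

namespace PsiNorm

section Mon

variable {κ : Type w} [Field κ] {r : ℕ}

/-- the variable `X_0` acts as `τ`. -/
theorem cf_X0_smul (f : Lau κ r) (k : Gx r) :
    cf ((MvPolynomial.X 0 : PP κ r) • f) k = cf f (k - (0, 1)) := by
  rw [NMod.cf_X_smul]
  have h : (Finset.univ : Finset (Fin r)).powersetCard ((0 : Fin (r + 1)) : ℕ) = {∅} :=
    Finset.powersetCard_zero _
  rw [h, Finset.sum_singleton]
  rfl

theorem cf_X0_pow_smul (c : ℕ) (f : Lau κ r) (k : Gx r) :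
    cf ((MvPolynomial.X 0 : PP κ r) ^ c • f) k = cf f (k - (0, (c : ℤ))) := by
  induction c generalizing k with
  | zero =>
    rw [pow_zero, one_smul]
    congr 1
    ext i <;> simp
  | succ c ih =>
    rw [pow_succ', mul_smul, cf_X0_smul, ih]
    congr 1
    ext i
    · simp
    · simp only [Prod.snd_sub]
      push_cast
      ring

theorem X0_pow_mem {a a' : Fin r → ℤ} {c : ℕ} (h : ∀ i, a' i ≤ a i + c) {f : Lau κ r}
    (hf : f ∈ NMon κ (SN a')) : (MvPolynomial.X 0 : PP κ r) ^ c • f ∈ NMon κ (SN a) := by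
  refine NMod.mem_of_supp (nup_SN a) fun g hg => ?_
  rw [cf_X0_pow_smul] at hg
  obtain ⟨h1, h2⟩ := NMod.supp_of_mem hf hg
  have h1' : 0 ≤ g.2 - (c : ℤ) := h1
  refine ⟨by omega, fun i => ?_⟩
  have h3 : 0 ≤ g.1 i - 0 ∧ g.1 i - 0 ≤ a' i + (g.2 - (c : ℤ)) := h2 i
  have h4 := h i
  omega

end Mon

section Psi

variable {κ : Type w} [Field κ] {r : ℕ} {S : Type v} [CommRing S] [IsNoetherianRing S]
  [Algebra (PP κ r) S] [Module.Flat (PP κ r) S]

/-- a submodule with quotient killed by a power of `X_0` has the same Euler characteristic. -/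
theorem kchi_eq_of_inj {n : ℕ} (L : Fin n → S)
    (hL : Module.length S (S ⧸ Ideal.span (Set.range L)) ≠ ⊤) {N₁ N₂ : Type*}
    [AddCommGroup N₁] [AddCommGroup N₂] [Module (PP κ r) N₁] [Module (PP κ r) N₂]
    [Module.Finite (PP κ r) N₁] [Module.Finite (PP κ r) N₂] (f : N₁ →ₗ[PP κ r] N₂)
    (hf : Function.Injective f) (c : ℕ)
    (hc : ∀ v, (MvPolynomial.X 0 : PP κ r) ^ c • v ∈ LinearMap.range f) :
    kchi L (S ⊗[PP κ r] N₁) = kchi L (S ⊗[PP κ r] N₂) := by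
  have h1 := kchi_tensor_add L hL f (LinearMap.range f).mkQ hf (Submodule.mkQ_surjective _)
    (LinearMap.exact_map_mkQ_range f)
  have h2 := kchi_tensor_eq_zero (κ := κ) (r := r) L hL (N₂ ⧸ LinearMap.range f) c (by
    intro v
    obtain ⟨v, rfl⟩ := Submodule.Quotient.mk_surjective _ v
    exact (Submodule.Quotient.mk_eq_zero (LinearMap.range f)).mpr (hc v))
  rw [h1, h2, add_zero]

theorem kchi_NMon_mono {n : ℕ} (L : Fin n → S)
    (hL : Module.length S (S ⧸ Ideal.span (Set.range L)) ≠ ⊤) {a a' : Fin r → ℤ}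
    (h : ∀ i, a i ≤ a' i) :
    kchi L (S ⊗[PP κ r] ↥(NMon κ (SN a))) = kchi L (S ⊗[PP κ r] ↥(NMon κ (SN a'))) := by
  have := NMon_fg (κ := κ) a
  have := NMon_fg (κ := κ) a'
  have hc : ∀ i, a' i ≤ a i + ((∑ i, (a' i - a i).natAbs : ℕ) : ℤ) := by
    intro i
    have h1 : (a' i - a i).natAbs ≤ ∑ i, (a' i - a i).natAbs :=
      Finset.single_le_sum (f := fun i => (a' i - a i).natAbs) (fun _ _ => Nat.zero_le _)
        (Finset.mem_univ i)
    omega
  refine kchi_eq_of_inj L hL (Submodule.inclusion (NMon_mono h))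
    (Submodule.inclusion_injective _) (∑ i, (a' i - a i).natAbs) fun v => ?_
  exact ⟨⟨_, X0_pow_mem hc v.2⟩, rfl⟩

omit [IsNoetherianRing S] [Module.Flat (PP κ r) S] in
theorem kchi_pi {n : ℕ} (L : Fin n → S) (k : ℕ) (M : Type*) [AddCommGroup M] [Module S M] :
    kchi L (Fin k → M) = (k : ℤ) * kchi L M := by
  unfold kchi kk
  rw [Finset.mul_sum]
  refine Finset.sum_congr rfl fun i _ => ?_
  rw [kh_pi, ENat.toNat_mul, ENat.toNat_natCast]
  push_cast
  ring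

omit [IsNoetherianRing S] [Module.Flat (PP κ r) S] in
theorem kchi_free {n : ℕ} (L : Fin n → S) (k : ℕ) :
    kchi L (S ⊗[PP κ r] (Fin k → PP κ r)) = (k : ℤ) * kchi L S := by
  rw [kchi_congr L (TensorProduct.piRight (PP κ r) S S (fun _ : Fin k => PP κ r)), kchi_pi,
    kchi_congr L (TensorProduct.AlgebraTensorModule.rid (PP κ r) S S)]

end Psi

end PsiNorm

section Norm

variable {κ : Type w} [Field κ] {r : ℕ} {S : Type v} [CommRing S] [IsNoetherianRing S]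
  [Algebra (PP κ r) S] [Module.Flat (PP κ r) S]

open PsiNorm in
/-- TASK G3-N4: normalization. -/
theorem kchi_NMon_eq {n : ℕ} (L : Fin n → S)
    (hL : Module.length S (S ⧸ Ideal.span (Set.range L)) ≠ ⊤) (a : Fin r → ℤ) :
    kchi L (S ⊗[PP κ r] ↥(NMon κ (SN a))) = (r.factorial : ℤ) * kchi L S := by
  set ul : Fin r → ℤ := fun i : Fin r => (r : ℤ) - 1 - (i : ℕ) with hul
  have h1 := kchi_NMon_mono (κ := κ) L hL (a := a) (a' := fun i => max (a i) (ul i))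
    (fun i => le_max_left _ _)
  have h2 := kchi_NMon_mono (κ := κ) L hL (a := ul) (a' := fun i => max (a i) (ul i))
    (fun i => le_max_right _ _)
  obtain ⟨e⟩ := NMon_ul_free κ r
  rw [h1, ← h2, ← kchi_congr L (e.baseChange (PP κ r) S _ _), kchi_free]

namespace PsiNorm

omit [IsNoetherianRing S] in
/-- the homology of the level `1` over the bottom. -/
theorem hh_level_one (m : Fin (r + 1)) (Q : ℕ) (hQ : 1 ≤ Q) {n : ℕ} (L : Fin n → S) (i : ℤ) :
    hh (DB κ r S L) (lift (kdeg n) (bcf S (MF κ (SW (am m Q) Q 0)))) (WI κ (am m Q) S n) i =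
      kk L (S ⊗[PP κ r] (↥(cz (dC κ r) (MF κ (SW (am m Q) Q 0)) (MF κ (SG (am m Q))) 0) ⧸
        (cb (dC κ r) (MF κ (SW (am m Q) Q 0)) (MF κ (SG (am m Q))) 0).submoduleOf
          (cz (dC κ r) (MF κ (SW (am m Q) Q 0)) (MF κ (SG (am m Q))) 0))) i := by
  have hW := win_lam' (κ := κ) m Q hQ
  have hex : ∀ p, p ≠ 0 → Ex (dC κ r) (MF κ (SW (am m Q) Q 0)) (MF κ (SG (am m Q))) p := by
    intro p hp
    rcases lt_or_gt_of_ne hp with h | h
    · intro x hx
      have h1 : x ∈ MF κ (SW (am m Q) Q 0) p := hx.1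
      have h2 : MF κ (SW (am m Q) Q 0) p = ⊥ := hW.neg 0 p h
      rw [h2, Submodule.mem_bot] at h1
      rw [h1]
      exact Submodule.zero_mem _
    · exact hW.ex1 p (by omega)
  unfold DB WI
  rw [hh_lift_of_ex (kdeg n) (kos n L) (kos_isCx n L) ((dC κ r).baseChange S)
    (baseChange_dd S _ dC_dC) _ _ (cstab_bcf S _ _ hW.stabinf) (cstab_bcf S _ _ (hW.stab 0))
    (fun p => Submodule.baseChange_mono S (hW.monoinf p)) 0
    (fun p hp => ex_bcf S _ _ _ p (hex p hp)) i, cz_bcf, cb_bcf, add_zero,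
    khs_eq_kh _ _ (kos_isCx n L)]
  · set Y0 := cz (dC κ r) (MF κ (SW (am m Q) Q 0)) (MF κ (SG (am m Q))) 0 with hY0
    set X0 := cb (dC κ r) (MF κ (SW (am m Q) Q 0)) (MF κ (SG (am m Q))) 0 with hX0
    obtain ⟨g', hg', hk'⟩ := exists_quot_baseChange S X0 Y0
      (X0.submoduleOf Y0).mkQ (Submodule.mkQ_surjective _) (Submodule.ker_mkQ _)
    unfold kk
    exact kh_congr _ _ ((Submodule.quotEquivOfEq _ _ hk'.symm).trans
      (g'.quotKerEquivOfSurjective hg')) i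
  · exact Submodule.baseChange_mono S (cb_le_cz _ dC_dC _ _ hW.stabinf (hW.stab 0)
      hW.monoinf 0)

omit [IsNoetherianRing S] [Module.Flat (PP κ r) S] in
/-- the cohomology of the level `1` inside `N_a`. -/
theorem exists_inj (κ : Type w) [Field κ] (m : Fin (r + 1)) (Q : ℕ) (hQ : 1 ≤ Q) :
    ∃ f : (↥(cz (dC κ r) (MF κ (SW (am m Q) Q 0)) (MF κ (SG (am m Q))) 0) ⧸
        (cb (dC κ r) (MF κ (SW (am m Q) Q 0)) (MF κ (SG (am m Q))) 0).submoduleOf
          (cz (dC κ r) (MF κ (SW (am m Q) Q 0)) (MF κ (SG (am m Q))) 0)) →ₗ[PP κ r]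
      ↥(NMon κ (SN (am m Q))), Function.Injective f ∧
      ∀ v, (MvPolynomial.X 0 : PP κ r) ^ Q • v ∈ LinearMap.range f := by
  have hW := win_lam' (κ := κ) m Q hQ
  obtain ⟨e⟩ := coh_zero (κ := κ) m Q
  have hcb : ∀ k, cb (dC κ r) (MF κ (SW (am m Q) Q k)) (MF κ (SG (am m Q))) 0 =
      MF κ (SG (am m Q)) 0 := by
    intro k
    have h2 : MF κ (SW (am m Q) Q k) (0 - 1) = ⊥ := hW.neg k (0 - 1) (by omega)
    rw [cb, h2, Submodule.map_bot, bot_sup_eq]
  set Z1 := cz (dC κ r) (MF κ (SW (am m Q) Q 0)) (MF κ (SG (am m Q))) 0 with hZ1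
  set Z0 := cz (dC κ r) (MF κ (SW (am m Q) Q 1)) (MF κ (SG (am m Q))) 0 with hZ0
  rw [hcb] at e ⊢
  set G := MF κ (SG (am m Q)) 0 with hG
  have hZ : Z1 ≤ Z0 := inf_le_inf_right _ (hW.mono 0 0)
  let f : (↥Z1 ⧸ G.submoduleOf Z1) →ₗ[PP κ r] (↥Z0 ⧸ G.submoduleOf Z0) :=
    Submodule.mapQ _ _ (Submodule.inclusion hZ) (by intro x hx; exact hx)
  refine ⟨e.toLinearMap ∘ₗ f, ?_, ?_⟩
  · refine e.injective.comp ?_
    rw [injective_iff_map_eq_zero]
    intro z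
    obtain ⟨z, rfl⟩ := Submodule.Quotient.mk_surjective _ z
    intro hz
    have hz' : (Submodule.Quotient.mk (Submodule.inclusion hZ z) : ↥Z0 ⧸ G.submoduleOf Z0) = 0 :=
      hz
    rw [Submodule.Quotient.mk_eq_zero] at hz' ⊢
    exact hz'
  · intro v
    obtain ⟨z, rfl⟩ := e.surjective v
    obtain ⟨z, rfl⟩ := Submodule.Quotient.mk_surjective _ z
    have hX : (MvPolynomial.X 0 : PP κ r) ^ Q ∈ (mX κ r) ^ Q :=
      Ideal.pow_mem_pow (Ideal.subset_span (Set.mem_range_self (0 : Fin (r + 1)))) Q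
    have h1 : (MvPolynomial.X 0 : PP κ r) ^ Q • z.1 ∈ Z1 := by
      refine ⟨hW.push 0 0 (Submodule.smul_mem_smul hX z.2.1), ?_⟩
      have h3 := (Submodule.smul_mem Z0 ((MvPolynomial.X 0 : PP κ r) ^ Q) z.2).2
      exact h3
    refine ⟨Submodule.Quotient.mk ⟨_, h1⟩, ?_⟩
    change e (Submodule.Quotient.mk (Submodule.inclusion hZ
      (⟨(MvPolynomial.X 0 : PP κ r) ^ Q • z.1, h1⟩ : ↥Z1))) = _
    rw [← map_smul]
    rfl

end PsiNorm

open PsiNorm in
/-- TASK G3-N5: the bottom of the box model. -/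
theorem bottom_box (m : Fin (r + 1)) (Q : ℕ) (hQ : 1 ≤ Q) (B : ℤ) (hB' : (r : ℤ) * Q ≤ B)
    (hB : 0 ≤ B) {n : ℕ} (L : Fin n → S)
    (hL : Module.length S (S ⧸ Ideal.span (Set.range L)) ≠ ⊤) :
    (∀ δ, δ < 0 → hh (DB κ r S L) (WB κ (am m Q) Q B S n 0) (WI κ (am m Q) S n) δ = 0) ∧
    (∀ δ, hh (DB κ r S L) (WB κ (am m Q) Q B S n 0) (WI κ (am m Q) S n) δ ≠ ⊤) ∧
    ∑ i ∈ Finset.range (n + 1), (-1 : ℤ) ^ i *
      ((hh (DB κ r S L) (WB κ (am m Q) Q B S n 0) (WI κ (am m Q) S n) (i : ℤ)).toNat : ℤ) =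
      (r.factorial : ℤ) * kchi L S := by
  have hW := win_lam' (κ := κ) m Q hQ
  have hd := baseChange_dd S (dC κ r) dC_dC
  have h0 : ∀ δ, hh (DB κ r S L) (lift (kdeg n) (bcf S (MF κ (SW (am m Q) Q 0))))
      (WB κ (am m Q) Q B S n 0) δ = 0 := by
    intro δ
    exact hh_lift_eq_zero (kdeg n) (kos n L) (kos_isCx n L) _ hd _ _
      (cstab_bcf S _ _ (cstab_SWB _ _ _ _)) (cstab_bcf S _ _ (hW.stab 0))
      (fun p => Submodule.baseChange_mono S (SWB_le_SW _ _ _ _ p)) δ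
      (fun b => ex_bcf S _ _ _ _ (ex_SW_SWB m Q hQ B 0 (by simpa using hB) hB' _))
  have key : ∀ δ, hh (DB κ r S L) (WB κ (am m Q) Q B S n 0) (WI κ (am m Q) S n) δ =
      kk L (S ⊗[PP κ r] (↥(cz (dC κ r) (MF κ (SW (am m Q) Q 0)) (MF κ (SG (am m Q))) 0) ⧸
        (cb (dC κ r) (MF κ (SW (am m Q) Q 0)) (MF κ (SG (am m Q))) 0).submoduleOf
          (cz (dC κ r) (MF κ (SW (am m Q) Q 0)) (MF κ (SG (am m Q))) 0))) δ := by
    intro δ
    rw [← hh_level_one m Q hQ L δ]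
    exact (TR.hh_upper (D := DB κ r S L) (tot_tot _ _ (kos_isCx n L) _ hd)
      (lift_mono _ fun p => Submodule.baseChange_mono S (SG_le_SWB _ _ _ _ p))
      (lift_mono _ fun p => Submodule.baseChange_mono S (SWB_le_SW _ _ _ _ p))
      (h0 δ) (h0 (δ + 1))).symm
  obtain ⟨f, hf, hc⟩ := exists_inj κ m Q hQ
  have := NMon_fg (κ := κ) (am m Q)
  have hN : IsNoetherian (PP κ r) ↥(NMon κ (SN (am m Q))) := inferInstance
  have hN1 := isNoetherian_of_injective f hf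
  have hN2 : Module.Finite (PP κ r) (↥(cz (dC κ r) (MF κ (SW (am m Q) Q 0))
      (MF κ (SG (am m Q))) 0) ⧸ (cb (dC κ r) (MF κ (SW (am m Q) Q 0))
        (MF κ (SG (am m Q))) 0).submoduleOf
          (cz (dC κ r) (MF κ (SW (am m Q) Q 0)) (MF κ (SG (am m Q))) 0)) := inferInstance
  refine ⟨fun δ hδ => ?_, fun δ => ?_, ?_⟩
  · rw [key]
    exact kk_out L _ δ (Or.inl hδ)
  · rw [key]
    exact kk_tensor_ne_top L hL _ δ
  · simp only [key]
    rw [← kchi_NMon_eq (κ := κ) L hL (am m Q), ← kchi_eq_of_inj L hL f hf Q hc]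
    rfl

end Norm

end Vale.Agent.P202.CharP.Gen2
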