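import Vale.Agent.P202.CharP.Gen2.DefsO

/-!
P202-G3-H7, algebraic properties of the concrete rings: towers, pushout, flatness, noetherian.
-/

namespace Vale.Agent.P202.CharP.Gen2

open Submodule TensorProduct IsLocalRing Gen

universe u

section

/-- `F_p[X] → B[X]` is flat for every ring `B` of characteristic `p`. -/
theorem flat_mapChar (p : ℕ) [Fact p.Prime] (σ : Type*) (B : Type*) [CommRing B]
    (f : ZMod p →+* B) :
    @Module.Flat (MvPolynomial σ (ZMod p)) (MvPolynomial σ B) _ _
      (MvPolynomial.map f).toAlgebra.toModule := by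
  let : Algebra (ZMod p) B := f.toAlgebra
  let : Algebra (MvPolynomial σ (ZMod p)) (MvPolynomial σ B) := (MvPolynomial.map f).toAlgebra
  have : IsScalarTower (ZMod p) (MvPolynomial σ (ZMod p)) (MvPolynomial σ B) := by
    refine IsScalarTower.of_algebraMap_eq fun a => ?_
    show algebraMap (ZMod p) (MvPolynomial σ B) a =
      MvPolynomial.map f (algebraMap (ZMod p) (MvPolynomial σ (ZMod p)) a)
    rw [MvPolynomial.algebraMap_apply, MvPolynomial.algebraMap_apply, MvPolynomial.map_C]
    rfl
  have hp : Algebra.IsPushout (ZMod p) B (MvPolynomial σ (ZMod p)) (MvPolynomial σ B) := by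
    constructor
    refine IsBaseChange.of_equiv (MvPolynomial.algebraTensorAlgEquiv (ZMod p) B).toLinearEquiv
      fun x => ?_
    show MvPolynomial.algebraTensorAlgEquiv (ZMod p) B (1 ⊗ₜ[ZMod p] x) = MvPolynomial.map f x
    rw [MvPolynomial.algebraTensorAlgEquiv_tmul, one_smul]
    rfl
  exact Module.Flat.isBaseChange (ZMod p) (MvPolynomial σ (ZMod p)) B (MvPolynomial σ B)
    hp.symm.out

theorem rTensor_one_tmul {A S A' : Type*} [CommRing A] [CommRing S] [CommRing A'] [Algebra A S]
    [Algebra A A'] {σ : Type*} (x : MvPolynomial σ A') :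
    MvPolynomial.rTensorAlgEquiv (R := A) (S := S) (1 ⊗ₜ[A] x) =
      MvPolynomial.map (Algebra.TensorProduct.includeRight : A' →ₐ[A] S ⊗[A] A').toRingHom x := by
  refine MvPolynomial.ext _ _ fun d => ?_
  rw [MvPolynomial.coeff_rTensorAlgEquiv_tmul, MvPolynomial.coeff_map]
  rfl

end

section

variable (p r : ℕ) [Fact p.Prime] {A S A' : Type u} [CommRing A] [CommRing S] [CommRing A']
  [Algebra A S] [Algebra A A'] [CharP A' p]

/-- TASK G3-H7: algebraic properties of the rings. -/
theorem smulComm_Om : SMulCommClass (PP (ZMod p) r) A (OmR p r A') := by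
  refine ⟨fun q a x => ?_⟩
  rw [Algebra.smul_def, Algebra.smul_def, Algebra.smul_def, Algebra.smul_def, mul_left_comm]

/-- TASK G3-H7. -/
theorem towers : IsScalarTower A S (SgR p r A S A') ∧ IsScalarTower A (OmR p r A') (SgR p r A S A') ∧
    IsScalarTower (PP (ZMod p) r) (OmR p r A') (SgR p r A S A') := by
  refine ⟨?_, ?_, ?_⟩
  · show IsScalarTower A S (MvPolynomial (Fin (r + 1)) (S ⊗[A] A'))
    infer_instance
  · refine IsScalarTower.of_algebraMap_eq fun a => ?_
    show (algebraMap A (MvPolynomial (Fin (r + 1)) (S ⊗[A] A')) a) =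
      MvPolynomial.map (Algebra.TensorProduct.includeRight : A' →ₐ[A] S ⊗[A] A').toRingHom
        (algebraMap A (MvPolynomial (Fin (r + 1)) A') a)
    rw [MvPolynomial.algebraMap_apply, MvPolynomial.algebraMap_apply, MvPolynomial.map_C]
    congr 1
    exact ((Algebra.TensorProduct.includeRight : A' →ₐ[A] S ⊗[A] A').commutes a).symm
  · exact IsScalarTower.of_algebraMap_eq fun a => rfl

/-- TASK G3-H7. -/
theorem pushout_Sg : letI := (towers p r (A := A) (S := S) (A' := A')).1
    letI := (towers p r (A := A) (S := S) (A' := A')).2.1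
    Algebra.IsPushout A S (OmR p r A') (SgR p r A S A') := by
  have := (towers p r (A := A) (S := S) (A' := A')).1
  have := (towers p r (A := A) (S := S) (A' := A')).2.1
  constructor
  refine IsBaseChange.of_equiv (MvPolynomial.rTensorAlgEquiv (σ := Fin (r + 1)) (R := A) (N := A')
    (S := S)).toLinearEquiv fun x => ?_
  exact rTensor_one_tmul (σ := Fin (r + 1)) x

/-- TASK G3-H7. -/
theorem flat_Om : Module.Flat (PP (ZMod p) r) (OmR p r A') :=
  flat_mapChar p (Fin (r + 1)) A' (ZMod.castHom (dvd_refl p) A')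

/-- TASK G3-H7. -/
theorem flat_Sg : Module.Flat (PP (ZMod p) r) (SgR p r A S A') := by
  have h := flat_mapChar p (Fin (r + 1)) (S ⊗[A] A')
    ((Algebra.TensorProduct.includeRight : A' →ₐ[A] S ⊗[A] A').toRingHom.comp
      (ZMod.castHom (dvd_refl p) A'))
  have e : MvPolynomial.map (σ := Fin (r + 1))
      ((Algebra.TensorProduct.includeRight : A' →ₐ[A] S ⊗[A] A').toRingHom.comp
        (ZMod.castHom (dvd_refl p) A')) = (toSg p r A S A').comp (toOm p r A') := by
    refine RingHom.ext fun x => ?_
    exact (MvPolynomial.map_map _ _ x).symm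
  rw [e] at h
  exact h

/-- TASK G3-H7. -/
theorem noeth_Sg [IsNoetherianRing S] [Module.Finite A A'] :
    IsNoetherianRing (SgR p r A S A') := by
  have : IsNoetherianRing (S ⊗[A] A') := IsNoetherianRing.of_finite S (S ⊗[A] A')
  show IsNoetherianRing (MvPolynomial (Fin (r + 1)) (S ⊗[A] A'))
  infer_instance

/-- TASK G3-H7: the maximal ideal of the polynomial ring. -/
theorem mX_maximal (κ : Type*) [Field κ] (r : ℕ) : (mX κ r).IsMaximal := by
  have h : mX κ r = RingHom.ker (MvPolynomial.constantCoeff (σ := Fin (r + 1)) (R := κ)) := by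
    refine le_antisymm (Ideal.span_le.2 ?_) fun q hq => ?_
    · rintro _ ⟨l, rfl⟩
      exact MvPolynomial.constantCoeff_X κ l
    · rw [RingHom.mem_ker, MvPolynomial.constantCoeff_eq] at hq
      have h1 : q ∈ MvPolynomial.idealOfVars (Fin (r + 1)) κ ^ 1 := by
        rw [MvPolynomial.mem_pow_idealOfVars_iff']
        intro x hx
        have h0 : x = 0 := by
          rw [← Finsupp.degree_eq_zero_iff]
          omega
        rw [h0, hq]
      rwa [pow_one] at h1
  rw [h]
  exact RingHom.ker_isMaximal_of_surjective _ fun x => ⟨MvPolynomial.C x, by simp⟩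

end

end Vale.Agent.P202.CharP.Gen2
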