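import Vale.Agent.P202.CharP.Gen2.DefsC
import Vale.Agent.P202.CharP.Gen.TruncG
import Vale.Agent.P202.CharP.Gen.LesG
import Vale.Agent.P202.CharP.Gen2.Conn

/-!
P202-G3-C3: below the diagonal the truncated window is small: it is bounded by a connecting map.
-/

namespace Vale.Agent.P202.CharP.Gen2

open Submodule TensorProduct Gen

section Aux

variable {S : Type*} [CommRing S] {ι : Type*} {M : Type*} [AddCommGroup M] [Module S M]

/-- an endomorphism applied to all components, with the sign of the degree. -/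
def low_sgd (deg : ι → ℤ) (d : M →ₗ[S] M) : (ι → M) →ₗ[S] (ι → M) where
  toFun := fun f a => ((deg a).negOnePow : ℤ) • d (f a)
  map_add' := fun f g => by ext a; simp
  map_smul' := fun c f => by
      ext a
      simp only [Pi.smul_apply, RingHom.id_apply, map_smul]
      exact smul_comm _ _ _

theorem low_sgd_apply (deg : ι → ℤ) (d : M →ₗ[S] M) (f : ι → M) (a : ι) :
    low_sgd deg d f a = ((deg a).negOnePow : ℤ) • d (f a) := rfl

theorem low_cb_sign (d : M →ₗ[S] M) (Y X : Submodule S M) (x : M) (n : ℤ)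
    (h : x ∈ Y.map d ⊔ X) : ∃ v ∈ Y, x - (n.negOnePow : ℤ) • d v ∈ X := by
  obtain ⟨_, ⟨v, hv, rfl⟩, x', hx', rfl⟩ := Submodule.mem_sup.1 h
  refine ⟨(n.negOnePow : ℤ) • v, zsmul_mem hv _, ?_⟩
  rw [map_zsmul, smul_smul, negOnePow_mul_self, one_smul, add_sub_cancel_left]
  exact hx'

theorem low_sign_mem (X : Submodule S M) (x : M) {n : ℤ} (h : (n.negOnePow : ℤ) • x ∈ X) :
    x ∈ X := by
  have := zsmul_mem h (n.negOnePow : ℤ)
  rwa [smul_smul, negOnePow_mul_self, one_smul] at this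

theorem low_tot_zero [Fintype ι] (deg : ι → ℤ) (Q : Matrix ι ι S) (f : ι → M) (a : ι) :
    tot deg Q (0 : M →ₗ[S] M) f a = act Q M f a := by
  rw [tot_eq, LinearMap.zero_apply, smul_zero, add_zero]

theorem low_mem_lift_conc (deg : ι → ℤ) (X : Submodule S M) (i : ℤ) (f : ι → M) :
    f ∈ lift deg (conc X) i ↔ (∀ a, deg a = i → f a ∈ X) ∧ ∀ a, deg a ≠ i → f a = 0 := by
  rw [mem_lift]
  constructor
  · intro h
    refine ⟨fun a ha => ?_, fun a ha => ?_⟩
    · have := h a
      rwa [conc, if_pos (by omega)] at this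
    · have := h a
      rw [conc, if_neg (by omega)] at this
      simpa using this
  · rintro ⟨h1, h2⟩ a
    by_cases ha : deg a = i
    · rw [conc, if_pos (by omega)]
      exact h1 a ha
    · rw [conc, if_neg (by omega), h2 a ha]
      exact Submodule.zero_mem _

end Aux

section Low

variable {P : Type*} [CommRing P] {V : Type*} [AddCommGroup V] [Module P V]
  (S : Type*) [CommRing S] [Algebra P S] {ι : Type*} [Fintype ι]

omit [Fintype ι] in
theorem low_bc_sq (d : V →ₗ[P] V) (hd : ∀ x, d (d x) = 0) (x : S ⊗[P] V) :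
    (d.baseChange S) ((d.baseChange S) x) = 0 := by
  have h : d ∘ₗ d = 0 := LinearMap.ext hd
  have h2 : (d ∘ₗ d).baseChange S x = 0 := by
    rw [h, LinearMap.baseChange_zero, LinearMap.zero_apply]
  rw [LinearMap.baseChange_comp] at h2
  exact h2

theorem low_tg_stab (deg : ι → ℤ) (Q : Matrix ι ι S)
    (hQ : IsCx deg Q) (j : ℤ) (d : V →ₗ[P] V)
    (Y X : ℤ → Submodule P V) (hX : CStab d X) (hY : CStab d Y) :
    Stab (tot deg Q (d.baseChange S)) (TG S deg Q j Y X) := by
  intro δ f hf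
  have hdY := bcf_cstab S d hY
  have hdX := bcf_cstab S d hX
  rw [mem_tg] at hf ⊢
  obtain ⟨h1, h2, h3⟩ := hf
  have e : tot deg Q (d.baseChange S) f = act Q (S ⊗[P] V) f +
      (fun b => ((deg b).negOnePow : ℤ) • (d.baseChange S) (f b)) := by
    ext a; rfl
  refine ⟨fun a => ?_, fun a ha => ?_, fun a ha => ?_⟩
  · rw [tot_eq]
    have e1 : deg a - (δ - 1) = deg a - δ + 1 := by ring
    rw [e1]
    refine Submodule.add_mem _ ?_ (zsmul_mem (hdY _ _ (h1 a)) _)
    refine act_mem_of_deg S deg Q hQ f a _ fun b hb => ?_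
    have := h1 b
    rw [hb] at this
    have e2 : deg a + 1 - δ = deg a - δ + 1 := by ring
    rwa [e2] at this
  · rw [tot_eq]
    have e1 : deg a - (δ - 1) = deg a - δ + 1 := by ring
    rw [e1]
    exact Submodule.add_mem _ (h3 a ha) (zsmul_mem (hdX _ _ (h2 a ha)) _)
  · rw [e, map_add, act_act S deg Q hQ, zero_add, act_sign S deg Q hQ]
    have e1 : deg a - (δ - 1) + 1 = deg a - δ + 1 + 1 := by ring
    rw [e1]
    exact Submodule.neg_mem _ (zsmul_mem (hdX _ _ (h3 a ha)) _)

theorem low_lift_le_tg (deg : ι → ℤ) (Q : Matrix ι ι S)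
    (hQ : IsCx deg Q) (j : ℤ)
    (Y X : ℤ → Submodule P V) (hXY : ∀ p, X p ≤ Y p) (δ : ℤ) :
    lift deg (bcf S X) δ ≤ TG S deg Q j Y X δ := by
  intro f hf
  rw [mem_lift] at hf
  rw [mem_tg]
  refine ⟨fun a => bcf_mono S hXY _ (hf a), fun a _ => hf a, fun a _ => ?_⟩
  refine act_mem_of_deg S deg Q hQ f a _ fun b hb => ?_
  have := hf b
  rw [hb] at this
  have e2 : deg a + 1 - δ = deg a - δ + 1 := by ring
  rwa [e2] at this

/-- the part of the truncated family concentrated, modulo `X`, in degree `j + 1`. -/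
def low_RG (deg : ι → ℤ) (Q : Matrix ι ι S) (j : ℤ) (Y X : ℤ → Submodule P V) (δ : ℤ) :
    Submodule S (ι → S ⊗[P] V) :=
  TG S deg Q j Y X δ ⊓
    Submodule.pi Set.univ (fun a => if j + 1 < deg a then bcf S X (deg a - δ) else ⊤)

theorem low_mem_rg (deg : ι → ℤ) (Q : Matrix ι ι S) (j : ℤ) (Y X : ℤ → Submodule P V) (δ : ℤ)
    (f : ι → S ⊗[P] V) : f ∈ low_RG S deg Q j Y X δ ↔ f ∈ TG S deg Q j Y X δ ∧
      ∀ a, j + 1 < deg a → f a ∈ bcf S X (deg a - δ) := by
  rw [low_RG, Submodule.mem_inf, Submodule.mem_pi]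
  refine and_congr Iff.rfl (forall_congr' fun a => ?_)
  by_cases h : j + 1 < deg a <;> simp [h]

theorem low_lift_le_rg (deg : ι → ℤ) (Q : Matrix ι ι S)
    (hQ : IsCx deg Q) (j : ℤ)
    (Y X : ℤ → Submodule P V) (hXY : ∀ p, X p ≤ Y p) (δ : ℤ) :
    lift deg (bcf S X) δ ≤ low_RG S deg Q j Y X δ := by
  intro f hf
  rw [low_mem_rg]
  refine ⟨low_lift_le_tg S deg Q hQ j Y X hXY δ hf, fun a _ => ?_⟩
  rw [mem_lift] at hf
  exact hf a

theorem low_rg_stab (deg : ι → ℤ) (Q : Matrix ι ι S)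
    (hQ : IsCx deg Q) (j : ℤ) (d : V →ₗ[P] V)
    (Y X : ℤ → Submodule P V) (hX : CStab d X) (hY : CStab d Y) :
    Stab (tot deg Q (d.baseChange S)) (low_RG S deg Q j Y X) := by
  intro δ f hf
  have hdX := bcf_cstab S d hX
  rw [low_mem_rg] at hf ⊢
  obtain ⟨h1, h2⟩ := hf
  refine ⟨low_tg_stab S deg Q hQ j d Y X hX hY δ f h1, fun a ha => ?_⟩
  rw [tot_eq]
  have e1 : deg a - (δ - 1) = deg a - δ + 1 := by ring
  rw [e1]
  refine Submodule.add_mem _ ?_ (zsmul_mem (hdX _ _ (h2 a ha)) _)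
  refine act_mem_of_deg S deg Q hQ f a _ fun b hb => ?_
  have := h2 b (by omega)
  rw [hb] at this
  have e2 : deg a + 1 - δ = deg a - δ + 1 := by ring
  rwa [e2] at this

theorem low_peel [Module.Flat P S] (deg : ι → ℤ) (Q : Matrix ι ι S) (hQ : IsCx deg Q)
    (d : V →ₗ[P] V) (hd : ∀ x, d (d x) = 0) (Y X : ℤ → Submodule P V) (hX : CStab d X)
    (hY : CStab d Y)
    (P₀ : ℤ) (ex : ∀ p, p ≠ P₀ → Ex d Y X p)
    (j δ : ℤ) (hδ : δ + P₀ < j + 1) (f : ι → S ⊗[P] V) (hf : f ∈ TG S deg Q j Y X δ)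
    (hDf : tot deg Q (d.baseChange S) f ∈ low_RG S deg Q j Y X (δ - 1)) :
    ∀ (m : ℕ) (i : ℤ), j + 2 ≤ i → (∀ a, deg a < i + m) →
      ∃ w ∈ TG S deg Q j Y X (δ + 1), ∀ a, i ≤ deg a →
        (f - tot deg Q (d.baseChange S) w) a ∈ bcf S X (deg a - δ) := by
  intro m
  induction m with
  | zero =>
    intro i _ hm
    refine ⟨0, Submodule.zero_mem _, fun a ha => ?_⟩
    have := hm a
    simp only [Nat.cast_zero, add_zero] at this
    omega
  | succ m ih =>
    intro i hi hm
    obtain ⟨w1, hw1, h1⟩ := ih (i + 1) (by omega) (fun a => by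
      have := hm a
      push_cast at this
      omega)
    have hw1' : f - tot deg Q (d.baseChange S) w1 ∈ TG S deg Q j Y X δ := by
      refine Submodule.sub_mem _ hf ?_
      have := low_tg_stab S deg Q hQ j d Y X hX hY (δ + 1) w1 hw1
      rwa [add_sub_cancel_right] at this
    have key : ∀ a, ∃ v : S ⊗[P] V, v ∈ bcf S Y (deg a - (δ + 1)) ∧ (deg a ≠ i → v = 0) ∧
        (deg a = i → (f - tot deg Q (d.baseChange S) w1) a -
          ((deg a).negOnePow : ℤ) • (d.baseChange S) v ∈ bcf S X (deg a - δ)) := by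
      intro a
      by_cases ha : deg a = i
      swap
      · exact ⟨0, Submodule.zero_mem _, fun _ => rfl, fun h => absurd h ha⟩
      have hcz : (f - tot deg Q (d.baseChange S) w1) a ∈
          cz (d.baseChange S) (bcf S Y) (bcf S X) (deg a - δ) := by
        refine ⟨((mem_tg S deg Q j Y X δ _).1 hw1').1 a, ?_⟩
        change (d.baseChange S) ((f - tot deg Q (d.baseChange S) w1) a) ∈
          bcf S X (deg a - δ + 1)
        have e0 : tot deg Q (d.baseChange S) (f - tot deg Q (d.baseChange S) w1) =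
            tot deg Q (d.baseChange S) f := by
          rw [map_sub, tot_tot deg Q hQ _ (low_bc_sq S d hd), sub_zero]
        have e1 := congrFun e0 a
        have h2 := ((low_mem_rg S deg Q j Y X (δ - 1) _).1 hDf).2 a (by omega)
        rw [← e1, tot_eq] at h2
        have e2 : deg a - (δ - 1) = deg a - δ + 1 := by ring
        rw [e2] at h2
        have h3 : act Q (S ⊗[P] V) (f - tot deg Q (d.baseChange S) w1) a ∈
            bcf S X (deg a - δ + 1) := by
          refine act_mem_of_deg S deg Q hQ _ a _ fun b hb => ?_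
          have := h1 b (by omega)
          rw [hb] at this
          have e3 : deg a + 1 - δ = deg a - δ + 1 := by ring
          rwa [e3] at this
        exact low_sign_mem _ _ ((Submodule.add_mem_iff_right _ h3).1 h2)
      rw [cz_bcf] at hcz
      have hcb := baseChange_mono S (ex (deg a - δ) (by omega)) hcz
      rw [← cb_bcf] at hcb
      obtain ⟨v, hv, hv'⟩ := low_cb_sign _ _ _ _ (deg a) hcb
      refine ⟨v, ?_, fun h => absurd ha h, fun _ => hv'⟩
      have e : deg a - (δ + 1) = deg a - δ - 1 := by ring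
      rw [e]
      exact hv
    choose v hv1 hv2 hv3 using key
    have hQv : ∀ a, deg a + 1 ≠ i → act Q (S ⊗[P] V) v a = 0 := by
      intro a ha
      have := act_mem_of_deg S deg Q hQ v a (⊥ : Submodule S (S ⊗[P] V)) (fun b hb => by
        rw [Submodule.mem_bot]
        exact hv2 b (by omega))
      simpa using this
    refine ⟨w1 + v, Submodule.add_mem _ hw1 ?_, fun a ha => ?_⟩
    · rw [mem_tg]
      refine ⟨hv1, fun a ha => ?_, fun a ha => ?_⟩
      · rw [hv2 a (by omega)]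
        exact Submodule.zero_mem _
      · rw [hQv a (by omega)]
        exact Submodule.zero_mem _
    · rw [map_add, ← sub_sub, Pi.sub_apply _ (tot deg Q (d.baseChange S) v) a,
        tot_eq deg Q _ v a, hQv a (by omega), zero_add]
      by_cases hai : deg a = i
      · exact hv3 a hai
      · rw [hv2 a hai, map_zero, smul_zero, sub_zero]
        exact h1 a (by omega)

/-- the truncated window is acyclic modulo its part in degree `j + 1`, below the diagonal. -/
theorem low_top_zero [Module.Flat P S] (deg : ι → ℤ) (Q : Matrix ι ι S) (hQ : IsCx deg Q)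
    (d : V →ₗ[P] V) (hd : ∀ x, d (d x) = 0) (Y X : ℤ → Submodule P V) (hX : CStab d X)
    (hY : CStab d Y)
    (P₀ : ℤ) (ex : ∀ p, p ≠ P₀ → Ex d Y X p) (j δ : ℤ) (hδ : δ + P₀ < j + 1) :
    hh (tot deg Q (d.baseChange S)) (TG S deg Q j Y X) (low_RG S deg Q j Y X) δ = 0 := by
  rw [hh, rl_eq_zero_iff]
  rintro f ⟨hf, hDf⟩
  have hbd : ∃ m : ℕ, ∀ a, deg a < j + 2 + m := by
    refine ⟨∑ a, (deg a - j).natAbs, fun a => ?_⟩
    have h1 : (deg a - j).natAbs ≤ ∑ a, (deg a - j).natAbs :=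
      Finset.single_le_sum (f := fun a => (deg a - j).natAbs) (fun _ _ => Nat.zero_le _)
        (Finset.mem_univ a)
    have h2 : (((deg a - j).natAbs : ℕ) : ℤ) ≤ ((∑ a, (deg a - j).natAbs : ℕ) : ℤ) := by
      exact_mod_cast h1
    omega
  obtain ⟨m, hm⟩ := hbd
  obtain ⟨w, hw, h1⟩ := low_peel S deg Q hQ d hd Y X hX hY P₀ ex j δ hδ f hf hDf m (j + 2) le_rfl hm
  have e : f = tot deg Q (d.baseChange S) w + (f - tot deg Q (d.baseChange S) w) := by abel
  rw [e]
  refine Submodule.add_mem_sup ⟨w, hw, rfl⟩ ?_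
  rw [low_mem_rg]
  refine ⟨Submodule.sub_mem _ hf ?_, fun a ha => h1 a (by omega)⟩
  have := low_tg_stab S deg Q hQ j d Y X hX hY (δ + 1) w hw
  rwa [add_sub_cancel_right] at this

/-- every relative cycle in degree `j + 1` is, modulo `X`, a differential of an element whose
matrix part is a relative cycle. -/
theorem low_zz_le [Module.Flat P S] (deg : ι → ℤ) (Q : Matrix ι ι S) (hQ : IsCx deg Q)
    (d : V →ₗ[P] V) (Y X : ℤ → Submodule P V)
    (P₀ : ℤ) (ex : ∀ p, p ≠ P₀ → Ex d Y X p) (j δ : ℤ) (hδ : δ + P₀ < j + 1) :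
    zz (tot deg Q (d.baseChange S)) (low_RG S deg Q j Y X) (lift deg (bcf S X)) δ ≤
      (zz (tot deg Q (0 : (S ⊗[P] V) →ₗ[S] (S ⊗[P] V)))
        (lift deg (conc ((Y (j - δ)).baseChange S)))
        (lift deg (conc ((cz d Y X (j - δ)).baseChange S))) (j + 1)).map
          (low_sgd deg (d.baseChange S)) ⊔ lift deg (bcf S X) δ := by
  rintro f ⟨hf, hDf⟩
  change tot deg Q (d.baseChange S) f ∈ lift deg (bcf S X) (δ - 1) at hDf
  rw [mem_lift] at hDf
  rw [SetLike.mem_coe, low_mem_rg, mem_tg] at hf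
  obtain ⟨⟨h1, h2, h3⟩, h4⟩ := hf
  have key : ∀ a, ∃ v : S ⊗[P] V, v ∈ (Y (j - δ)).baseChange S ∧ (deg a ≠ j + 1 → v = 0) ∧
      (deg a = j + 1 → f a - ((deg a).negOnePow : ℤ) • (d.baseChange S) v ∈
        bcf S X (deg a - δ)) := by
    intro a
    by_cases ha : deg a = j + 1
    swap
    · exact ⟨0, Submodule.zero_mem _, fun _ => rfl, fun h => absurd h ha⟩
    have hcz : f a ∈ cz (d.baseChange S) (bcf S Y) (bcf S X) (deg a - δ) := by
      refine ⟨h1 a, ?_⟩
      change (d.baseChange S) (f a) ∈ bcf S X (deg a - δ + 1)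
      have h5 := hDf a
      have e2 : deg a - (δ - 1) = deg a - δ + 1 := by ring
      rw [tot_eq, e2] at h5
      have h6 : act Q (S ⊗[P] V) f a ∈ bcf S X (deg a - δ + 1) := by
        refine act_mem_of_deg S deg Q hQ _ a _ fun b hb => ?_
        have := h4 b (by omega)
        rw [hb] at this
        have e3 : deg a + 1 - δ = deg a - δ + 1 := by ring
        rwa [e3] at this
      exact low_sign_mem _ _ ((Submodule.add_mem_iff_right _ h6).1 h5)
    rw [cz_bcf] at hcz
    have hcb := baseChange_mono S (ex (deg a - δ) (by omega)) hcz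
    rw [← cb_bcf] at hcb
    obtain ⟨v, hv, hv'⟩ := low_cb_sign _ _ _ _ (deg a) hcb
    refine ⟨v, ?_, fun h => absurd ha h, fun _ => hv'⟩
    have e : j - δ = deg a - δ - 1 := by omega
    rw [e]
    exact hv
  choose v hv1 hv2 hv3 using key
  have hx : f - low_sgd deg (d.baseChange S) v ∈ lift deg (bcf S X) δ := by
    rw [mem_lift]
    intro a
    by_cases ha : deg a = j + 1
    · exact hv3 a ha
    · rw [Pi.sub_apply, low_sgd_apply, hv2 a ha, map_zero, smul_zero, sub_zero]
      rcases lt_or_gt_of_ne ha with h | h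
      · exact h2 a (by omega)
      · exact h4 a h
  have e : f = low_sgd deg (d.baseChange S) v + (f - low_sgd deg (d.baseChange S) v) := by abel
  rw [e]
  refine Submodule.add_mem_sup ⟨v, ⟨?_, ?_⟩, rfl⟩ hx
  · rw [SetLike.mem_coe, low_mem_lift_conc]
    exact ⟨fun a _ => hv1 a, hv2⟩
  · rw [SetLike.mem_coe, Submodule.mem_comap, low_mem_lift_conc]
    refine ⟨fun a ha => ?_, fun a ha => ?_⟩
    · have ha' : deg a = j := by omega
      rw [low_tot_zero, ← cz_bcf]
      refine ⟨act_mem Q hv1 a, ?_⟩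
      change (d.baseChange S) (act Q (S ⊗[P] V) v a) ∈ bcf S X (j - δ + 1)
      have h5 := act_sign S deg Q hQ (d.baseChange S) v a
      have h6 : act Q (S ⊗[P] V) (low_sgd deg (d.baseChange S) v) a ∈ bcf S X (j - δ + 1) := by
        have e3 : act Q (S ⊗[P] V) (low_sgd deg (d.baseChange S) v) a =
            act Q (S ⊗[P] V) f a -
              act Q (S ⊗[P] V) (f - low_sgd deg (d.baseChange S) v) a := by
          rw [map_sub, Pi.sub_apply, sub_sub_cancel]
        rw [e3]
        refine Submodule.sub_mem _ ?_ ?_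
        · have := h3 a (by omega)
          rwa [ha'] at this
        · refine act_mem_of_deg S deg Q hQ _ a _ fun b hb => ?_
          have := (mem_lift deg _ _ _).1 hx b
          have e4 : deg b - δ = j - δ + 1 := by omega
          rwa [e4] at this
      have h7 : -(((deg a).negOnePow : ℤ) • (d.baseChange S) (act Q (S ⊗[P] V) v a)) ∈
          bcf S X (j - δ + 1) := by
        rw [← h5]
        exact h6
      exact low_sign_mem _ _ ((Submodule.neg_mem_iff _).1 h7)
    · rw [low_tot_zero]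
      have := act_mem_of_deg S deg Q hQ v a (⊥ : Submodule S (S ⊗[P] V)) (fun b hb => by
        rw [Submodule.mem_bot]
        exact hv2 b (by omega))
      simpa using this

/-- the connecting map controls the boundaries. -/
theorem low_comap_le [Module.Flat P S] (deg : ι → ℤ) (Q : Matrix ι ι S)
    (d : V →ₗ[P] V) (Y X : ℤ → Submodule P V) (j δ : ℤ) :
    (bb (tot deg Q (0 : (S ⊗[P] V) →ₗ[S] (S ⊗[P] V)))
        (lift deg (conc ((cz d Y X (j - δ)).baseChange S)))
        (lift deg (conc ((X (j - δ)).baseChange S))) j).comap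
          (tot deg Q (0 : (S ⊗[P] V) →ₗ[S] (S ⊗[P] V))) ⊓
      zz (tot deg Q (0 : (S ⊗[P] V) →ₗ[S] (S ⊗[P] V)))
        (lift deg (conc ((Y (j - δ)).baseChange S)))
        (lift deg (conc ((cz d Y X (j - δ)).baseChange S))) (j + 1) ≤
      (bb (tot deg Q (d.baseChange S)) (low_RG S deg Q j Y X) (lift deg (bcf S X)) δ).comap
        (low_sgd deg (d.baseChange S)) := by
  rintro w ⟨hw1, hw2, -⟩
  obtain ⟨_, ⟨u, hu, rfl⟩, x', hx', he⟩ := Submodule.mem_sup.1 hw1
  rw [SetLike.mem_coe, low_mem_lift_conc] at hw2 hu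
  rw [low_mem_lift_conc] at hx'
  have hz : act Q (S ⊗[P] V) (w - u) = x' := by
    ext a
    have := congrFun he a
    rw [Pi.add_apply, low_tot_zero, low_tot_zero] at this
    rw [map_sub, Pi.sub_apply, ← this, add_sub_cancel_left]
  have hR : w - u ∈ low_RG S deg Q j Y X (δ + 1) := by
    rw [low_mem_rg, mem_tg]
    refine ⟨⟨fun a => ?_, fun a ha => ?_, fun a ha => ?_⟩, fun a ha => ?_⟩
    · by_cases h : deg a = j + 1
      · have e : deg a - (δ + 1) = j - δ := by omega
        rw [e, Pi.sub_apply]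
        refine Submodule.sub_mem _ (hw2.1 a h) ?_
        exact baseChange_mono S inf_le_left (hu.1 a h)
      · rw [Pi.sub_apply, hw2.2 a h, hu.2 a h, sub_zero]
        exact Submodule.zero_mem _
    · have h : deg a ≠ j + 1 := by omega
      rw [Pi.sub_apply, hw2.2 a h, hu.2 a h, sub_zero]
      exact Submodule.zero_mem _
    · rw [hz]
      by_cases h : deg a = j
      · have e : deg a - (δ + 1) + 1 = j - δ := by omega
        rw [e]
        exact hx'.1 a h
      · rw [hx'.2 a h]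
        exact Submodule.zero_mem _
    · have h : deg a ≠ j + 1 := by omega
      rw [Pi.sub_apply, hw2.2 a h, hu.2 a h, sub_zero]
      exact Submodule.zero_mem _
  rw [Submodule.mem_comap]
  have e : low_sgd deg (d.baseChange S) w = tot deg Q (d.baseChange S) (w - u) +
      (low_sgd deg (d.baseChange S) u - x') := by
    have e1 : tot deg Q (d.baseChange S) (w - u) =
        act Q (S ⊗[P] V) (w - u) + low_sgd deg (d.baseChange S) (w - u) := rfl
    rw [e1, hz, map_sub]
    abel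
  rw [e]
  refine Submodule.add_mem_sup ⟨w - u, hR, rfl⟩ ?_
  rw [mem_lift]
  intro a
  rw [Pi.sub_apply, low_sgd_apply]
  by_cases h : deg a = j + 1
  · rw [hx'.2 a (by omega), sub_zero]
    refine zsmul_mem ?_ _
    have h1 := hu.1 a h
    rw [← cz_bcf] at h1
    have h2 : (d.baseChange S) (u a) ∈ bcf S X (j - δ + 1) := h1.2
    have e : deg a - δ = j - δ + 1 := by omega
    rwa [e]
  · rw [hu.2 a h, map_zero, smul_zero, zero_sub]
    refine Submodule.neg_mem _ ?_
    by_cases h' : deg a = j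
    · have h1 := hx'.1 a h'
      rw [h']
      exact h1
    · rw [hx'.2 a h']
      exact Submodule.zero_mem _

/-- the part in degree `j + 1` is bounded by a connecting map. -/
theorem low_bot_le [Module.Flat P S] (deg : ι → ℤ) (Q : Matrix ι ι S) (hQ : IsCx deg Q)
    (d : V →ₗ[P] V) (Y X : ℤ → Submodule P V)
    (P₀ : ℤ) (ex : ∀ p, p ≠ P₀ → Ex d Y X p) (j δ : ℤ) (hδ : δ + P₀ < j + 1) :
    hh (tot deg Q (d.baseChange S)) (low_RG S deg Q j Y X) (lift deg (bcf S X)) δ ≤
      rl (bb (tot deg Q (0 : (S ⊗[P] V) →ₗ[S] (S ⊗[P] V)))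
        (lift deg (conc ((cz d Y X (j - δ)).baseChange S)))
        (lift deg (conc ((X (j - δ)).baseChange S))) j)
      ((zz (tot deg Q (0 : (S ⊗[P] V) →ₗ[S] (S ⊗[P] V)))
        (lift deg (conc ((Y (j - δ)).baseChange S)))
        (lift deg (conc ((cz d Y X (j - δ)).baseChange S))) (j + 1)).map
          (tot deg Q (0 : (S ⊗[P] V) →ₗ[S] (S ⊗[P] V))) ⊔
      bb (tot deg Q (0 : (S ⊗[P] V) →ₗ[S] (S ⊗[P] V)))
        (lift deg (conc ((cz d Y X (j - δ)).baseChange S)))
        (lift deg (conc ((X (j - δ)).baseChange S))) j) := by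
  rw [les_rl_sup, rl_inf_left, les_rl_map_right, ← rl_inf_left]
  refine le_trans ?_ (rl_anti_left (low_comap_le S deg Q d Y X j δ))
  rw [← les_rl_map_right, ← rl_sup_right]
  refine rl_mono_right ?_
  refine (low_zz_le S deg Q hQ d Y X P₀ ex j δ hδ).trans ?_
  rw [sup_comm]
  exact sup_le_sup_right le_sup_right _

/-- below the diagonal the truncated window is bounded by a connecting map. -/
theorem tg_low_conn [Module.Flat P S] (deg : ι → ℤ) (Q : Matrix ι ι S) (hQ : IsCx deg Q)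
    (d : V →ₗ[P] V) (hd : ∀ x, d (d x) = 0) (Y X : ℤ → Submodule P V) (hX : CStab d X)
    (hY : CStab d Y) (hXY : ∀ p, X p ≤ Y p)
    (P₀ : ℤ) (ex : ∀ p, p ≠ P₀ → Ex d Y X p) (j δ : ℤ) (hδ : δ + P₀ < j + 1) :
    hh (tot deg Q (d.baseChange S)) (TG S deg Q j Y X) (lift deg (bcf S X)) δ ≤
      rl (bb (tot deg Q (0 : (S ⊗[P] V) →ₗ[S] (S ⊗[P] V)))
        (lift deg (conc ((cz d Y X (j - δ)).baseChange S)))
        (lift deg (conc ((X (j - δ)).baseChange S))) j)
      ((zz (tot deg Q (0 : (S ⊗[P] V) →ₗ[S] (S ⊗[P] V)))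
        (lift deg (conc ((Y (j - δ)).baseChange S)))
        (lift deg (conc ((cz d Y X (j - δ)).baseChange S))) (j + 1)).map
          (tot deg Q (0 : (S ⊗[P] V) →ₗ[S] (S ⊗[P] V))) ⊔
      bb (tot deg Q (0 : (S ⊗[P] V) →ₗ[S] (S ⊗[P] V)))
        (lift deg (conc ((cz d Y X (j - δ)).baseChange S)))
        (lift deg (conc ((X (j - δ)).baseChange S))) j) := by
  refine (hh_le_add (tot deg Q (d.baseChange S)) (tot_tot deg Q hQ _ (low_bc_sq S d hd))
    (lift deg (bcf S X)) (low_RG S deg Q j Y X) (TG S deg Q j Y X)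
    (lift_stab deg Q hQ _ _ (bcf_cstab S d hX)) (low_rg_stab S deg Q hQ j d Y X hX hY)
    (low_tg_stab S deg Q hQ j d Y X hX hY) (low_lift_le_rg S deg Q hQ j Y X hXY)
    (fun _ => inf_le_left) δ).trans ?_
  rw [low_top_zero S deg Q hQ d hd Y X hX hY P₀ ex j δ hδ, zero_add]
  exact low_bot_le S deg Q hQ d Y X P₀ ex j δ hδ

/-- TASK G3-C3: below the diagonal the truncated window is small. -/
theorem tg_low3 [Module.Flat P S] (deg : ι → ℤ) (Q : Matrix ι ι S) (hQ : IsCx deg Q)
    (d : V →ₗ[P] V)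
    (hd : ∀ x, d (d x) = 0) (Y X : ℤ → Submodule P V) (hX : CStab d X) (hY : CStab d Y)
    (hXY : ∀ p, X p ≤ Y p) (c lam : ℕ) (hc : 1 ≤ c) (t : ℤ → ℕ) (ε : ℕ)
    (E : ∀ p, Est S deg Q c lam t ε (X p) (Y p)) (P₀ : ℤ) (ex : ∀ p, p ≠ P₀ → Ex d Y X p)
    (j δ : ℤ) (hδ : δ + P₀ < j + 1) :
    hh (tot deg Q (d.baseChange S)) (TG S deg Q j Y X) (lift deg (bcf S X)) δ ≤
      ((3 * ε : ℕ) : ℕ∞) := by
  refine (tg_low_conn S deg Q hQ d hd Y X hX hY hXY P₀ ex j δ hδ).trans ?_
  have hXc : X (j - δ) ≤ cz d Y X (j - δ) := le_inf (hXY _) (hX _)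
  have h := conn_le S deg Q hQ c lam hc t ε (X (j - δ)) (Y (j - δ)) (X (j - δ))
    (cz d Y X (j - δ)) (Y (j - δ)) le_rfl hXc inf_le_left le_rfl (E (j - δ)) (j + 1)
  rw [add_sub_cancel_right] at h
  exact h

end Low

end Vale.Agent.P202.CharP.Gen2
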