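import Vale.Agent.P202.CharP.Gen2.TgLow
import Vale.Agent.P202.CharP.Gen2.ConnC

/-!
P202-G3-C3: below the diagonal the truncated window is small, with the normalization factor.
-/

namespace Vale.Agent.P202.CharP.Gen2

open Submodule TensorProduct Gen

variable {P : Type*} [CommRing P] {V : Type*} [AddCommGroup V] [Module P V]
  (S : Type*) [CommRing S] [Algebra P S] [Module.Flat P S] {ι : Type*} [Fintype ι]

/-- TASK G3-C3: below the diagonal the truncated window is small. -/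
theorem tg_low3_c (deg : ι → ℤ) (Q : Matrix ι ι S) (hQ : IsCx deg Q) (d : V →ₗ[P] V)
    (hd : ∀ x, d (d x) = 0) (Y X : ℤ → Submodule P V) (hX : CStab d X) (hY : CStab d Y)
    (hXY : ∀ p, X p ≤ Y p) (c lam : ℕ) (hc : 1 ≤ c) (t : ℤ → ℕ) (ε : ℕ)
    (E : ∀ p, Est S deg Q c lam t ε (X p) (Y p)) (P₀ : ℤ) (ex : ∀ p, p ≠ P₀ → Ex d Y X p)
    (j δ : ℤ) (hδ : δ + P₀ < j + 1) :
    (c : ℕ∞) * hh (tot deg Q (d.baseChange S)) (TG S deg Q j Y X) (lift deg (bcf S X)) δ ≤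
      ((3 * ε : ℕ) : ℕ∞) := by
  refine (mul_le_mul_right (tg_low_conn S deg Q hQ d hd Y X hX hY hXY P₀ ex j δ hδ) _).trans ?_
  have hXc : X (j - δ) ≤ cz d Y X (j - δ) := le_inf (hXY _) (hX _)
  have h := conn_le_c S deg Q hQ c lam hc t ε (X (j - δ)) (Y (j - δ)) (X (j - δ))
    (cz d Y X (j - δ)) (Y (j - δ)) le_rfl hXc inf_le_left le_rfl (E (j - δ)) (j + 1)
  rw [add_sub_cancel_right] at h
  exact h

end Vale.Agent.P202.CharP.Gen2
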