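import Vale.Agent.P202.CharP.Gen2.DefsC
import Vale.Agent.P202.CharP.Gen.TruncG
import Vale.Agent.P202.CharP.TotRows
import Vale.Agent.P202.CharP.Les
import Vale.Agent.P202.CharP.Gen2.Conn

/-!
P202-G3-C4: above the diagonal the quotient by the truncated window is small.
-/

set_option linter.all false

namespace Vale.Agent.P202.CharP.Gen2

open Submodule TensorProduct Gen

/-- comparison of relative lengths along a linear map. -/
theorem tgup_rl_le {A M M' : Type*} [CommRing A] [AddCommGroup M] [Module A M]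
    [AddCommGroup M'] [Module A M'] (f : M →ₗ[A] M') (B Z : Submodule A M)
    (B' Z' : Submodule A M') (h1 : ∀ z ∈ Z, f z ∈ Z') (h2 : ∀ z ∈ Z, f z ∈ B' → z ∈ B) :
    rl B Z ≤ rl B' Z' := by
  calc rl B Z = rl (B ⊓ Z) Z := (rl_inf_left B Z).symm
    _ ≤ rl (B'.comap f ⊓ Z) Z := rl_anti_left (by
        rintro z ⟨hz1, hz2⟩
        exact ⟨h2 z hz2 hz1, hz2⟩)
    _ = rl (B'.comap f) Z := rl_inf_left _ _
    _ = rl B' (Z.map f) := (les_rl_map_right f B' Z).symm
    _ ≤ rl B' Z' := rl_mono_right (by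
        rintro _ ⟨z, hz, rfl⟩
        exact h1 z hz)

section

variable {P : Type*} [CommRing P] {V : Type*} [AddCommGroup V] [Module P V]
  (S : Type*) [CommRing S] [Algebra P S] [Module.Flat P S] {ι : Type*} [Fintype ι]

/-- the part of `f` in `L`-degree `i`. -/
noncomputable def tgupR {M : Type*} [AddCommGroup M] (deg : ι → ℤ) (i : ℤ) (f : ι → M) : ι → M :=
  fun a => if deg a = i then f a else 0

/-- the `d`-part in `L`-degree `j`. -/
noncomputable def tgupF {S : Type*} [CommRing S] {M : Type*} [AddCommGroup M] [Module S M]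
    (deg : ι → ℤ) (j : ℤ) (d : M →ₗ[S] M) : (ι → M) →ₗ[S] (ι → M) where
  toFun f a := if deg a = j then ((deg a).negOnePow : ℤ) • d (f a) else 0
  map_add' f g := by
    ext a
    by_cases h : deg a = j <;> simp [h]
  map_smul' c f := by
    ext a
    by_cases h : deg a = j
    · simp only [h, if_true, Pi.smul_apply, RingHom.id_apply, map_smul]
      exact smul_comm _ _ _
    · simp [h]

theorem tgupF_apply {S : Type*} [CommRing S] {M : Type*} [AddCommGroup M] [Module S M]
    (deg : ι → ℤ) (j : ℤ) (d : M →ₗ[S] M) (f : ι → M) (a : ι) :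
    tgupF deg j d f a = if deg a = j then ((deg a).negOnePow : ℤ) • d (f a) else 0 := rfl

/-- the differential of a family supported in degree `i`. -/
theorem tgup_act_eq_zero {S : Type*} [CommRing S] {M : Type*} [AddCommGroup M] [Module S M]
    (deg : ι → ℤ) (Q : Matrix ι ι S) (hQ : IsCx deg Q) (f : ι → M) (a : ι)
    (h : ∀ b, deg b = deg a + 1 → f b = 0) : act Q M f a = 0 := by
  have := act_mem_of_deg S deg Q hQ f a (⊥ : Submodule S M) (fun b hb => by
    rw [h b hb]; exact Submodule.zero_mem _)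
  simpa using this

theorem tgup_act_congr {S : Type*} [CommRing S] {M : Type*} [AddCommGroup M] [Module S M]
    (deg : ι → ℤ) (Q : Matrix ι ι S) (hQ : IsCx deg Q) (f g : ι → M) (a : ι)
    (h : ∀ b, deg b = deg a + 1 → f b = g b) : act Q M f a = act Q M g a := by
  have := tgup_act_eq_zero deg Q hQ (f - g) a (fun b hb => by simp [h b hb])
  rw [map_sub, Pi.sub_apply, sub_eq_zero] at this
  exact this

/-- exactness after base change, elementwise. -/
theorem tgup_exact (d : V →ₗ[P] V) (Y X : ℤ → Submodule P V) (p : ℤ) (ex : Ex d Y X p)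
    (y : S ⊗[P] V) (hy : y ∈ bcf S Y p) (hdy : d.baseChange S y ∈ bcf S X (p + 1)) :
    ∃ w ∈ bcf S Y (p - 1), y - d.baseChange S w ∈ bcf S X p := by
  have h1 : y ∈ cz (d.baseChange S) (bcf S Y) (bcf S X) p := ⟨hy, hdy⟩
  rw [cz_bcf] at h1
  have h2 : y ∈ cb (d.baseChange S) (bcf S Y) (bcf S X) p := by
    rw [cb_bcf]
    exact baseChange_mono S ex h1
  obtain ⟨_, ⟨w, hw, rfl⟩, x, hx, e⟩ := Submodule.mem_sup.1 h2
  refine ⟨w, hw, ?_⟩
  rw [← e, add_sub_cancel_left]
  exact hx

/-- one peeling step. -/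
theorem tgup_peel (deg : ι → ℤ) (Q : Matrix ι ι S) (hQ : IsCx deg Q) (d : V →ₗ[P] V)
    (Y X : ℤ → Submodule P V) (hX : CStab d X) (j δ : ℤ)
    (ex : ∀ i, i ≤ j → Ex d Y X (i - δ)) (k : ℕ) (z : ι → S ⊗[P] V)
    (hz : z ∈ lift deg (bcf S Y) δ)
    (hDz : ∀ a, deg a ≤ j → tot deg Q (d.baseChange S) z a ∈ bcf S X (deg a - δ + 1))
    (hd : ∀ x, d (d x) = 0)
    (hzX : ∀ a, j - k ≤ deg a → deg a ≤ j → z a ∈ bcf S X (deg a - δ)) :
    ∃ w ∈ lift deg (bcf S Y) (δ + 1), ∀ a, j - (k + 1 : ℕ) ≤ deg a → deg a ≤ j →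
      (z - tot deg Q (d.baseChange S) w) a ∈ bcf S X (deg a - δ) := by
  have key : ∀ a, deg a = j - (k + 1 : ℕ) → ∃ w ∈ bcf S Y (deg a - δ - 1),
      z a - d.baseChange S w ∈ bcf S X (deg a - δ) := by
    intro a ha
    have haj : deg a ≤ j := by rw [ha]; omega
    refine tgup_exact S d Y X _ (ex _ haj) (z a) ((mem_lift _ _ _ _).1 hz a) ?_
    have h1 := hDz a haj
    rw [tot_eq] at h1
    have h2 : act Q (S ⊗[P] V) z a ∈ bcf S X (deg a - δ + 1) := by
      refine act_mem_of_deg S deg Q hQ z a _ fun b hb => ?_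
      have h3 := hzX b (by rw [hb, ha]; push_cast; omega) (by rw [hb, ha]; push_cast; omega)
      rw [hb] at h3
      have e2 : deg a + 1 - δ = deg a - δ + 1 := by ring
      rwa [e2] at h3
    have h4 := (Submodule.add_mem_iff_right _ h2).1 h1
    have h5 := zsmul_mem h4 ((deg a).negOnePow : ℤ)
    rw [smul_smul, negOnePow_mul_self, one_smul] at h5
    exact h5
  choose! w hw1 hw2 using key
  let W : ι → S ⊗[P] V := fun a => if deg a = j - (k + 1 : ℕ) then
    ((deg a).negOnePow : ℤ) • w a else 0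
  refine ⟨W, ?_, ?_⟩
  · rw [mem_lift]
    intro a
    by_cases ha : deg a = j - (k + 1 : ℕ)
    · simp only [W, if_pos ha]
      have e : deg a - (δ + 1) = deg a - δ - 1 := by ring
      rw [e]
      exact zsmul_mem (hw1 a ha) _
    · simp only [W, if_neg ha]
      exact Submodule.zero_mem _
  · intro a ha1 ha2
    rw [Pi.sub_apply, tot_eq]
    have h0 : act Q (S ⊗[P] V) W a = 0 := by
      refine tgup_act_eq_zero deg Q hQ W a fun b hb => ?_
      have : ¬ deg b = j - (k + 1 : ℕ) := by rw [hb]; omega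
      simp only [W, if_neg this]
    rw [h0, zero_add]
    by_cases ha : deg a = j - (k + 1 : ℕ)
    · have h1 : W a = ((deg a).negOnePow : ℤ) • w a := by simp only [W, if_pos ha]
      rw [h1, map_zsmul, smul_smul, negOnePow_mul_self, one_smul]
      exact hw2 a ha
    · have h1 : W a = 0 := by simp only [W, if_neg ha]
      rw [h1, map_zero, smul_zero, sub_zero]
      refine hzX a ?_ ha2
      push_cast at ha1 ha
      omega

/-- all peeling steps. -/
theorem tgup_peel_all (deg : ι → ℤ) (Q : Matrix ι ι S) (hQ : IsCx deg Q) (d : V →ₗ[P] V)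
    (hd : ∀ x, d (d x) = 0)
    (Y X : ℤ → Submodule P V) (hX : CStab d X) (hY : CStab d Y) (j δ : ℤ)
    (ex : ∀ i, i ≤ j → Ex d Y X (i - δ)) (z : ι → S ⊗[P] V)
    (hz : z ∈ lift deg (bcf S Y) δ)
    (hDz : ∀ a, deg a ≤ j → tot deg Q (d.baseChange S) z a ∈ bcf S X (deg a - δ + 1))
    (hzX : ∀ a, deg a = j → z a ∈ bcf S X (deg a - δ)) (k : ℕ) :
    ∃ w ∈ lift deg (bcf S Y) (δ + 1), ∀ a, j - k ≤ deg a → deg a ≤ j →
      (z - tot deg Q (d.baseChange S) w) a ∈ bcf S X (deg a - δ) := by
  have hdd : ∀ x, (d.baseChange S) ((d.baseChange S) x) = 0 := by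
    intro x
    have : (d.baseChange S) ∘ₗ (d.baseChange S) = 0 := by
      rw [← LinearMap.baseChange_comp]
      have : d ∘ₗ d = 0 := by ext x; exact hd x
      rw [this, LinearMap.baseChange_zero]
    exact LinearMap.congr_fun this x
  induction k with
  | zero =>
    refine ⟨0, Submodule.zero_mem _, fun a h1 h2 => ?_⟩
    rw [map_zero, sub_zero]
    exact hzX a (by push_cast at h1; omega)
  | succ k ih =>
    obtain ⟨w, hw, h⟩ := ih
    have hDw : tot deg Q (d.baseChange S) w ∈ lift deg (bcf S Y) δ := by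
      have := lift_stab deg Q hQ (d.baseChange S) (bcf S Y) (bcf_cstab S d hY) (δ + 1) w hw
      rwa [add_sub_cancel_right] at this
    obtain ⟨w', hw', h'⟩ := tgup_peel S deg Q hQ d Y X hX j δ ex k
      (z - tot deg Q (d.baseChange S) w) (Submodule.sub_mem _ hz hDw) (by
        intro a ha
        rw [map_sub, tot_tot deg Q hQ _ hdd, sub_zero]
        exact hDz a ha) hd h
    refine ⟨w + w', Submodule.add_mem _ hw hw', ?_⟩
    intro a h1 h2
    rw [map_add, ← sub_sub]
    exact h' a h1 h2

/-- an element without components in `L`-degree `≤ j` modulo `X` is a relative boundary. -/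
theorem tgup_mem_bb (deg : ι → ℤ) (Q : Matrix ι ι S) (hQ : IsCx deg Q) (d : V →ₗ[P] V)
    (hd : ∀ x, d (d x) = 0)
    (Y X : ℤ → Submodule P V) (hX : CStab d X) (hY : CStab d Y) (j δ : ℤ)
    (ex : ∀ i, i ≤ j → Ex d Y X (i - δ)) (z : ι → S ⊗[P] V)
    (hz : z ∈ lift deg (bcf S Y) δ)
    (hDz : ∀ a, deg a ≤ j → tot deg Q (d.baseChange S) z a ∈ bcf S X (deg a - δ + 1))
    (hzX : ∀ a, deg a = j → z a ∈ bcf S X (deg a - δ)) :
    z ∈ bb (tot deg Q (d.baseChange S)) (lift deg (bcf S Y)) (TG S deg Q j Y X) δ := by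
  obtain ⟨k, hk⟩ : ∃ k : ℕ, ∀ a, j - k ≤ deg a := by
    refine ⟨∑ a, (j - deg a).toNat, fun a => ?_⟩
    have h1 : (j - deg a).toNat ≤ ∑ a, (j - deg a).toNat :=
      Finset.single_le_sum (f := fun a => (j - deg a).toNat) (fun _ _ => Nat.zero_le _)
        (Finset.mem_univ a)
    have h2 := Int.self_le_toNat (j - deg a)
    omega
  have hdd : ∀ x, (d.baseChange S) ((d.baseChange S) x) = 0 := by
    intro x
    have : (d.baseChange S) ∘ₗ (d.baseChange S) = 0 := by
      rw [← LinearMap.baseChange_comp]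
      have : d ∘ₗ d = 0 := by ext x; exact hd x
      rw [this, LinearMap.baseChange_zero]
    exact LinearMap.congr_fun this x
  obtain ⟨w, hw, h⟩ := tgup_peel_all S deg Q hQ d hd Y X hX hY j δ ex z hz hDz hzX k
  have hDw : tot deg Q (d.baseChange S) w ∈ lift deg (bcf S Y) δ := by
    have := lift_stab deg Q hQ (d.baseChange S) (bcf S Y) (bcf_cstab S d hY) (δ + 1) w hw
    rwa [add_sub_cancel_right] at this
  have e : z = tot deg Q (d.baseChange S) w + (z - tot deg Q (d.baseChange S) w) := by abel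
  rw [e]
  refine Submodule.add_mem_sup ⟨w, hw, rfl⟩ ?_
  set z' := z - tot deg Q (d.baseChange S) w with hz'
  rw [mem_tg]
  have hX' : ∀ a, deg a ≤ j → z' a ∈ bcf S X (deg a - δ) := fun a ha => h a (hk a) ha
  refine ⟨(mem_lift _ _ _ _).1 (Submodule.sub_mem _ hz hDw), hX', fun a ha => ?_⟩
  have h1 : tot deg Q (d.baseChange S) z' a ∈ bcf S X (deg a - δ + 1) := by
    rw [hz', map_sub, tot_tot deg Q hQ _ hdd, sub_zero]
    exact hDz a ha
  rw [tot_eq] at h1
  exact (Submodule.add_mem_iff_left _ (zsmul_mem (bcf_cstab S d hX _ _ (hX' a ha)) _)).1 h1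

/-- the quotient of the window by the truncated window is bounded by a connecting map. -/
theorem tgup_rl (deg : ι → ℤ) (Q : Matrix ι ι S) (hQ : IsCx deg Q) (d : V →ₗ[P] V)
    (hd : ∀ x, d (d x) = 0) (Y X : ℤ → Submodule P V) (hX : CStab d X) (hY : CStab d Y)
    (hXY : ∀ p, X p ≤ Y p) (j δ : ℤ) (ex : ∀ i, i ≤ j → Ex d Y X (i - δ)) :
    hh (tot deg Q (d.baseChange S)) (lift deg (bcf S Y)) (TG S deg Q j Y X) δ ≤
      rl (bb (tot deg Q (0 : (S ⊗[P] V) →ₗ[S] (S ⊗[P] V)))
          (lift deg (conc ((cb d Y X (j - δ + 1)).baseChange S)))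
          (lift deg (conc ((X (j - δ + 1)).baseChange S))) j)
        ((zz (tot deg Q (0 : (S ⊗[P] V) →ₗ[S] (S ⊗[P] V)))
          (lift deg (conc ((Y (j - δ + 1)).baseChange S)))
          (lift deg (conc ((cb d Y X (j - δ + 1)).baseChange S))) (j + 1)).map
          (tot deg Q (0 : (S ⊗[P] V) →ₗ[S] (S ⊗[P] V))) ⊔
        bb (tot deg Q (0 : (S ⊗[P] V) →ₗ[S] (S ⊗[P] V)))
          (lift deg (conc ((cb d Y X (j - δ + 1)).baseChange S)))
          (lift deg (conc ((X (j - δ + 1)).baseChange S))) j) := by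
  have hI : (cb d Y X (j - δ + 1)).baseChange S =
      (bcf S Y (j - δ)).map (d.baseChange S) ⊔ bcf S X (j - δ + 1) := by
    rw [← cb_bcf, cb, add_sub_cancel_right]
  have hdY := bcf_cstab S d hY
  have hdX := bcf_cstab S d hX
  have h00 : ∀ (g : ι → S ⊗[P] V) (a : ι),
      tot deg Q (0 : (S ⊗[P] V) →ₗ[S] (S ⊗[P] V)) g a = act Q (S ⊗[P] V) g a := by
    intro g a
    rw [tot_eq, LinearMap.zero_apply, smul_zero, add_zero]
  refine tgup_rl_le (tgupF deg j (d.baseChange S)) _ _ _ _ ?_ ?_
  · rintro z ⟨hz1, hz2⟩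
    rw [SetLike.mem_coe, mem_lift] at hz1
    have hz3 := ((mem_tg S deg Q j Y X (δ - 1) _).1 hz2).2.1
    have hg : tgupR deg (j + 1) z ∈ zz (tot deg Q (0 : (S ⊗[P] V) →ₗ[S] (S ⊗[P] V)))
          (lift deg (conc ((Y (j - δ + 1)).baseChange S)))
          (lift deg (conc ((cb d Y X (j - δ + 1)).baseChange S))) (j + 1) := by
      refine ⟨?_, ?_⟩
      · rw [SetLike.mem_coe, TR.mem_lift_conc]
        refine fun a => ⟨fun ha => ?_, fun ha => by simp only [tgupR, if_neg ha]⟩
        have := hz1 a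
        rw [ha] at this
        simp only [tgupR, if_pos ha]
        have e : j + 1 - δ = j - δ + 1 := by ring
        rw [e] at this
        exact this
      · rw [SetLike.mem_coe, Submodule.mem_comap, add_sub_cancel_right, TR.mem_lift_conc]
        refine fun a => ⟨fun ha => ?_, fun ha => ?_⟩
        · rw [h00]
          have e1 : act Q (S ⊗[P] V) (tgupR deg (j + 1) z) a = act Q (S ⊗[P] V) z a := by
            refine tgup_act_congr deg Q hQ _ _ a fun b hb => ?_
            have : deg b = j + 1 := by rw [hb, ha]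
            simp only [tgupR, if_pos this]
          rw [e1, hI]
          have h1 := hz3 a ha.le
          rw [tot_eq, ha] at h1
          have e2 : j - (δ - 1) = j - δ + 1 := by ring
          rw [e2] at h1
          have h2 : act Q (S ⊗[P] V) z a = (act Q (S ⊗[P] V) z a +
              (j.negOnePow : ℤ) • (d.baseChange S) (z a)) -
              (j.negOnePow : ℤ) • (d.baseChange S) (z a) := by abel
          rw [h2]
          refine Submodule.sub_mem _ (Submodule.mem_sup_right h1) (Submodule.mem_sup_left ?_)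
          refine zsmul_mem ?_ _
          have := hz1 a
          rw [ha] at this
          exact ⟨_, this, rfl⟩
        · rw [h00]
          refine tgup_act_eq_zero deg Q hQ _ a fun b hb => ?_
          have : ¬ deg b = j + 1 := by rw [hb]; omega
          simp only [tgupR, if_neg this]
    have e : tgupF deg j (d.baseChange S) z =
        -(tot deg Q (0 : (S ⊗[P] V) →ₗ[S] (S ⊗[P] V)) (tgupR deg (j + 1) z)) +
        (tgupF deg j (d.baseChange S) z +
          tot deg Q (0 : (S ⊗[P] V) →ₗ[S] (S ⊗[P] V)) (tgupR deg (j + 1) z)) := by abel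
    rw [e]
    refine Submodule.add_mem_sup (Submodule.neg_mem _ ⟨_, hg, rfl⟩)
      (Submodule.mem_sup_right ?_)
    rw [TR.mem_lift_conc]
    refine fun a => ⟨fun ha => ?_, fun ha => ?_⟩
    · rw [Pi.add_apply, h00, tgupF_apply, if_pos ha]
      have e1 : act Q (S ⊗[P] V) (tgupR deg (j + 1) z) a = act Q (S ⊗[P] V) z a := by
        refine tgup_act_congr deg Q hQ _ _ a fun b hb => ?_
        have : deg b = j + 1 := by rw [hb, ha]
        simp only [tgupR, if_pos this]
      rw [e1]
      have h1 := hz3 a ha.le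
      rw [tot_eq, add_comm] at h1
      have e2 : deg a - (δ - 1) = j - δ + 1 := by rw [ha]; ring
      rw [e2] at h1
      exact h1
    · rw [Pi.add_apply, h00, tgupF_apply, if_neg ha, zero_add]
      refine tgup_act_eq_zero deg Q hQ _ a fun b hb => ?_
      have : ¬ deg b = j + 1 := by rw [hb]; omega
      simp only [tgupR, if_neg this]
  · rintro z ⟨hz1, hz2⟩ hz
    rw [SetLike.mem_coe, mem_lift] at hz1
    have hz3 := ((mem_tg S deg Q j Y X (δ - 1) _).1 hz2).2.1
    obtain ⟨_, ⟨g, hg, rfl⟩, x, hx, e⟩ := Submodule.mem_sup.1 hz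
    rw [SetLike.mem_coe, TR.mem_lift_conc] at hg
    rw [TR.mem_lift_conc] at hx
    have key : ∀ a, deg a = j + 1 → ∃ y ∈ bcf S Y (j - δ),
        g a - d.baseChange S y ∈ bcf S X (j - δ + 1) := by
      intro a ha
      have h1 := (hg a).1 ha
      rw [hI] at h1
      obtain ⟨_, ⟨y, hy, rfl⟩, x', hx', e'⟩ := Submodule.mem_sup.1 h1
      refine ⟨y, hy, ?_⟩
      rw [← e', add_sub_cancel_left]
      exact hx'
    choose! g' hg1 hg2 using key
    let G : ι → S ⊗[P] V := fun a => if deg a = j + 1 then g' a else 0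
    have hGY : ∀ a, G a ∈ bcf S Y (j - δ) := by
      intro a
      by_cases ha : deg a = j + 1
      · simp only [G, if_pos ha]; exact hg1 a ha
      · simp only [G, if_neg ha]; exact Submodule.zero_mem _
    -- degree j
    have key2 : ∀ a, deg a = j → ∃ w ∈ bcf S Y (j - δ - 1),
        (((deg a).negOnePow : ℤ) • z a - act Q (S ⊗[P] V) G a) - d.baseChange S w ∈
          bcf S X (j - δ) := by
      intro a ha
      refine tgup_exact S d Y X (j - δ) (ex j le_rfl) _ ?_ ?_
      · refine Submodule.sub_mem _ (zsmul_mem ?_ _) ?_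
        · have := hz1 a
          rwa [ha] at this
        · exact act_mem Q hGY a
      · rw [map_sub, map_zsmul, ← act_comp Q (d.baseChange S) G a]
        have h1 := congrFun e a
        rw [Pi.add_apply, h00, tgupF_apply, if_pos ha] at h1
        rw [← h1]
        have h2 : act Q (S ⊗[P] V) g a + x a -
            act Q (S ⊗[P] V) (fun b => d.baseChange S (G b)) a =
            act Q (S ⊗[P] V) (g - fun b => d.baseChange S (G b)) a + x a := by
          rw [map_sub, Pi.sub_apply]; abel
        rw [h2]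
        refine Submodule.add_mem _ ?_ ((hx a).1 ha)
        refine act_mem_of_deg S deg Q hQ _ a _ fun b hb => ?_
        have hb' : deg b = j + 1 := by rw [hb, ha]
        rw [Pi.sub_apply]
        simp only [G, if_pos hb']
        exact hg2 b hb'
    choose! w hw1 hw2 using key2
    let W : ι → S ⊗[P] V := fun a => if deg a = j + 1 then (j.negOnePow : ℤ) • g' a else
      if deg a = j then w a else 0
    have hW : W ∈ lift deg (bcf S Y) (δ + 1) := by
      rw [mem_lift]
      intro a
      by_cases ha : deg a = j + 1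
      · simp only [W, if_pos ha]
        have e1 : deg a - (δ + 1) = j - δ := by rw [ha]; ring
        rw [e1]
        exact zsmul_mem (hg1 a ha) _
      · by_cases ha' : deg a = j
        · simp only [W, if_neg ha, if_pos ha']
          have e1 : deg a - (δ + 1) = j - δ - 1 := by rw [ha']; ring
          rw [e1]
          exact hw1 a ha'
        · simp only [W, if_neg ha, if_neg ha']
          exact Submodule.zero_mem _
    have hdd : ∀ x, (d.baseChange S) ((d.baseChange S) x) = 0 := by
      intro x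
      have : (d.baseChange S) ∘ₗ (d.baseChange S) = 0 := by
        rw [← LinearMap.baseChange_comp]
        have : d ∘ₗ d = 0 := by ext x; exact hd x
        rw [this, LinearMap.baseChange_zero]
      exact LinearMap.congr_fun this x
    have hDW : tot deg Q (d.baseChange S) W ∈ lift deg (bcf S Y) δ := by
      have := lift_stab deg Q hQ (d.baseChange S) (bcf S Y) hdY (δ + 1) W hW
      rwa [add_sub_cancel_right] at this
    have hz' := tgup_mem_bb S deg Q hQ d hd Y X hX hY j δ ex
      (z - tot deg Q (d.baseChange S) W) (Submodule.sub_mem _ ((mem_lift _ _ _ _).2 hz1) hDW)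
      (by
        intro a ha
        rw [map_sub, tot_tot deg Q hQ _ hdd, sub_zero]
        have h1 := hz3 a ha
        have e2 : deg a - (δ - 1) = deg a - δ + 1 := by ring
        rwa [e2] at h1)
      (by
        intro a ha
        rw [Pi.sub_apply, tot_eq]
        have hj1 : ¬ deg a = j + 1 := by rw [ha]; omega
        have h1 : W a = w a := by simp only [W, if_neg hj1, if_pos ha]
        have h2 : act Q (S ⊗[P] V) W a = (j.negOnePow : ℤ) • act Q (S ⊗[P] V) G a := by
          have h3 : act Q (S ⊗[P] V) W a =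
              act Q (S ⊗[P] V) (fun b => (j.negOnePow : ℤ) • G b) a := by
            refine tgup_act_congr deg Q hQ _ _ a fun b hb => ?_
            have hb' : deg b = j + 1 := by rw [hb, ha]
            simp only [W, G, if_pos hb']
          rw [h3]
          change act Q (S ⊗[P] V) ((j.negOnePow : ℤ) • G) a = _
          rw [map_zsmul, Pi.smul_apply]
        rw [h1, h2, ha]
        have h4 := hw2 a ha
        rw [ha] at h4
        have h5 := zsmul_mem h4 (j.negOnePow : ℤ)
        rw [smul_sub, smul_sub, smul_smul, negOnePow_mul_self, one_smul] at h5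
        rwa [sub_sub] at h5)
    have e3 : z = tot deg Q (d.baseChange S) W + (z - tot deg Q (d.baseChange S) W) := by abel
    rw [e3]
    exact Submodule.add_mem _ (Submodule.mem_sup_left ⟨W, hW, rfl⟩) hz'

/-- TASK G3-C4: above the diagonal the quotient by the truncated window is small. -/
theorem tg_up3 (deg : ι → ℤ) (Q : Matrix ι ι S) (hQ : IsCx deg Q) (d : V →ₗ[P] V)
    (hd : ∀ x, d (d x) = 0) (Y X : ℤ → Submodule P V) (hX : CStab d X) (hY : CStab d Y)
    (hXY : ∀ p, X p ≤ Y p) (c lam : ℕ) (hc : 1 ≤ c) (t : ℤ → ℕ) (ε : ℕ)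
    (E : ∀ p, Est S deg Q c lam t ε (X p) (Y p)) (P₀ : ℤ) (ex : ∀ p, p ≠ P₀ → Ex d Y X p)
    (j δ : ℤ) (hδ : j < δ + P₀) :
    hh (tot deg Q (d.baseChange S)) (lift deg (bcf S Y)) (TG S deg Q j Y X) δ ≤
      ((3 * ε : ℕ) : ℕ∞) := by
  refine (tgup_rl S deg Q hQ d hd Y X hX hY hXY j δ fun i hi => ex _ (by omega)).trans ?_
  have h1 : cb d Y X (j - δ + 1) ≤ Y (j - δ + 1) := by
    refine sup_le ?_ (hXY _)
    rintro _ ⟨y, hy, rfl⟩
    have := hY _ y hy
    rwa [sub_add_cancel] at this
  have h := conn_le S deg Q hQ c lam hc t ε (X (j - δ + 1)) (Y (j - δ + 1)) (X (j - δ + 1))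
    (cb d Y X (j - δ + 1)) (Y (j - δ + 1)) le_rfl le_sup_right h1 le_rfl (E _) (j + 1)
  rwa [add_sub_cancel_right] at h

end

end Vale.Agent.P202.CharP.Gen2
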